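import Crest.Agent.R95.Trace

/-!
# R95: the Cayley transform and the resolvent in a C*-algebra (helper935)
-/

set_option autoImplicit false

namespace Crest.Agent.R95

open Complex

section Basic

variable {A : Type*} [CStarAlgebra A]

theorem isUnit_one_sub {a : A} (ha : IsSelfAdjoint a) : IsUnit (1 - I • a) := by
  have h1 : (-I : ℂ) ∉ spectrum ℂ a := by
    intro h
    have := ha.mem_spectrum_eq_re h
    rw [Complex.ext_iff] at this
    simp at this
  rw [spectrum.notMem_iff] at h1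
  have h2 : (1 - I • a) = (Units.mk0 I I_ne_zero) • (algebraMap ℂ A (-I) - a) := by
    rw [Units.smul_mk0, smul_sub, Algebra.algebraMap_eq_smul_one, smul_smul]
    simp
  rw [h2]
  exact h1.smul _


theorem res_mul {a : A} (ha : IsSelfAdjoint a) : res a * (1 - I • a) = 1 :=
  Ring.inverse_mul_cancel _ (isUnit_one_sub ha)

theorem mul_res {a : A} (ha : IsSelfAdjoint a) : (1 - I • a) * res a = 1 :=
  Ring.mul_inverse_cancel _ (isUnit_one_sub ha)

/-- uniqueness of the inverse -/
theorem res_eq_of_mul {a x : A} (ha : IsSelfAdjoint a) (h : (1 - I • a) * x = 1) : res a = x := by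
  calc res a = res a * ((1 - I • a) * x) := by rw [h, mul_one]
    _ = x := by rw [← mul_assoc, res_mul ha, one_mul]

theorem star_res {a : A} (ha : IsSelfAdjoint a) : star (res a) = res (-a) := by
  unfold res
  rw [← Ring.inverse_star]
  simp [ha.star_eq]

theorem res_zero : res (0 : A) = 1 := by
  unfold res; simp

theorem cay_zero : cay (0 : A) = 1 := by
  unfold cay; simp [res_zero]

theorem cay_eq {a : A} (ha : IsSelfAdjoint a) : cay a = -1 + (2 : ℂ) • res a := by
  have h1 : (1 + I • a) = (2 : ℂ) • (1 : A) - (1 - I • a) := by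
    rw [two_smul]; abel
  rw [cay, h1, sub_mul, mul_res ha, smul_mul_assoc, one_mul]
  abel

theorem res_eq {a : A} (ha : IsSelfAdjoint a) : res a = (1 / 2 : ℂ) • (1 + cay a) := by
  rw [cay_eq ha, ← add_assoc, add_neg_cancel, zero_add, smul_smul]
  norm_num

/-- `a` commutes with its resolvent -/
theorem commute_res {a f : A} (ha : IsSelfAdjoint a) (h : f * a = a * f) :
    f * res a = res a * f := by
  have h1 : f * (1 - I • a) = (1 - I • a) * f := by
    rw [mul_sub, sub_mul, mul_smul_comm, smul_mul_assoc, h, mul_one, one_mul]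
  calc f * res a = res a * (1 - I • a) * (f * res a) := by rw [res_mul ha, one_mul]
    _ = res a * ((1 - I • a) * f) * res a := by simp only [mul_assoc]
    _ = res a * (f * (1 - I • a)) * res a := by rw [h1]
    _ = res a * f * ((1 - I • a) * res a) := by simp only [mul_assoc]
    _ = res a * f := by rw [mul_res ha, mul_one]


theorem self_mul_res {a : A} (ha : IsSelfAdjoint a) : a * res a = res a * a :=
  commute_res ha rfl


theorem cay_eq' {a : A} (ha : IsSelfAdjoint a) : cay a = res a * (1 + I • a) := by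
  rw [cay, mul_add, add_mul, mul_one, one_mul, mul_smul_comm, smul_mul_assoc, self_mul_res ha]

theorem star_cay {a : A} (ha : IsSelfAdjoint a) : star (cay a) = cay (-a) := by
  rw [cay_eq ha.neg, cay_eq ha, star_add, star_smul, star_res ha]
  simp

theorem cay_mul_cay_neg {a : A} (ha : IsSelfAdjoint a) : cay a * cay (-a) = 1 := by
  have h1 : (1 - I • a) * res a = 1 := mul_res ha
  have h2 : res (-a) * (1 + I • a) = 1 := by
    have := res_mul ha.neg
    simpa using this
  have h3 : (1 + I • a) * res (-a) = 1 := by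
    have := mul_res ha.neg
    simpa using this
  have h4 : cay (-a) = (1 - I • a) * res (-a) := by
    simp [cay, sub_eq_add_neg]
  have h5 : cay a = res a * (1 + I • a) := cay_eq' ha
  have h6 : (1 + I • a) * (1 - I • a) = (1 - I • a) * (1 + I • a) := by
    simp only [mul_sub, mul_add, sub_mul, add_mul, mul_one, one_mul]
    abel
  calc cay a * cay (-a) = res a * ((1 + I • a) * (1 - I • a)) * res (-a) := by
        rw [h4, h5]; simp only [mul_assoc]
    _ = (res a * (1 - I • a)) * ((1 + I • a) * res (-a)) := by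
        rw [h6]; simp only [mul_assoc]
    _ = 1 := by rw [res_mul ha, h3, one_mul]

theorem cay_neg_mul_cay {a : A} (ha : IsSelfAdjoint a) : cay (-a) * cay a = 1 := by
  have := cay_mul_cay_neg ha.neg
  simpa using this

theorem star_cay_mul {a : A} (ha : IsSelfAdjoint a) : star (cay a) * cay a = 1 := by
  rw [star_cay ha, cay_neg_mul_cay ha]

theorem mul_star_cay {a : A} (ha : IsSelfAdjoint a) : cay a * star (cay a) = 1 := by
  rw [star_cay ha, cay_mul_cay_neg ha]


theorem norm_one_le : ‖(1 : A)‖ ≤ 1 := by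
  have h := CStarRing.norm_star_mul_self (x := (1 : A))
  rw [star_one, one_mul] at h
  nlinarith [norm_nonneg (1 : A)]

theorem norm_le_one_of_star_mul {u : A} (h : star u * u = 1) : ‖u‖ ≤ 1 := by
  have h1 := CStarRing.norm_star_mul_self (x := u)
  rw [h] at h1
  have h2 := norm_one_le (A := A)
  nlinarith [norm_nonneg u]

theorem norm_cay_le {a : A} (ha : IsSelfAdjoint a) : ‖cay a‖ ≤ 1 :=
  norm_le_one_of_star_mul (star_cay_mul ha)

theorem norm_res_le {a : A} (ha : IsSelfAdjoint a) : ‖res a‖ ≤ 1 := by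
  rw [res_eq ha]
  calc ‖(1 / 2 : ℂ) • (1 + cay a)‖ ≤ ‖(1 / 2 : ℂ)‖ * ‖1 + cay a‖ := norm_smul_le _ _
    _ ≤ (1 / 2) * (1 + 1) := by
        have h1 : ‖(1 / 2 : ℂ)‖ = 1 / 2 := by norm_num
        rw [h1]
        gcongr
        exact (norm_add_le _ _).trans (add_le_add norm_one_le (norm_cay_le ha))
    _ = 1 := by norm_num

theorem mul_res_eq {a : A} (ha : IsSelfAdjoint a) : a * res a = (1 / (2 * I) : ℂ) • (cay a - 1) := by
  have h1 : I • (a * res a) = res a - 1 := by
    have := mul_res ha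
    rw [sub_mul, one_mul, smul_mul_assoc] at this
    rw [← this]; abel
  have h2 : cay a - 1 = (2 : ℂ) • (I • (a * res a)) := by
    rw [h1, cay_eq ha, smul_sub, two_smul ℂ (1 : A)]; abel
  rw [h2, smul_smul, smul_smul]
  have : (1 / (2 * I) * 2 * I : ℂ) = 1 := by field_simp
  rw [this, one_smul]

theorem norm_mul_res_le {a : A} (ha : IsSelfAdjoint a) : ‖a * res a‖ ≤ 1 := by
  rw [mul_res_eq ha]
  calc ‖(1 / (2 * I) : ℂ) • (cay a - 1)‖ ≤ ‖(1 / (2 * I) : ℂ)‖ * ‖cay a - 1‖ := norm_smul_le _ _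
    _ ≤ (1 / 2) * (1 + 1) := by
        have h1 : ‖(1 / (2 * I) : ℂ)‖ = 1 / 2 := by simp
        rw [h1]
        gcongr
        exact (norm_sub_le _ _).trans (add_le_add (norm_cay_le ha) norm_one_le)
    _ = 1 := by norm_num

theorem norm_res_mul_le {a : A} (ha : IsSelfAdjoint a) : ‖res a * a‖ ≤ 1 := by
  rw [← self_mul_res ha]; exact norm_mul_res_le ha

/-- second resolvent identity -/
theorem res_sub {a n : A} (ha : IsSelfAdjoint a) (hn : IsSelfAdjoint n) :
    res (a + n) - res a = I • (res (a + n) * n * res a) := by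
  have h1 : I • n = (1 - I • a) - (1 - I • (a + n)) := by
    rw [smul_add]; abel
  have h2 : I • (res (a + n) * n * res a) = res (a + n) * (I • n) * res a := by
    rw [mul_smul_comm, smul_mul_assoc]
  rw [h2, h1, mul_sub, sub_mul, res_mul (ha.add hn), mul_assoc, mul_res ha, mul_one, one_mul]


theorem cay_sub {a n : A} (ha : IsSelfAdjoint a) (hn : IsSelfAdjoint n) :
    cay (a + n) - cay a = (2 * I) • (res (a + n) * n * res a) := by
  rw [cay_eq (ha.add hn), cay_eq ha, mul_smul, ← res_sub ha hn, smul_sub]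
  abel

theorem cay_sub_one {a : A} (ha : IsSelfAdjoint a) : cay a - 1 = (2 * I) • (res a * a) := by
  have := cay_sub (IsSelfAdjoint.zero A) ha
  rw [zero_add, cay_zero, res_zero, mul_one] at this
  exact this

theorem norm_cay_sub_le {a n : A} (ha : IsSelfAdjoint a) (hn : IsSelfAdjoint n) :
    ‖cay (a + n) - cay a‖ ≤ 2 * ‖n‖ := by
  rw [cay_sub ha hn]
  calc ‖(2 * I) • (res (a + n) * n * res a)‖ ≤ ‖(2 * I : ℂ)‖ * ‖res (a + n) * n * res a‖ :=
        norm_smul_le _ _
    _ ≤ 2 * (‖res (a + n)‖ * ‖n‖ * ‖res a‖) := by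
        have h1 : ‖(2 * I : ℂ)‖ = 2 := by simp
        rw [h1]
        gcongr
        exact (norm_mul_le _ _).trans (mul_le_mul_of_nonneg_right (norm_mul_le _ _) (norm_nonneg _))
    _ ≤ 2 * (1 * ‖n‖ * 1) := by
        gcongr
        · exact norm_res_le (ha.add hn)
        · exact norm_res_le ha
    _ = 2 * ‖n‖ := by ring

theorem norm_cay_sub_one_le {a : A} (ha : IsSelfAdjoint a) : ‖cay a - 1‖ ≤ 2 * ‖a‖ := by
  have := norm_cay_sub_le (IsSelfAdjoint.zero A) ha
  rwa [zero_add, cay_zero] at this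

theorem norm_res_sub_le {a n : A} (ha : IsSelfAdjoint a) (hn : IsSelfAdjoint n) :
    ‖res (a + n) - res a‖ ≤ ‖n‖ := by
  rw [res_sub ha hn]
  calc ‖I • (res (a + n) * n * res a)‖ ≤ ‖(I : ℂ)‖ * ‖res (a + n) * n * res a‖ :=
        norm_smul_le _ _
    _ ≤ 1 * (‖res (a + n)‖ * ‖n‖ * ‖res a‖) := by
        rw [norm_I]
        gcongr
        exact (norm_mul_le _ _).trans (mul_le_mul_of_nonneg_right (norm_mul_le _ _) (norm_nonneg _))
    _ ≤ 1 * (1 * ‖n‖ * 1) := by
        gcongr
        · exact norm_res_le (ha.add hn)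
        · exact norm_res_le ha
    _ = ‖n‖ := by ring

theorem norm_res_sub_one_le {a : A} (ha : IsSelfAdjoint a) : ‖res a - 1‖ ≤ ‖a‖ := by
  have := norm_res_sub_le (IsSelfAdjoint.zero A) ha
  rwa [zero_add, res_zero] at this

/-- conjugation by a unitary -/
theorem res_conj {a w : A} (ha : IsSelfAdjoint a) (hw : star w * w = 1) (hw' : w * star w = 1) :
    star w * res a * w = res (star w * a * w) := by
  have hs : IsSelfAdjoint (star w * a * w) := by
    rw [IsSelfAdjoint, star_mul, star_mul, star_star, ha.star_eq, mul_assoc]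
  symm
  apply res_eq_of_mul hs
  have h1 : (1 - I • (star w * a * w)) = star w * (1 - I • a) * w := by
    rw [mul_sub, sub_mul, mul_one, hw, mul_smul_comm, smul_mul_assoc]
  rw [h1]
  calc star w * (1 - I • a) * w * (star w * res a * w)
      = star w * (1 - I • a) * (w * star w) * res a * w := by simp only [mul_assoc]
    _ = star w * ((1 - I • a) * res a) * w := by rw [hw', mul_one]; simp only [mul_assoc]
    _ = 1 := by rw [mul_res ha, mul_one, hw]

theorem cay_conj {a w : A} (ha : IsSelfAdjoint a) (hw : star w * w = 1) (hw' : w * star w = 1) :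
    star w * cay a * w = cay (star w * a * w) := by
  have hs : IsSelfAdjoint (star w * a * w) := by
    rw [IsSelfAdjoint, star_mul, star_mul, star_star, ha.star_eq, mul_assoc]
  rw [cay_eq hs, cay_eq ha, ← res_conj ha hw hw', mul_add, add_mul, mul_smul_comm, smul_mul_assoc]
  simp [hw]

/-- the inverse of an element of a closed star subalgebra is in the subalgebra -/
theorem inv_mem_of_mul {x y : A} (S : StarSubalgebra ℂ A) (hS : IsClosed (S : Set A)) (hx : x ∈ S)
    (h1 : x * y = 1) (h2 : y * x = 1) : y ∈ S := by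
  have : IsClosed (S : Set A) := hS
  have hu : IsUnit ((⟨x, hx⟩ : S) : A) := ⟨⟨x, y, h1, h2⟩, rfl⟩
  rw [StarSubalgebra.coe_isUnit] at hu
  obtain ⟨z, hz⟩ := hu.exists_right_inv
  have hz' : x * (z : A) = 1 := by
    have := congrArg (fun t : S => (t : A)) hz
    simpa using this
  have : y = (z : A) := by
    calc y = y * (x * (z : A)) := by rw [hz', mul_one]
      _ = z := by rw [← mul_assoc, h2, one_mul]
  rw [this]
  exact z.2

/-- membership in closed star subalgebras -/
theorem res_mem {a : A} (ha : IsSelfAdjoint a) (S : StarSubalgebra ℂ A)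
    (hS : IsClosed (S : Set A)) (h : a ∈ S) : res a ∈ S :=
  inv_mem_of_mul S hS (S.sub_mem S.one_mem (S.smul_mem h I)) (mul_res ha) (res_mul ha)

theorem cay_mem {a : A} (ha : IsSelfAdjoint a) (S : StarSubalgebra ℂ A)
    (hS : IsClosed (S : Set A)) (h : a ∈ S) : cay a ∈ S := by
  rw [cay_eq ha]
  exact S.add_mem (S.neg_mem S.one_mem) (S.smul_mem (res_mem ha S hS h) _)

theorem mem_of_cay_mem {a : A} (ha : IsSelfAdjoint a) (S : StarSubalgebra ℂ A)
    (hS : IsClosed (S : Set A)) (h : cay a ∈ S) : a ∈ S := by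
  have h0 : res a ∈ S := by
    rw [res_eq ha]
    exact S.smul_mem (S.add_mem S.one_mem h) _
  have h4 : (1 - I • a) ∈ S := inv_mem_of_mul S hS h0 (res_mul ha) (mul_res ha)
  have h5 : a = (-I) • ((1 : A) - (1 - I • a)) := by
    rw [sub_sub_cancel, smul_smul]
    simp
  rw [h5]
  exact S.smul_mem (S.sub_mem S.one_mem h4) _

theorem norm_pow_sub_one_le {c : A} (hc : ‖c‖ ≤ 1) (k : ℕ) : ‖c ^ k - 1‖ ≤ k * ‖c - 1‖ := by
  induction k with
  | zero => simp
  | succ k ih =>
    have h1 : c ^ (k + 1) - 1 = c * (c ^ k - 1) + (c - 1) := by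
      rw [pow_succ']; noncomm_ring
    rw [h1]
    calc ‖c * (c ^ k - 1) + (c - 1)‖ ≤ ‖c * (c ^ k - 1)‖ + ‖c - 1‖ := norm_add_le _ _
      _ ≤ ‖c‖ * ‖c ^ k - 1‖ + ‖c - 1‖ := by gcongr; exact norm_mul_le _ _
      _ ≤ 1 * (k * ‖c - 1‖) + ‖c - 1‖ := by gcongr
      _ = ((k + 1 : ℕ) : ℝ) * ‖c - 1‖ := by push_cast; ring

theorem norm_pow_sub_le {c : A} (hc : ‖c‖ ≤ 1) (k : ℕ) :
    ‖c ^ k - 1 - (k : ℂ) • (c - 1)‖ ≤ k ^ 2 / 2 * ‖c - 1‖ ^ 2 := by
  induction k with
  | zero => simp
  | succ k ih =>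
    have h1 : c ^ (k + 1) - 1 - ((k + 1 : ℕ) : ℂ) • (c - 1) =
        (c ^ k - 1 - (k : ℂ) • (c - 1)) + (c ^ k - 1) * (c - 1) := by
      rw [pow_succ]; push_cast; rw [add_smul, one_smul]; noncomm_ring
    rw [h1]
    calc ‖(c ^ k - 1 - (k : ℂ) • (c - 1)) + (c ^ k - 1) * (c - 1)‖
        ≤ ‖c ^ k - 1 - (k : ℂ) • (c - 1)‖ + ‖(c ^ k - 1) * (c - 1)‖ := norm_add_le _ _
      _ ≤ k ^ 2 / 2 * ‖c - 1‖ ^ 2 + (k * ‖c - 1‖) * ‖c - 1‖ := by
          gcongr
          exact (norm_mul_le _ _).trans (mul_le_mul_of_nonneg_right (norm_pow_sub_one_le hc k)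
            (norm_nonneg _))
      _ ≤ ((k + 1 : ℕ) : ℝ) ^ 2 / 2 * ‖c - 1‖ ^ 2 := by
          push_cast
          nlinarith [sq_nonneg ‖c - 1‖]

theorem cay_pow {b : A} (hb : IsSelfAdjoint b) (d : ℕ) (hd : 1 ≤ d) :
    ‖cay b ^ d - 1 - (2 * d * I : ℂ) • b‖ ≤ 4 * (d : ℝ) ^ 2 * ‖b‖ ^ 2 := by
  have h1 : cay b ^ d - 1 - (2 * d * I : ℂ) • b =
      (cay b ^ d - 1 - (d : ℂ) • (cay b - 1)) + (d * (2 * I) : ℂ) • ((res b - 1) * b) := by
    rw [cay_sub_one hb, sub_mul, one_mul, smul_sub, smul_smul]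
    have : (2 * d * I : ℂ) = (d * (2 * I) : ℂ) := by ring
    rw [this]
    abel
  have hd' : (1 : ℝ) ≤ d := by exact_mod_cast hd
  rw [h1]
  calc ‖(cay b ^ d - 1 - (d : ℂ) • (cay b - 1)) + (d * (2 * I) : ℂ) • ((res b - 1) * b)‖
      ≤ ‖cay b ^ d - 1 - (d : ℂ) • (cay b - 1)‖ + ‖(d * (2 * I) : ℂ) • ((res b - 1) * b)‖ :=
        norm_add_le _ _
    _ ≤ d ^ 2 / 2 * ‖cay b - 1‖ ^ 2 + ‖(d * (2 * I) : ℂ)‖ * ‖(res b - 1) * b‖ := by
        gcongr
        · exact norm_pow_sub_le (norm_cay_le hb) d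
        · exact norm_smul_le _ _
    _ ≤ d ^ 2 / 2 * (2 * ‖b‖) ^ 2 + (d * 2) * (‖b‖ * ‖b‖) := by
        have h2 : ‖(d * (2 * I) : ℂ)‖ = d * 2 := by simp
        rw [h2]
        gcongr
        · exact norm_cay_sub_one_le hb
        · exact (norm_mul_le _ _).trans (mul_le_mul_of_nonneg_right (norm_res_sub_one_le hb)
            (norm_nonneg _))
    _ ≤ 4 * (d : ℝ) ^ 2 * ‖b‖ ^ 2 := by
        nlinarith [sq_nonneg ‖b‖, mul_nonneg (sub_nonneg.2 hd') (sq_nonneg ‖b‖),
          mul_nonneg (mul_nonneg (sub_nonneg.2 hd') (by linarith : (0:ℝ) ≤ d)) (sq_nonneg ‖b‖)]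

end Basic

section Trace

variable {A : Type*} [CStarAlgebra A] (T : TracialState A)

theorem nrm2_cay_sub_le {a b : A} (ha : IsSelfAdjoint a) (hb : IsSelfAdjoint b) :
    T.nrm2 (cay a - cay b) ≤ 2 * T.nrm2 (a - b) := by
  have h := cay_sub hb (ha.sub hb)
  rw [add_sub_cancel] at h
  rw [h, T.nrm2_smul]
  have h1 : ‖(2 * I : ℂ)‖ = 2 := by simp
  rw [h1]
  have h2 : T.nrm2 (res a * (a - b) * res b) ≤ 1 * T.nrm2 (a - b) * 1 :=
    (T.nrm2_mul_mul_le _ _ _).trans (by
      have := T.nrm2_nonneg (a - b)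
      gcongr
      · exact norm_res_le ha
      · exact norm_res_le hb)
  linarith

theorem cay_second {a n : A} (ha : IsSelfAdjoint a) (hn : IsSelfAdjoint n) (U V : A) :
    ‖T.τ (U * (cay (a + n) - cay a - (2 * I) • (res a * n * res a)) * V)‖ ≤
      2 * ‖U‖ * ‖V‖ * T.nrm2 n ^ 2 := by
  have h1 : cay (a + n) - cay a - (2 * I) • (res a * n * res a) =
      (-2 : ℂ) • ((res (a + n) * n) * (res a * n * res a)) := by
    rw [cay_sub ha hn, ← smul_sub]
    have h2 : res (a + n) * n * res a - res a * n * res a = (res (a + n) - res a) * n * res a := by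
      rw [sub_mul, sub_mul]
    rw [h2, res_sub ha hn, smul_mul_assoc, smul_mul_assoc, smul_smul]
    congr 1
    · rw [mul_assoc, I_mul_I]; norm_num
    · simp only [mul_assoc]
  have h3 : U * (cay (a + n) - cay a - (2 * I) • (res a * n * res a)) * V =
      (-2 : ℂ) • ((U * res (a + n) * n) * (res a * n * (res a * V))) := by
    rw [h1, mul_smul_comm, smul_mul_assoc]
    simp only [mul_assoc]
  rw [h3, map_smul, norm_smul]
  have h4 : ‖(-2 : ℂ)‖ = 2 := by simp
  rw [h4]
  have hn0 := T.nrm2_nonneg n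
  have h5 : T.nrm2 (U * res (a + n) * n) ≤ ‖U‖ * T.nrm2 n := by
    refine (T.nrm2_mul_le_left _ _).trans ?_
    gcongr
    calc ‖U * res (a + n)‖ ≤ ‖U‖ * ‖res (a + n)‖ := norm_mul_le _ _
      _ ≤ ‖U‖ * 1 := by gcongr; exact norm_res_le (ha.add hn)
      _ = ‖U‖ := mul_one _
  have h6 : T.nrm2 (res a * n * (res a * V)) ≤ 1 * T.nrm2 n * ‖V‖ := by
    refine (T.nrm2_mul_mul_le _ _ _).trans ?_
    gcongr
    · exact norm_res_le ha
    · calc ‖res a * V‖ ≤ ‖res a‖ * ‖V‖ := norm_mul_le _ _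
        _ ≤ 1 * ‖V‖ := by gcongr; exact norm_res_le ha
        _ = ‖V‖ := one_mul _
  calc 2 * ‖T.τ ((U * res (a + n) * n) * (res a * n * (res a * V)))‖
      ≤ 2 * (T.nrm2 (U * res (a + n) * n) * T.nrm2 (res a * n * (res a * V))) := by
        gcongr; exact T.norm_tau_mul_le _ _
    _ ≤ 2 * ((‖U‖ * T.nrm2 n) * (1 * T.nrm2 n * ‖V‖)) := by
        gcongr
        exact T.nrm2_nonneg _
    _ = 2 * ‖U‖ * ‖V‖ * T.nrm2 n ^ 2 := by ring

theorem cay_own {a b : A} (ha : IsSelfAdjoint a) (hb : IsSelfAdjoint b) :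
    T.nrm2 (cay (a + (1 / 2 : ℂ) • b) - cay ((1 / 2 : ℂ) • b) * cay a) ≤
      3 * ‖b‖ * T.nrm2 a + ‖b‖ ^ 2 := by
  set B : A := (1 / 2 : ℂ) • b with hB
  have hBsa : IsSelfAdjoint B := by
    rw [hB, IsSelfAdjoint, star_smul, hb.star_eq]; simp
  have hBn : ‖B‖ ≤ (1 / 2) * ‖b‖ := by
    rw [hB]
    refine (norm_smul_le _ _).trans (le_of_eq ?_)
    norm_num
  have hb0 := norm_nonneg b
  have ha0 := T.nrm2_nonneg a
  -- the exact formula
  have e1 : cay (a + B) - cay B * cay a =
      I • ((res (a + B) - res a) * b * res a) + (-I) • ((res B - 1) * b * cay a) +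
      I • (res a * (I • (a * b) - I • (b * a) - a * b * a) * res a) := by
    have h1 : cay (a + B) = cay a + I • (res (a + B) * b * res a) := by
      have h := cay_sub ha hBsa
      rw [← sub_eq_iff_eq_add', h, hB]
      rw [mul_smul_comm, smul_mul_assoc, smul_smul]
      congr 1; ring
    have h2 : cay B = 1 + I • (res B * b) := by
      have h := cay_sub_one hBsa
      rw [← sub_eq_iff_eq_add', h]
      conv_lhs => rw [hB]
      rw [← hB, mul_smul_comm, smul_smul]
      congr 1; ring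
    have h3 : res a * (I • (a * b) - I • (b * a) - a * b * a) * res a =
        res a * b * res a - b * cay a := by
      have h4 : b * cay a = res a * ((1 - I • a) * b * (1 + I • a)) * res a := by
        calc b * cay a = (res a * (1 - I • a)) * (b * ((1 + I • a) * res a)) := by
              rw [res_mul ha, one_mul, cay]
          _ = _ := by simp only [mul_assoc]
      rw [h4, ← sub_mul, ← mul_sub]
      congr 2
      simp only [mul_add, sub_mul, mul_one, one_mul, smul_mul_assoc, mul_smul_comm, smul_sub,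
        smul_smul, I_mul_I, neg_smul, one_smul]
      abel
    rw [h1, h2, h3, add_mul, one_mul, smul_mul_assoc]
    simp only [sub_mul, smul_sub, one_mul, neg_smul]
    abel
  rw [e1]
  have t1 : T.nrm2 (I • ((res (a + B) - res a) * b * res a)) ≤ (1 / 2) * ‖b‖ ^ 2 := by
    refine (T.nrm2_le_norm _).trans ?_
    refine (norm_smul_le _ _).trans ?_
    rw [norm_I, one_mul]
    calc ‖(res (a + B) - res a) * b * res a‖ ≤ ‖res (a + B) - res a‖ * ‖b‖ * ‖res a‖ :=
          (norm_mul_le _ _).trans (mul_le_mul_of_nonneg_right (norm_mul_le _ _) (norm_nonneg _))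
      _ ≤ ((1 / 2) * ‖b‖) * ‖b‖ * 1 := by
          gcongr
          · exact (norm_res_sub_le ha hBsa).trans hBn
          · exact norm_res_le ha
      _ = (1 / 2) * ‖b‖ ^ 2 := by ring
  have t2 : T.nrm2 ((-I) • ((res B - 1) * b * cay a)) ≤ (1 / 2) * ‖b‖ ^ 2 := by
    refine (T.nrm2_le_norm _).trans ?_
    refine (norm_smul_le _ _).trans ?_
    rw [norm_neg, norm_I, one_mul]
    calc ‖(res B - 1) * b * cay a‖ ≤ ‖res B - 1‖ * ‖b‖ * ‖cay a‖ :=
          (norm_mul_le _ _).trans (mul_le_mul_of_nonneg_right (norm_mul_le _ _) (norm_nonneg _))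
      _ ≤ ((1 / 2) * ‖b‖) * ‖b‖ * 1 := by
          gcongr
          · exact (norm_res_sub_one_le hBsa).trans hBn
          · exact norm_cay_le ha
      _ = (1 / 2) * ‖b‖ ^ 2 := by ring
  have t3 : T.nrm2 (I • (res a * (I • (a * b) - I • (b * a) - a * b * a) * res a)) ≤
      3 * ‖b‖ * T.nrm2 a := by
    have e2 : res a * (I • (a * b) - I • (b * a) - a * b * a) * res a =
        I • (res a * a * (b * res a)) - I • ((res a * b) * (a * res a)) -
          (res a * a) * b * (a * res a) := by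
      simp only [mul_sub, sub_mul, mul_smul_comm, smul_mul_assoc, mul_assoc]
    rw [T.nrm2_smul, norm_I, one_mul, e2]
    have u1 : T.nrm2 (I • (res a * a * (b * res a))) ≤ ‖b‖ * T.nrm2 a := by
      rw [T.nrm2_smul, norm_I, one_mul]
      refine (T.nrm2_mul_mul_le _ _ _).trans ?_
      calc ‖res a‖ * T.nrm2 a * ‖b * res a‖ ≤ 1 * T.nrm2 a * (‖b‖ * 1) := by
            gcongr
            · exact norm_res_le ha
            · exact (norm_mul_le _ _).trans (by gcongr; exact norm_res_le ha)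
        _ = ‖b‖ * T.nrm2 a := by ring
    have u2 : T.nrm2 (I • ((res a * b) * (a * res a))) ≤ ‖b‖ * T.nrm2 a := by
      rw [T.nrm2_smul, norm_I, one_mul, ← mul_assoc]
      refine (T.nrm2_mul_mul_le _ _ _).trans ?_
      calc ‖res a * b‖ * T.nrm2 a * ‖res a‖ ≤ (1 * ‖b‖) * T.nrm2 a * 1 := by
            gcongr
            · exact (norm_mul_le _ _).trans (by gcongr; exact norm_res_le ha)
            · exact norm_res_le ha
        _ = ‖b‖ * T.nrm2 a := by ring
    have u3 : T.nrm2 ((res a * a) * b * (a * res a)) ≤ ‖b‖ * T.nrm2 a := by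
      rw [← mul_assoc]
      refine (T.nrm2_mul_mul_le _ _ _).trans ?_
      calc ‖res a * a * b‖ * T.nrm2 a * ‖res a‖ ≤ (1 * ‖b‖) * T.nrm2 a * 1 := by
            gcongr
            · exact (norm_mul_le _ _).trans (by gcongr; exact norm_res_mul_le ha)
            · exact norm_res_le ha
        _ = ‖b‖ * T.nrm2 a := by ring
    calc T.nrm2 (I • (res a * a * (b * res a)) - I • ((res a * b) * (a * res a)) -
          (res a * a) * b * (a * res a))
        ≤ T.nrm2 (I • (res a * a * (b * res a)) - I • ((res a * b) * (a * res a))) +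
          T.nrm2 ((res a * a) * b * (a * res a)) := T.nrm2_sub_le _ _
      _ ≤ (T.nrm2 (I • (res a * a * (b * res a))) + T.nrm2 (I • ((res a * b) * (a * res a)))) +
          T.nrm2 ((res a * a) * b * (a * res a)) := by
          gcongr; exact T.nrm2_sub_le _ _
      _ ≤ 3 * ‖b‖ * T.nrm2 a := by linarith
  have s1 := T.nrm2_add_le (I • ((res (a + B) - res a) * b * res a) +
    (-I) • ((res B - 1) * b * cay a))
    (I • (res a * (I • (a * b) - I • (b * a) - a * b * a) * res a))
  have s2 := T.nrm2_add_le (I • ((res (a + B) - res a) * b * res a))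
    ((-I) • ((res B - 1) * b * cay a))
  linarith

end Trace

end Crest.Agent.R95
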