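import Mathlib
import Crest.Prelude.Def_VNFactor

/-!
# R95: basic definitions for S0125 / S0126 (single generation of type II_1 factors)

Everything that several workers need. See the blueprint in the team notes (rid = 95).
-/

set_option autoImplicit false

namespace Crest.Agent.R95

open Complex

/-- A tracial state on a unital C*-algebra, with exactly the properties that the argument uses. -/
structure TracialState (A : Type*) [CStarAlgebra A] where
  /-- the functional -/
  τ : A →ₗ[ℂ] ℂ
  one : τ 1 = 1
  tr : ∀ a b : A, τ (a * b) = τ (b * a)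
  star' : ∀ a : A, τ (star a) = starRingEnd ℂ (τ a)
  pos : ∀ a : A, 0 ≤ (τ (star a * a)).re
  bdd : ∀ a b : A, (τ (star (a * b) * (a * b))).re ≤ ‖a‖ ^ 2 * (τ (star b * b)).re

namespace TracialState

variable {A : Type*} [CStarAlgebra A] (T : TracialState A)

/-- The trace 2-norm. -/
noncomputable def nrm2 (a : A) : ℝ := Real.sqrt (T.τ (star a * a)).re

end TracialState

section Cayley

variable {A : Type*} [CStarAlgebra A]

/-- the resolvent `(1 - i a)⁻¹` (junk `0` if not invertible, never happens for selfadjoint `a`) -/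
noncomputable def res (a : A) : A := Ring.inverse (1 - I • a)

/-- the Cayley transform `(1 + i a) (1 - i a)⁻¹` -/
noncomputable def cay (a : A) : A := (1 + I • a) * res a

end Cayley

/-- A Pauli system in a C*-algebra: selfadjoint unitaries `f i`, pairwise commuting up to signs
`c i j = ±1`, with `f o = 1`, with the sign matrix having orthogonal rows and left multiplication by
`f k` permuting the family up to phases. (`2^J × 2^J` Pauli strings; `card ι = 4^J`.) -/
structure PauliSys (A : Type*) [CStarAlgebra A] (ι : Type) [Fintype ι] [DecidableEq ι] where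
  f : ι → A
  c : ι → ι → ℝ
  o : ι
  sa : ∀ i, IsSelfAdjoint (f i)
  sq : ∀ i, f i * f i = 1
  f_o : f o = 1
  c_sq : ∀ i j, c i j = 1 ∨ c i j = -1
  comm : ∀ i j, f i * f j = (c i j : ℂ) • (f j * f i)
  ortho : ∀ g h, ∑ i, c i g * c i h = if g = h then (Fintype.card ι : ℝ) else 0
  perm : ∀ k, ∃ σ : Equiv.Perm ι, ∀ h, ∃ z : ℂ, ‖z‖ = 1 ∧ f k * f h = z • f (σ h)

namespace PauliSys

variable {A : Type*} [CStarAlgebra A] {ι : Type} [Fintype ι] [DecidableEq ι] (F : PauliSys A ι)

/-- The conditional expectation onto the relative commutant `{f i}'`. -/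
noncomputable def E (Y : A) : A := ((Fintype.card ι : ℂ)⁻¹) • ∑ h, F.f h * Y * F.f h

/-- Membership in the relative commutant of the Pauli system. -/
def InQ (q : A) : Prop := ∀ i, F.f i * q = q * F.f i

end PauliSys

/-- product `g 0 * g 1 * ⋯ * g (k-1)` (ordered) -/
def pr {A : Type*} [Monoid A] (g : ℕ → A) : ℕ → A
  | 0 => 1
  | (k + 1) => pr g k * g k

/-- average over a finite type -/
noncomputable def avg {Ω : Type*} [Fintype Ω] (g : Ω → ℝ) : ℝ := (Fintype.card Ω : ℝ)⁻¹ * ∑ ω, g ω

section VN

variable {H : Type*} [NormedAddCommGroup H] [InnerProductSpace ℂ H] [CompleteSpace H]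

/-- The von Neumann algebra generated by a set `S` of operators (double commutant of `S ∪ S*`). -/
noncomputable def vnGen (S : Set (H →L[ℂ] H)) : VonNeumannAlgebra H where
  toStarSubalgebra := StarSubalgebra.centralizer ℂ
    ((StarSubalgebra.centralizer ℂ S : StarSubalgebra ℂ (H →L[ℂ] H)) : Set (H →L[ℂ] H))
  centralizer_centralizer' := by
    change Set.centralizer (Set.centralizer ((StarSubalgebra.centralizer ℂ
      ((StarSubalgebra.centralizer ℂ S : StarSubalgebra ℂ (H →L[ℂ] H)) : Set (H →L[ℂ] H)) :
        StarSubalgebra ℂ (H →L[ℂ] H)) : Set (H →L[ℂ] H))) = ((StarSubalgebra.centralizer ℂ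
      ((StarSubalgebra.centralizer ℂ S : StarSubalgebra ℂ (H →L[ℂ] H)) : Set (H →L[ℂ] H)) :
        StarSubalgebra ℂ (H →L[ℂ] H)) : Set (H →L[ℂ] H))
    rw [StarSubalgebra.coe_centralizer_centralizer, Set.centralizer_centralizer_centralizer]

/-- `P` contains an infinite sequence of mutually commuting pairs of anticommuting self-adjoint
unitaries (equivalently unital copies of `M_{2^J}(ℂ)` for all `J`, increasing in `J`). -/
def HasPauli (P : VonNeumannAlgebra H) (u v : ℕ → H →L[ℂ] H) : Prop :=
  (∀ j, u j ∈ P ∧ v j ∈ P ∧ IsSelfAdjoint (u j) ∧ IsSelfAdjoint (v j) ∧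
    u j * u j = 1 ∧ v j * v j = 1 ∧ u j * v j = -(v j * u j)) ∧
  (∀ j k, j ≠ k → u j * u k = u k * u j ∧ u j * v k = v k * u j ∧ v j * v k = v k * v j)

/-- the 2-norm attached to `ξ` -/
noncomputable def n2 (ξ : ℕ → H) (x : H →L[ℂ] H) : ℝ := Real.sqrt (Crest.OpAlg.traceNormSq ξ x)

end VN

end Crest.Agent.R95
private theorem rz_cade41e28b : type_of% @_root_.Crest.Agent.R95.pr.eq_def := @_root_.Crest.Agent.R95.pr.eq_def -- L75
private theorem rz_f941276316 : type_of% @_root_.Crest.Agent.R95.pr.eq_1 := @_root_.Crest.Agent.R95.pr.eq_1 -- L75
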