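import Crest.Agent.R95.L2
import Crest.Agent.R95.Defs

-- ▼ part R95/Closure
section

/-!
R95 (helper364): density of `span M' ξ`, closure lemma (RED1), completeness of bounded sets.
-/

set_option autoImplicit false

open scoped InnerProductSpace ENNReal
open Filter Topology

namespace Crest.Agent.R95

open Crest.OpAlg

variable {H : Type*} [NormedAddCommGroup H] [InnerProductSpace ℂ H] [CompleteSpace H]
variable {M : VonNeumannAlgebra H} {ξ : ℕ → H}

/-- the span of `M' ξ` -/
def comSpan (M : VonNeumannAlgebra H) (ξ : ℕ → H) : Submodule ℂ H :=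
  Submodule.span ℂ {v | ∃ m ∈ M.commutant, ∃ n, v = m (ξ n)}

theorem comSpan_inv {m : H →L[ℂ] H} (hm : m ∈ M.commutant) {v : H} (hv : v ∈ comSpan M ξ) :
    m v ∈ comSpan M ξ := by
  unfold comSpan at *
  induction hv using Submodule.span_induction with
  | mem x hx =>
    obtain ⟨m', hm', n, rfl⟩ := hx
    exact Submodule.subset_span ⟨m * m', mul_mem hm hm', n, rfl⟩
  | zero => simp
  | add x y _ _ hx hy => rw [map_add]; exact add_mem hx hy
  | smul c x _ hx => rw [map_smul]; exact Submodule.smul_mem _ _ hx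

/-- if the `ξ n` are separating for `M` then `span M' ξ` is dense. -/
theorem comSpan_dense (hsep : ∀ x ∈ M, (∀ n, x (ξ n) = 0) → x = 0) :
    (comSpan M ξ).topologicalClosure = ⊤ := by
  set K := (comSpan M ξ).topologicalClosure with hK
  have hinv : ∀ m ∈ M.commutant, ∀ v ∈ K, m v ∈ K := by
    intro m hm v hv
    have hmaps : Set.MapsTo m (comSpan M ξ : Set H) (comSpan M ξ : Set H) :=
      fun w hw => comSpan_inv hm hw
    exact hmaps.closure m.continuous hv
  have : CompleteSpace K := (Submodule.isClosed_topologicalClosure _).completeSpace_coe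
  -- the projection onto `Kᗮ` commutes with `M'`
  set p := Kᗮ.starProjection with hp
  have hp1 : p ∈ M := by
    rw [← M.commutant_commutant, VonNeumannAlgebra.mem_commutant_iff]
    intro m hm
    have hinv' : ∀ v ∈ Kᗮ, m v ∈ Kᗮ := by
      intro v hv w hw
      have h1 : ⟪w, m v⟫_ℂ = ⟪(star m) w, v⟫_ℂ := by
        rw [ContinuousLinearMap.star_eq_adjoint, ContinuousLinearMap.adjoint_inner_left]
      rw [h1]
      exact hv _ (hinv _ (star_mem hm) w hw)
    ext v
    have hdecomp : v = K.starProjection v + p v := by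
      rw [hp, Submodule.starProjection_orthogonal']
      simp
    have hKv : m (K.starProjection v) ∈ K := hinv m hm _ (Submodule.starProjection_apply_mem _ _)
    have hpv : m (p v) ∈ Kᗮ := hinv' _ (Submodule.starProjection_apply_mem _ _)
    change m (p v) = p (m v)
    conv_rhs => rw [hdecomp, map_add, map_add]
    have e1 : p (m (K.starProjection v)) = 0 := by
      rw [hp, Submodule.starProjection_apply_eq_zero_iff]
      rwa [Submodule.orthogonal_orthogonal]
    have e2 : p (m (p v)) = m (p v) := Submodule.starProjection_eq_self_iff.2 hpv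
    rw [e1, e2, zero_add]
  have hp2 : p = 0 := by
    apply hsep p hp1
    intro n
    rw [hp, Submodule.starProjection_apply_eq_zero_iff, Submodule.orthogonal_orthogonal]
    apply Submodule.le_topologicalClosure
    exact Submodule.subset_span ⟨1, one_mem _, n, rfl⟩
  rw [← Submodule.orthogonal_eq_bot_iff]
  rw [eq_bot_iff]
  intro v hv
  have : p v = v := Submodule.starProjection_eq_self_iff.2 hv
  rw [hp2] at this
  simpa using this.symm

theorem dense_comSpan (hξ : IsFaithfulTracialVectorState M ξ) :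
    Dense (comSpan M ξ : Set H) := by
  exact (Submodule.dense_iff_topologicalClosure_eq_top).2 (comSpan_dense hξ.2.2)

/-- 2-norm convergence in `M` implies pointwise convergence on `span M' ξ`. -/
theorem tendsto_apply_of_N2 (hξ : IsFaithfulTracialVectorState M ξ) {α : Type*} {l : Filter α}
    {x : α → H →L[ℂ] H} {y : H →L[ℂ] H} (hx : ∀ k, x k ∈ M) (hy : y ∈ M)
    (h : Tendsto (fun k => N2 ξ (x k - y)) l (𝓝 0)) {v : H} (hv : v ∈ comSpan M ξ) :
    Tendsto (fun k => x k v) l (𝓝 (y v)) := by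
  unfold comSpan at hv
  induction hv using Submodule.span_induction with
  | mem w hw =>
    obtain ⟨m, hm, n, rfl⟩ := hw
    have hm' := VonNeumannAlgebra.mem_commutant_iff.1 hm
    have e1 : ∀ k, x k (m (ξ n)) = m (x k (ξ n)) := fun k => by
      have := congrArg (fun T : H →L[ℂ] H => T (ξ n)) (hm' (x k) (hx k))
      simpa using this
    have e2 : y (m (ξ n)) = m (y (ξ n)) := by
      have := congrArg (fun T : H →L[ℂ] H => T (ξ n)) (hm' y hy)
      simpa using this
    simp only [e1, e2]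
    refine (m.continuous.tendsto _).comp ?_
    rw [tendsto_iff_norm_sub_tendsto_zero]
    refine squeeze_zero (fun _ => norm_nonneg _) (fun k => ?_) h
    exact norm_apply_le_N2 (sqSum hξ) (x k - y) n
  | zero => simpa using tendsto_const_nhds
  | add a b _ _ ha hb => simpa using ha.add hb
  | smul c a _ ha => simpa using ha.const_smul c

/-- **RED1**: a von Neumann subalgebra is 2-norm closed in `M` (no boundedness needed). -/
theorem mem_of_tendsto_N2 (hξ : IsFaithfulTracialVectorState M ξ) {N : VonNeumannAlgebra H}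
    (hN : N ≤ M) {α : Type*} {l : Filter α} [l.NeBot] {x : α → H →L[ℂ] H} {y : H →L[ℂ] H}
    (hx : ∀ k, x k ∈ N) (hy : y ∈ M)
    (h : Tendsto (fun k => N2 ξ (x k - y)) l (𝓝 0)) : y ∈ N := by
  have hd := dense_comSpan hξ
  have hxM : ∀ k, x k ∈ M := fun k => hN (hx k)
  have hstar : Tendsto (fun k => N2 ξ (star (x k) - star y)) l (𝓝 0) := by
    refine h.congr fun k => ?_
    rw [← star_sub, N2_star hξ (sub_mem (hxM k) hy)]
  rw [← N.commutant_commutant, VonNeumannAlgebra.mem_commutant_iff]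
  intro c hc
  have hc' := VonNeumannAlgebra.mem_commutant_iff.1 hc
  have key : ∀ v ∈ comSpan M ξ, c (y v) = y (c v) := by
    intro v hv
    refine hd.eq_of_inner_right ℂ fun w hw => ?_
    have h1 : Tendsto (fun k => ⟪w, c (x k v)⟫_ℂ) l (𝓝 ⟪w, c (y v)⟫_ℂ) :=
      tendsto_const_nhds.inner ((c.continuous.tendsto _).comp (tendsto_apply_of_N2 hξ hxM hy h hv))
    have h2 : Tendsto (fun k => ⟪star (x k) w, c v⟫_ℂ) l (𝓝 ⟪star y w, c v⟫_ℂ) :=
      (tendsto_apply_of_N2 hξ (fun k => star_mem (hxM k)) (star_mem hy) hstar hw).inner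
        tendsto_const_nhds
    have h3 : ∀ k, ⟪star (x k) w, c v⟫_ℂ = ⟪w, c (x k v)⟫_ℂ := by
      intro k
      rw [ContinuousLinearMap.star_eq_adjoint, ContinuousLinearMap.adjoint_inner_left]
      have := congrArg (fun T : H →L[ℂ] H => T v) (hc' (x k) (hx k))
      simp only [mul_apply_eq_comp] at this
      rw [this]
    have h4 : ⟪star y w, c v⟫_ℂ = ⟪w, y (c v)⟫_ℂ := by
      rw [ContinuousLinearMap.star_eq_adjoint, ContinuousLinearMap.adjoint_inner_left]
    rw [← h4]
    simp only [h3] at h2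
    exact tendsto_nhds_unique h1 h2
  ext v
  change c (y v) = y (c v)
  have hcl : IsClosed {v | c (y v) = y (c v)} :=
    isClosed_eq (by fun_prop) (by fun_prop)
  exact hcl.closure_subset_iff.2 (fun w hw => key w hw) (hd v)

/-- `ε`-form of RED1 -/
theorem mem_of_forall_N2_lt (hξ : IsFaithfulTracialVectorState M ξ) {N : VonNeumannAlgebra H}
    (hN : N ≤ M) {y : H →L[ℂ] H} (hy : y ∈ M)
    (h : ∀ ε : ℝ, 0 < ε → ∃ x ∈ N, N2 ξ (x - y) < ε) : y ∈ N := by
  have h' : ∀ k : ℕ, ∃ x ∈ N, N2 ξ (x - y) < 1 / ((k : ℝ) + 1) := fun k => h _ (by positivity)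
  choose x hx hxy using h'
  refine mem_of_tendsto_N2 (l := atTop) hξ hN hx hy ?_
  exact squeeze_zero (fun _ => N2_nonneg _) (fun k => (hxy k).le)
    tendsto_one_div_add_atTop_nhds_zero_nat

omit [CompleteSpace H] in
/-- pointwise convergence on the `ξ n` of a bounded sequence implies 2-norm convergence -/
theorem tendsto_N2_of_pointwise (hξ : SqSum ξ) {x : ℕ → H →L[ℂ] H}
    {y : H →L[ℂ] H} {C : ℝ} (hC : ∀ k, ‖x k‖ ≤ C)
    (h : ∀ n, Tendsto (fun k => x k (ξ n)) atTop (𝓝 (y (ξ n)))) :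
    Tendsto (fun k => N2 ξ (x k - y)) atTop (𝓝 0) := by
  have h1 : Tendsto (fun k => traceNormSq ξ (x k - y)) atTop (𝓝 (∑' _ : ℕ, (0 : ℝ))) := by
    unfold traceNormSq
    refine tendsto_tsum_of_dominated_convergence (bound := fun n => (C + ‖y‖) ^ 2 * ‖ξ n‖ ^ 2)
      (Summable.mul_left _ hξ) (fun n => ?_) (Eventually.of_forall fun k n => ?_)
    · have := ((h n).sub_const (y (ξ n))).norm.pow 2
      simpa using this
    · rw [Real.norm_of_nonneg (by positivity)]
      calc ‖(x k - y) (ξ n)‖ ^ 2 ≤ (‖x k - y‖ * ‖ξ n‖) ^ 2 := by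
            gcongr; exact (x k - y).le_opNorm _
        _ ≤ ((C + ‖y‖) * ‖ξ n‖) ^ 2 := by
            gcongr
            exact (norm_sub_le _ _).trans (by gcongr; exact hC k)
        _ = _ := by ring
  rw [tsum_zero] at h1
  have h2 := (Real.continuous_sqrt.tendsto 0).comp h1
  simpa [N2, Function.comp_def] using h2

/-- 2-norm completeness of bounded subsets of `M` -/
theorem exists_lim_of_cauchy (hξ : IsFaithfulTracialVectorState M ξ) {x : ℕ → H →L[ℂ] H}
    (hx : ∀ k, x k ∈ M) {C : ℝ} (hC : ∀ k, ‖x k‖ ≤ C)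
    (hcau : ∀ ε : ℝ, 0 < ε → ∃ n₀ : ℕ, ∀ m ≥ n₀, ∀ n ≥ n₀, N2 ξ (x m - x n) < ε) :
    ∃ y ∈ M, ‖y‖ ≤ C ∧ Tendsto (fun k => N2 ξ (x k - y)) atTop (𝓝 0) ∧
      ∀ v : H, Tendsto (fun k => x k v) atTop (𝓝 (y v)) := by
  have hd := dense_comSpan hξ
  have hC0 : 0 ≤ C := (norm_nonneg _).trans (hC 0)
  -- Cauchy on the dense subspace
  have h1 : ∀ v ∈ comSpan M ξ, CauchySeq fun k => x k v := by
    intro v hv
    unfold comSpan at hv
    induction hv using Submodule.span_induction with
    | mem w hw =>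
      obtain ⟨m, hm, n, rfl⟩ := hw
      have hm' := VonNeumannAlgebra.mem_commutant_iff.1 hm
      have e1 : ∀ k, x k (m (ξ n)) = m (x k (ξ n)) := fun k => by
        have := congrArg (fun T : H →L[ℂ] H => T (ξ n)) (hm' (x k) (hx k))
        simpa using this
      simp only [e1]
      have : CauchySeq fun k => x k (ξ n) := by
        rw [Metric.cauchySeq_iff]
        intro ε hε
        obtain ⟨n₀, hn₀⟩ := hcau ε hε
        refine ⟨n₀, fun a ha b hb => ?_⟩
        rw [dist_eq_norm]
        exact (norm_apply_le_N2 (sqSum hξ) (x a - x b) n).trans_lt (hn₀ a ha b hb)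
      exact this.map m.uniformContinuous
    | zero => simpa using cauchySeq_const (0 : H)
    | add a b _ _ ha hb =>
      have := ha.add hb
      simp only [map_add]
      exact this
    | smul c a _ ha =>
      simp only [map_smul]
      exact ha.map (uniformContinuous_const_smul c)
  have h2 : ∀ v : H, CauchySeq fun k => x k v := by
    intro v
    rw [Metric.cauchySeq_iff]
    intro ε hε
    obtain ⟨w, hw, hvw⟩ := Metric.mem_closure_iff.1 (hd v) (ε / (3 * (C + 1))) (by positivity)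
    obtain ⟨n₀, hn₀⟩ := Metric.cauchySeq_iff.1 (h1 w hw) (ε / 3) (by positivity)
    refine ⟨n₀, fun a ha b hb => ?_⟩
    have e1 : ∀ k, dist (x k v) (x k w) < ε / 3 := by
      intro k
      rw [dist_eq_norm, ← map_sub]
      calc ‖x k (v - w)‖ ≤ ‖x k‖ * ‖v - w‖ := (x k).le_opNorm _
        _ ≤ C * ‖v - w‖ := by gcongr; exact hC k
        _ ≤ C * (ε / (3 * (C + 1))) := by
            gcongr; rw [← dist_eq_norm]; exact hvw.le
        _ < ε / 3 := by
            rw [mul_div_assoc', div_lt_div_iff₀ (by positivity) (by norm_num)]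
            nlinarith
    calc dist (x a v) (x b v) ≤ dist (x a v) (x a w) + dist (x a w) (x b w) + dist (x b w) (x b v) :=
          dist_triangle4 _ _ _ _
      _ < ε / 3 + ε / 3 + ε / 3 := by
          gcongr
          · exact e1 a
          · exact hn₀ a ha b hb
          · rw [dist_comm]; exact e1 b
      _ = ε := by ring
  choose f hf using fun v => cauchySeq_tendsto_of_complete (h2 v)
  let y₀ : H →ₗ[ℂ] H :=
    { toFun := f
      map_add' := fun a b => tendsto_nhds_unique (hf (a + b)) (by simpa using (hf a).add (hf b))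
      map_smul' := fun c a => tendsto_nhds_unique (hf (c • a)) (by simpa using (hf a).const_smul c) }
  have hy₀ : ∀ v, ‖y₀ v‖ ≤ C * ‖v‖ := by
    intro v
    refine le_of_tendsto (hf v).norm (Eventually.of_forall fun k => ?_)
    exact ((x k).le_opNorm v).trans (by gcongr; exact hC k)
  let y : H →L[ℂ] H := y₀.mkContinuous C hy₀
  have hy : ∀ v, Tendsto (fun k => x k v) atTop (𝓝 (y v)) := hf
  refine ⟨y, ?_, LinearMap.mkContinuous_norm_le _ hC0 _,
    tendsto_N2_of_pointwise (sqSum hξ) hC fun n => hy (ξ n), hy⟩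
  rw [← M.commutant_commutant, VonNeumannAlgebra.mem_commutant_iff]
  intro m hm
  have hm' := VonNeumannAlgebra.mem_commutant_iff.1 hm
  ext v
  change m (y v) = y (m v)
  refine tendsto_nhds_unique ((m.continuous.tendsto _).comp (hy v)) ?_
  refine (hy (m v)).congr fun k => ?_
  have := congrArg (fun T : H →L[ℂ] H => T v) (hm' (x k) (hx k))
  simpa using this

/-- products of bounded 2-norm convergent sequences -/
theorem tendsto_N2_mul (hξ : IsFaithfulTracialVectorState M ξ) {α : Type*} {l : Filter α}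
    {a b : α → H →L[ℂ] H} {a' b' : H →L[ℂ] H} {C : ℝ} (hCa : ∀ k, ‖a k‖ ≤ C)
    (ha : ∀ k, a k ∈ M) (ha' : a' ∈ M) (hb' : b' ∈ M)
    (h1 : Tendsto (fun k => N2 ξ (a k - a')) l (𝓝 0))
    (h2 : Tendsto (fun k => N2 ξ (b k - b')) l (𝓝 0)) :
    Tendsto (fun k => N2 ξ (a k * b k - a' * b')) l (𝓝 0) := by
  have h3 : Tendsto (fun k => C * N2 ξ (b k - b') + N2 ξ (a k - a') * ‖b'‖) l (𝓝 0) := by
    simpa using (h2.const_mul C).add (h1.mul_const ‖b'‖)
  refine squeeze_zero (fun _ => N2_nonneg _) (fun k => ?_) h3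
  have e1 : a k * b k - a' * b' = a k * (b k - b') + (a k - a') * b' := by
    rw [mul_sub, sub_mul]; abel
  rw [e1]
  refine (N2_add_le (sqSum hξ) _ _).trans (add_le_add ?_ ?_)
  · refine (N2_mul_left (sqSum hξ) _ _).trans ?_
    gcongr
    · exact N2_nonneg _
    · exact hCa k
  · exact N2_mul_right hξ (sub_mem (ha k) ha') hb'

theorem tendsto_N2_star (hξ : IsFaithfulTracialVectorState M ξ) {α : Type*} {l : Filter α}
    {a : α → H →L[ℂ] H} {a' : H →L[ℂ] H}
    (ha : ∀ k, a k ∈ M) (ha' : a' ∈ M)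
    (h1 : Tendsto (fun k => N2 ξ (a k - a')) l (𝓝 0)) :
    Tendsto (fun k => N2 ξ (star (a k) - star a')) l (𝓝 0) := by
  refine h1.congr fun k => ?_
  rw [← star_sub, N2_star hξ (sub_mem (ha k) ha')]


end Crest.Agent.R95
end

-- ▼ part R95/Bridge

/-!
R95 (helper364): bridge between a von Neumann algebra with a faithful tracial vector state and an
abstract C*-algebra with a `TracialState`; the density lemma (double commutant theorem on
`ℓ²(ℕ, H)`); the concrete form of the core statement.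
-/

set_option autoImplicit false

open scoped InnerProductSpace ENNReal
open Filter Topology

namespace Crest.Agent.R95

open Crest.OpAlg

universe u

section bridge

variable {H : Type u} [NormedAddCommGroup H] [InnerProductSpace ℂ H] [CompleteSpace H]
variable {M : VonNeumannAlgebra H} {ξ : ℕ → H}


theorem isClosed_vn (M : VonNeumannAlgebra H) :
    IsClosed (M.toStarSubalgebra : Set (H →L[ℂ] H)) := by
  have h : (M.toStarSubalgebra : Set (H →L[ℂ] H)) =
      Set.centralizer (Set.centralizer (M : Set (H →L[ℂ] H))) := by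
    rw [VonNeumannAlgebra.centralizer_centralizer]; rfl
  rw [h]
  exact Set.isClosed_centralizer _

noncomputable instance instCStarVN (M : VonNeumannAlgebra H) :
    CStarAlgebra M.toStarSubalgebra :=
  StarSubalgebra.cstarAlgebra _ (h_closed := isClosed_vn M)

/-- the tracial state of a von Neumann algebra given by a faithful tracial vector state -/
noncomputable def vnTrace (hξ : IsFaithfulTracialVectorState M ξ) :
    TracialState M.toStarSubalgebra where
  τ :=
    { toFun := fun x => tr ξ (x : H →L[ℂ] H)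
      map_add' := fun x y => tr_add (sqSum hξ) _ _
      map_smul' := fun c x => tr_smul (sqSum hξ) _ _ }
  one := tr_one hξ
  tr a b := tr_mul_comm hξ a.2 b.2
  star' a := tr_star (sqSum hξ) _
  pos a := by
    change 0 ≤ (tr ξ (star (a : H →L[ℂ] H) * a)).re
    rw [tr_star_mul_self (sqSum hξ), Complex.ofReal_re]
    positivity
  bdd a b := by
    change (tr ξ (star ((a : H →L[ℂ] H) * b) * ((a : H →L[ℂ] H) * b))).re ≤
      ‖(a : H →L[ℂ] H)‖ ^ 2 * (tr ξ (star (b : H →L[ℂ] H) * b)).re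
    rw [tr_star_mul_self (sqSum hξ), tr_star_mul_self (sqSum hξ), Complex.ofReal_re,
      Complex.ofReal_re, ← mul_pow]
    exact pow_le_pow_left₀ (N2_nonneg _) (N2_mul_left (sqSum hξ) _ _) 2

@[simp] theorem vnTrace_τ (hξ : IsFaithfulTracialVectorState M ξ) (x : M.toStarSubalgebra) :
    (vnTrace hξ).τ x = vectorState ξ (x : H →L[ℂ] H) := rfl

@[simp] theorem vnTrace_nrm2 (hξ : IsFaithfulTracialVectorState M ξ) (x : M.toStarSubalgebra) :
    (vnTrace hξ).nrm2 x = N2 ξ (x : H →L[ℂ] H) := by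
  have : ((vnTrace hξ).τ (star x * x)).re = N2 ξ (x : H →L[ℂ] H) ^ 2 := by
    change (tr ξ (star (x : H →L[ℂ] H) * x)).re = _
    rw [tr_star_mul_self (sqSum hξ), Complex.ofReal_re]
  rw [TracialState.nrm2, this, Real.sqrt_sq (N2_nonneg _)]

end bridge

section density

variable {H : Type u} [NormedAddCommGroup H] [InnerProductSpace ℂ H] [CompleteSpace H]

omit [InnerProductSpace ℂ H] [CompleteSpace H] in
theorem sqSum_coe (f : L2 H) : SqSum (fun n => f n) := by
  have h1 := lp.memℓp f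
  have h2 := (memℓp_gen_iff (by norm_num)).1 h1
  simpa [SqSum] using h2

omit [InnerProductSpace ℂ H] [CompleteSpace H] in
theorem norm_sq_L2 (f : L2 H) : ‖f‖ ^ 2 = ∑' n, ‖f n‖ ^ 2 := by
  have h : ‖f‖ ^ (2 : ℝ≥0∞).toReal = ∑' i, ‖f i‖ ^ (2 : ℝ≥0∞).toReal :=
    lp.norm_rpow_eq_tsum (by norm_num) f
  simpa using h

/-- the amplification of an operator to `ℓ²(ℕ, H)` -/
noncomputable def ampL (a : H →L[ℂ] H) : L2 H →L[ℂ] L2 H :=
  LinearMap.mkContinuous
    { toFun := fun f => ⟨fun n => a (f n), ((sqSum_coe f).apply a).memℓp⟩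
      map_add' := fun f g => by ext n; exact map_add a _ _
      map_smul' := fun c f => by ext n; exact map_smul a _ _ }
    ‖a‖ (fun f => by
      rw [← sq_le_sq₀ (norm_nonneg _) (by positivity), mul_pow, norm_sq_L2, norm_sq_L2,
        ← tsum_mul_left]
      refine Summable.tsum_le_tsum (fun n => ?_) ((sqSum_coe f).apply a)
        (Summable.mul_left _ (sqSum_coe f))
      change ‖a (f n)‖ ^ 2 ≤ _
      calc ‖a (f n)‖ ^ 2 ≤ (‖a‖ * ‖f n‖) ^ 2 := by gcongr; exact a.le_opNorm _
        _ = _ := by ring)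

omit [CompleteSpace H] in
@[simp] theorem ampL_apply (a : H →L[ℂ] H) (f : L2 H) (n : ℕ) : ampL a f n = a (f n) := rfl

/-- **density lemma** (double commutant theorem, amplified): every element `x` of the double
commutant of a unital star subalgebra `S` is a limit of elements of `S` in `∑ ‖· (ξ n)‖²`. -/
theorem exists_near_of_centralizer {ξ : ℕ → H} (hξ : SqSum ξ)
    (S : StarSubalgebra ℂ (H →L[ℂ] H)) {x : H →L[ℂ] H}
    (hx : x ∈ Set.centralizer (Set.centralizer (S : Set (H →L[ℂ] H)))) {ε : ℝ} (hε : 0 < ε) :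
    ∃ y ∈ S, N2 ξ (y - x) < ε := by
  set V : Submodule ℂ (L2 H) :=
    (Submodule.map (io hξ) (Subalgebra.toSubmodule S.toSubalgebra)).topologicalClosure with hV
  have : CompleteSpace V := (Submodule.isClosed_topologicalClosure _).completeSpace_coe
  -- invariance
  have hinv : ∀ s ∈ S, ∀ f ∈ V, ampL s f ∈ V := by
    intro s hs f hf
    have hmaps : Set.MapsTo (ampL s)
        (Submodule.map (io hξ) (Subalgebra.toSubmodule S.toSubalgebra) : Set (L2 H))
        (Submodule.map (io hξ) (Subalgebra.toSubmodule S.toSubalgebra) : Set (L2 H)) := by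
      rintro g ⟨t, ht, rfl⟩
      refine ⟨s * t, S.mul_mem hs ht, ?_⟩
      ext n; rfl
    exact hmaps.closure (ampL s).continuous hf
  have hinner : ∀ (s : H →L[ℂ] H) (f g : L2 H), ⟪f, ampL s g⟫_ℂ = ⟪ampL (star s) f, g⟫_ℂ := by
    intro s f g
    rw [lp.inner_eq_tsum, lp.inner_eq_tsum]
    congr 1
    ext n
    rw [ampL_apply, ampL_apply, ContinuousLinearMap.star_eq_adjoint,
      ContinuousLinearMap.adjoint_inner_left]
  have hinv' : ∀ s ∈ S, ∀ f ∈ Vᗮ, ampL s f ∈ Vᗮ := by
    intro s hs f hf g hg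
    rw [hinner]
    exact hf _ (hinv _ (star_mem hs) g hg)
  set p := V.starProjection with hp
  have hcomm : ∀ s ∈ S, ∀ f, ampL s (p f) = p (ampL s f) := by
    intro s hs f
    have hdecomp : f = p f + Vᗮ.starProjection f := by
      rw [Submodule.starProjection_orthogonal']
      simp [hp]
    have h1 : ampL s (p f) ∈ V := hinv s hs _ (Submodule.starProjection_apply_mem _ _)
    have h2 : ampL s (Vᗮ.starProjection f) ∈ Vᗮ := hinv' s hs _ (Submodule.starProjection_apply_mem _ _)
    conv_rhs => rw [hdecomp, map_add, map_add]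
    have e1 : p (ampL s (p f)) = ampL s (p f) := Submodule.starProjection_eq_self_iff.2 h1
    have e2 : p (ampL s (Vᗮ.starProjection f)) = 0 := by
      rw [hp, Submodule.starProjection_apply_eq_zero_iff]; exact h2
    rw [e1, e2, add_zero]
  -- matrix entries of `p`
  let q : ℕ → ℕ → (H →L[ℂ] H) := fun i j =>
    (lp.evalCLM ℂ (fun _ : ℕ => H) 2 i).comp (p.comp (lp.singleContinuousLinearMap ℂ (fun _ : ℕ => H) 2 j))
  have hq : ∀ i j h, q i j h = p (lp.single 2 j h) i := fun i j h => rfl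
  have hsingle : ∀ (a : H →L[ℂ] H) (j : ℕ) (h : H),
      ampL a (lp.single 2 j h) = lp.single 2 j (a h) := by
    intro a j h
    ext n
    rw [ampL_apply]
    by_cases hn : n = j
    · subst hn; simp
    · rw [lp.single_apply_ne _ _ _ hn, lp.single_apply_ne _ _ _ hn, map_zero]
  have hqS : ∀ i j, q i j ∈ Set.centralizer (S : Set (H →L[ℂ] H)) := by
    intro i j s hs
    ext h
    change s (q i j h) = q i j (s h)
    rw [hq, hq, ← hsingle, ← hcomm s hs, ampL_apply]
  have hxq : ∀ i j h, x (q i j h) = q i j (x h) := by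
    intro i j h
    have := hx (q i j) (hqS i j)
    exact (congrArg (fun T : H →L[ℂ] H => T h) this).symm
  have hxp : ∀ f, ampL x (p f) = p (ampL x f) := by
    intro f
    have h1 : HasSum (fun j => lp.single 2 j (f j)) f := lp.hasSum_single (by norm_num) f
    have h2 := (h1.mapL p).mapL (ampL x)
    have h3 := (h1.mapL (ampL x)).mapL p
    have h4 : (fun j => p (ampL x (lp.single 2 j (f j)))) =
        fun j => ampL x (p (lp.single 2 j (f j))) := by
      funext j
      ext i
      rw [hsingle, ampL_apply, ← hq, ← hq, hxq]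
    rw [h4] at h3
    exact h2.unique h3
  have h1V : io hξ 1 ∈ V :=
    Submodule.le_topologicalClosure _ ⟨1, S.one_mem, rfl⟩
  have hxV : io hξ x ∈ V := by
    have e1 : io hξ x = ampL x (io hξ 1) := by ext n; rfl
    have e2 : p (io hξ 1) = io hξ 1 := Submodule.starProjection_eq_self_iff.2 h1V
    rw [e1, ← e2, hxp]
    exact Submodule.starProjection_apply_mem _ _
  obtain ⟨g, ⟨y, hy, rfl⟩, hg⟩ := Metric.mem_closure_iff.1 (show io hξ x ∈ closure _ from hxV) ε hε
  refine ⟨y, hy, ?_⟩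
  rw [dist_comm, dist_eq_norm, ← map_sub, norm_io] at hg
  exact hg

/-- density lemma for generated von Neumann algebras: every `x` lying in all von Neumann algebras
containing the unital star subalgebra `S` is a 2-norm limit of elements of `S`. -/
theorem exists_near_of_forall_vn {ξ : ℕ → H} (hξ : SqSum ξ)
    (S : StarSubalgebra ℂ (H →L[ℂ] H)) {x : H →L[ℂ] H}
    (hx : ∀ N : VonNeumannAlgebra H, (∀ s ∈ S, s ∈ N) → x ∈ N) {ε : ℝ} (hε : 0 < ε) :
    ∃ y ∈ S, N2 ξ (y - x) < ε := by
  refine exists_near_of_centralizer hξ S ?_ hε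
  have h := hx (vnGen (S : Set (H →L[ℂ] H))) ?_
  · have h' : x ∈ ((StarSubalgebra.centralizer ℂ
      ((StarSubalgebra.centralizer ℂ (S : Set (H →L[ℂ] H)) : StarSubalgebra ℂ (H →L[ℂ] H)) :
        Set (H →L[ℂ] H)) : StarSubalgebra ℂ (H →L[ℂ] H)) : Set (H →L[ℂ] H)) := h
    rw [StarSubalgebra.coe_centralizer_centralizer] at h'
    have hs : (S : Set (H →L[ℂ] H)) ∪ star (S : Set (H →L[ℂ] H)) = S := by
      rw [Set.union_eq_left]
      intro s hs
      have := star_mem (s := S) (show star s ∈ S from hs)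
      rwa [star_star] at this
    rwa [hs] at h'
  · intro s hs
    change s ∈ ((StarSubalgebra.centralizer ℂ
      ((StarSubalgebra.centralizer ℂ (S : Set (H →L[ℂ] H)) : StarSubalgebra ℂ (H →L[ℂ] H)) :
        Set (H →L[ℂ] H)) : StarSubalgebra ℂ (H →L[ℂ] H)) : Set (H →L[ℂ] H))
    rw [StarSubalgebra.coe_centralizer_centralizer]
    exact Set.subset_centralizer_centralizer (Or.inl hs)

theorem coe_vnGen (S : Set (H →L[ℂ] H)) :
    ((vnGen S : VonNeumannAlgebra H) : Set (H →L[ℂ] H)) = (S ∪ star S).centralizer.centralizer := by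
  change ((StarSubalgebra.centralizer ℂ ((StarSubalgebra.centralizer ℂ S :
      StarSubalgebra ℂ (H →L[ℂ] H)) : Set (H →L[ℂ] H)) : StarSubalgebra ℂ (H →L[ℂ] H)) :
        Set (H →L[ℂ] H)) = _
  rw [StarSubalgebra.coe_centralizer_centralizer]

theorem subset_vnGen (S : Set (H →L[ℂ] H)) : ∀ s ∈ S, s ∈ vnGen S := by
  intro s hs
  rw [← SetLike.mem_coe, coe_vnGen]
  exact Set.subset_centralizer_centralizer (Or.inl hs)

theorem vnGen_le {S : Set (H →L[ℂ] H)} {N : VonNeumannAlgebra H} (h : ∀ s ∈ S, s ∈ N) :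
    vnGen S ≤ N := by
  intro x hx
  rw [← SetLike.mem_coe, coe_vnGen] at hx
  rw [← SetLike.mem_coe, ← VonNeumannAlgebra.centralizer_centralizer]
  have hsub : S ∪ star S ⊆ (N : Set (H →L[ℂ] H)) := by
    rintro s (hs | hs)
    · exact h s hs
    · have := star_mem (h _ hs)
      rwa [star_star] at this
  exact Set.centralizer_subset (Set.centralizer_subset hsub) hx

theorem mem_vnGen_iff {S : Set (H →L[ℂ] H)} {x : H →L[ℂ] H} :
    x ∈ vnGen S ↔ ∀ N : VonNeumannAlgebra H, (∀ s ∈ S, s ∈ N) → x ∈ N :=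
  ⟨fun hx _ hN => vnGen_le hN hx, fun h => h _ (subset_vnGen S)⟩

/-- density lemma for `vnGen`: elements of `vnGen S` are 2-norm limits of elements of the unital
star algebra generated by `S`. -/
theorem exists_near_of_mem_vnGen {ξ : ℕ → H} (hξ : SqSum ξ) {S : Set (H →L[ℂ] H)}
    {x : H →L[ℂ] H} (hx : x ∈ vnGen S) {ε : ℝ} (hε : 0 < ε) :
    ∃ y ∈ StarAlgebra.adjoin ℂ S, N2 ξ (y - x) < ε := by
  refine exists_near_of_forall_vn hξ _ (fun N hN => ?_) hε
  exact mem_vnGen_iff.1 hx N fun s hs => hN s (StarAlgebra.subset_adjoin ℂ S hs)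

end density

section core

/-- commuting pairs of anticommuting self-adjoint unitaries in a C*-algebra -/
def PauliPairs {A : Type u} [CStarAlgebra A] (u v : ℕ → A) : Prop :=
  (∀ j, IsSelfAdjoint (u j) ∧ IsSelfAdjoint (v j) ∧
    u j * u j = 1 ∧ v j * v j = 1 ∧ u j * v j = -(v j * u j)) ∧
  (∀ j k, j ≠ k → u j * u k = u k * u j ∧ u j * v k = v k * u j ∧ v j * v k = v k * v j)

/-- the abstract core statement (the key lemma (*)), to be proved in `Core.lean` -/
def CoreStatement : Prop :=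
  ∀ (A : Type u) [CStarAlgebra A] (T : TracialState A) (u v : ℕ → A), PauliPairs u v →
    ∀ R s₀ : ℝ, 0 < s₀ → ∃ κ : ℝ, 0 < κ ∧ ∀ y₀ : A, IsSelfAdjoint y₀ → ‖y₀‖ ≤ R →
      s₀ ≤ T.nrm2 y₀ → ∀ X : A, IsSelfAdjoint X → ∀ ε : ℝ, 0 < ε →
        ∃ Z Y : A, IsSelfAdjoint Z ∧ T.nrm2 (Z - X) < ε ∧ T.nrm2 Y ≤ 1 ∧
          κ ≤ (T.τ (Y * y₀)).re ∧
          ∀ S : StarSubalgebra ℂ A, IsClosed (S : Set A) → (∀ j, u j ∈ S ∧ v j ∈ S) → Z ∈ S → Y ∈ S

variable {H : Type u} [NormedAddCommGroup H] [InnerProductSpace ℂ H] [CompleteSpace H]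

/-- the concrete form of the core statement -/
theorem core_concrete_of (hcore : CoreStatement.{u}) {M : VonNeumannAlgebra H} {ξ : ℕ → H}
    (hξ : IsFaithfulTracialVectorState M ξ) {u v : ℕ → H →L[ℂ] H} (huv : HasPauli M u v)
    (R s₀ : ℝ) (hs₀ : 0 < s₀) :
    ∃ κ : ℝ, 0 < κ ∧ ∀ y₀ ∈ M, IsSelfAdjoint y₀ → ‖y₀‖ ≤ R → s₀ ≤ N2 ξ y₀ →
      ∀ X ∈ M, IsSelfAdjoint X → ∀ ε : ℝ, 0 < ε →
        ∃ Z ∈ M, ∃ Y ∈ M, IsSelfAdjoint Z ∧ N2 ξ (Z - X) < ε ∧ N2 ξ Y ≤ 1 ∧
          κ ≤ (vectorState ξ (Y * y₀)).re ∧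
          ∀ N : VonNeumannAlgebra H, (∀ j, u j ∈ N ∧ v j ∈ N) → Z ∈ N → Y ∈ N := by
  let u' : ℕ → M.toStarSubalgebra := fun j => ⟨u j, (huv.1 j).1⟩
  let v' : ℕ → M.toStarSubalgebra := fun j => ⟨v j, (huv.1 j).2.1⟩
  have hp : PauliPairs u' v' := by
    refine ⟨fun j => ?_, fun j k hjk => ?_⟩
    · obtain ⟨-, -, h1, h2, h3, h4, h5⟩ := huv.1 j
      exact ⟨Subtype.ext h1, Subtype.ext h2, Subtype.ext h3, Subtype.ext h4, Subtype.ext h5⟩
    · obtain ⟨h1, h2, h3⟩ := huv.2 j k hjk
      exact ⟨Subtype.ext h1, Subtype.ext h2, Subtype.ext h3⟩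
  obtain ⟨κ, hκ, hmain⟩ := hcore M.toStarSubalgebra (vnTrace hξ) u' v' hp R s₀ hs₀
  refine ⟨κ, hκ, fun y₀ hy₀ hsa hR hs X hX hXsa ε hε => ?_⟩
  obtain ⟨Z, Y, hZsa, hZX, hY1, hcorr, halg⟩ := hmain ⟨y₀, hy₀⟩ (Subtype.ext hsa) hR
    (by rw [vnTrace_nrm2]; exact hs) ⟨X, hX⟩ (Subtype.ext hXsa) ε hε
  refine ⟨Z, Z.2, Y, Y.2, congrArg Subtype.val hZsa, ?_, ?_, hcorr, ?_⟩
  · rw [vnTrace_nrm2] at hZX; exact hZX
  · rw [vnTrace_nrm2] at hY1; exact hY1
  · intro N hN hZN
    have h := halg (N.toStarSubalgebra.comap M.toStarSubalgebra.subtype) ?_ ?_ ?_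
    · exact h
    · exact (isClosed_vn N).preimage continuous_subtype_val
    · exact fun j => hN j
    · exact hZN

end core

end Crest.Agent.R95
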