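import Crest.Prelude.Def_VNFactor

/-!
R95 base file (helper364): the trace 2-norm of a vector state `ξ` through the linear map
`io ξ hξ : (H →L[ℂ] H) →ₗ[ℂ] ℓ²(ℕ, H)`, `x ↦ (x (ξ n))ₙ`.

Main API
* `N2 ξ x = √(traceNormSq ξ x)`, `tr ξ x = vectorState ξ x`.
-/

set_option autoImplicit false

open scoped InnerProductSpace ENNReal
open Filter Topology

namespace Crest.Agent.R95

open Crest.OpAlg

variable {H : Type*} [NormedAddCommGroup H] [InnerProductSpace ℂ H] [CompleteSpace H]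

/-- `ℓ²(ℕ, H)` -/
abbrev L2 (H : Type*) [NormedAddCommGroup H] := lp (fun _ : ℕ => H) 2

/-- the vector sequence is square summable -/
def SqSum (ξ : ℕ → H) : Prop := Summable fun n => ‖ξ n‖ ^ 2

omit [InnerProductSpace ℂ H] [CompleteSpace H] in
theorem SqSum.memℓp {ξ : ℕ → H} (h : SqSum ξ) : Memℓp ξ 2 := by
  apply memℓp_gen
  simpa [SqSum] using h

omit [CompleteSpace H] in
theorem SqSum.apply {ξ : ℕ → H} (h : SqSum ξ) (x : H →L[ℂ] H) : SqSum fun n => x (ξ n) := by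
  refine Summable.of_nonneg_of_le (fun n => by positivity) (fun n => ?_)
    (Summable.mul_left (‖x‖ ^ 2) h)
  calc ‖x (ξ n)‖ ^ 2 ≤ (‖x‖ * ‖ξ n‖) ^ 2 := by gcongr; exact x.le_opNorm _
    _ = ‖x‖ ^ 2 * ‖ξ n‖ ^ 2 := by ring

/-- the linear map `x ↦ (x (ξ n))ₙ` -/
noncomputable def io {ξ : ℕ → H} (hξ : SqSum ξ) : (H →L[ℂ] H) →ₗ[ℂ] L2 H where
  toFun x := ⟨fun n => x (ξ n), (hξ.apply x).memℓp⟩
  map_add' x y := by ext n; rfl
  map_smul' c x := by ext n; rfl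

/-- the trace 2-norm -/
noncomputable def N2 (ξ : ℕ → H) (x : H →L[ℂ] H) : ℝ := Real.sqrt (traceNormSq ξ x)

/-- the trace -/
noncomputable def tr (ξ : ℕ → H) (x : H →L[ℂ] H) : ℂ := vectorState ξ x

section basic

variable {ξ : ℕ → H}

omit [CompleteSpace H] in
@[simp] theorem io_apply (hξ : SqSum ξ) (x : H →L[ℂ] H) (n : ℕ) :
    (io hξ x : ℕ → H) n = x (ξ n) := rfl

omit [CompleteSpace H] in
theorem norm_io_sq (hξ : SqSum ξ) (x : H →L[ℂ] H) : ‖io hξ x‖ ^ 2 = traceNormSq ξ x := by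
  have h : ‖io hξ x‖ ^ (2 : ℝ≥0∞).toReal = ∑' i, ‖io hξ x i‖ ^ (2 : ℝ≥0∞).toReal :=
    lp.norm_rpow_eq_tsum (by norm_num) (io hξ x)
  simpa [traceNormSq] using h

omit [CompleteSpace H] in
theorem norm_io (hξ : SqSum ξ) (x : H →L[ℂ] H) : ‖io hξ x‖ = N2 ξ x := by
  rw [N2, ← norm_io_sq hξ, Real.sqrt_sq (norm_nonneg _)]

omit [CompleteSpace H] in
theorem inner_io (hξ : SqSum ξ) (x y : H →L[ℂ] H) :
    ⟪io hξ x, io hξ y⟫_ℂ = ∑' n, ⟪x (ξ n), y (ξ n)⟫_ℂ := by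
  rw [lp.inner_eq_tsum]; rfl

theorem tr_star_mul (hξ : SqSum ξ) (x y : H →L[ℂ] H) :
    tr ξ (star x * y) = ⟪io hξ x, io hξ y⟫_ℂ := by
  rw [inner_io, tr, vectorState]
  congr 1
  ext n
  rw [mul_apply_eq_comp, ContinuousLinearMap.star_eq_adjoint,
    ContinuousLinearMap.adjoint_inner_right]

omit [CompleteSpace H] in
theorem tr_eq_inner (hξ : SqSum ξ) (x : H →L[ℂ] H) :
    tr ξ x = ⟪io hξ 1, io hξ x⟫_ℂ := by
  rw [inner_io, tr, vectorState]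
  rfl

omit [CompleteSpace H] in
theorem N2_nonneg (x : H →L[ℂ] H) : 0 ≤ N2 ξ x := Real.sqrt_nonneg _

omit [CompleteSpace H] in
theorem traceNormSq_nonneg (x : H →L[ℂ] H) : 0 ≤ traceNormSq ξ x :=
  tsum_nonneg fun _ => by positivity

omit [CompleteSpace H] in
theorem N2_sq (x : H →L[ℂ] H) : N2 ξ x ^ 2 = traceNormSq ξ x :=
  Real.sq_sqrt (traceNormSq_nonneg x)

omit [CompleteSpace H] in
@[simp] theorem N2_zero : N2 ξ (0 : H →L[ℂ] H) = 0 := by simp [N2, traceNormSq]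

omit [CompleteSpace H] in
@[simp] theorem N2_neg (x : H →L[ℂ] H) : N2 ξ (-x) = N2 ξ x := by simp [N2, traceNormSq]

omit [CompleteSpace H] in
theorem N2_sub_comm (x y : H →L[ℂ] H) : N2 ξ (x - y) = N2 ξ (y - x) := by
  rw [← N2_neg, neg_sub]

omit [CompleteSpace H] in
theorem N2_add_le (hξ : SqSum ξ) (x y : H →L[ℂ] H) : N2 ξ (x + y) ≤ N2 ξ x + N2 ξ y := by
  simp only [← norm_io hξ, map_add]; exact norm_add_le _ _

omit [CompleteSpace H] in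
theorem N2_sub_le (hξ : SqSum ξ) (x y : H →L[ℂ] H) : N2 ξ (x - y) ≤ N2 ξ x + N2 ξ y := by
  simp only [← norm_io hξ, map_sub]; exact norm_sub_le _ _

omit [CompleteSpace H] in
theorem N2_triangle (hξ : SqSum ξ) (x y z : H →L[ℂ] H) :
    N2 ξ (x - z) ≤ N2 ξ (x - y) + N2 ξ (y - z) := by
  have := N2_add_le hξ (x - y) (y - z)
  rwa [sub_add_sub_cancel] at this


omit [CompleteSpace H] in
theorem N2_smul (hξ : SqSum ξ) (c : ℂ) (x : H →L[ℂ] H) : N2 ξ (c • x) = ‖c‖ * N2 ξ x := by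
  simp only [← norm_io hξ, map_smul]; exact norm_smul _ _


omit [CompleteSpace H] in
theorem N2_mul_left (hξ : SqSum ξ) (a x : H →L[ℂ] H) : N2 ξ (a * x) ≤ ‖a‖ * N2 ξ x := by
  rw [N2, Real.sqrt_le_left (by positivity [N2_nonneg (ξ := ξ) x]), mul_pow, N2_sq]
  rw [traceNormSq, traceNormSq, ← tsum_mul_left]
  refine Summable.tsum_le_tsum (fun n => ?_) (hξ.apply (a * x))
    (Summable.mul_left _ (hξ.apply x))
  calc ‖(a * x) (ξ n)‖ ^ 2 ≤ (‖a‖ * ‖x (ξ n)‖) ^ 2 := by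
        gcongr; exact a.le_opNorm _
    _ = _ := by ring

omit [CompleteSpace H] in
theorem norm_apply_le_N2 (hξ : SqSum ξ) (x : H →L[ℂ] H) (n : ℕ) : ‖x (ξ n)‖ ≤ N2 ξ x := by
  rw [← norm_io hξ]
  exact lp.norm_apply_le_norm (by norm_num) (io hξ x) n

omit [CompleteSpace H] in
theorem tr_add (hξ : SqSum ξ) (x y : H →L[ℂ] H) : tr ξ (x + y) = tr ξ x + tr ξ y := by
  simp only [tr_eq_inner hξ, map_add, inner_add_right]

omit [CompleteSpace H] in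
theorem tr_sub (hξ : SqSum ξ) (x y : H →L[ℂ] H) : tr ξ (x - y) = tr ξ x - tr ξ y := by
  simp only [tr_eq_inner hξ, map_sub, inner_sub_right]

omit [CompleteSpace H] in
theorem tr_neg (hξ : SqSum ξ) (x : H →L[ℂ] H) : tr ξ (-x) = - tr ξ x := by
  simp only [tr_eq_inner hξ, map_neg, inner_neg_right]

omit [CompleteSpace H] in
theorem tr_smul (hξ : SqSum ξ) (c : ℂ) (x : H →L[ℂ] H) : tr ξ (c • x) = c * tr ξ x := by
  simp only [tr_eq_inner hξ, map_smul, inner_smul_right]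

omit [CompleteSpace H] in
@[simp] theorem tr_zero : tr ξ (0 : H →L[ℂ] H) = 0 := by simp [tr, vectorState]

omit [CompleteSpace H] in
theorem tr_sum (hξ : SqSum ξ) {ι : Type*} (s : Finset ι) (f : ι → H →L[ℂ] H) :
    tr ξ (∑ i ∈ s, f i) = ∑ i ∈ s, tr ξ (f i) := by
  simp only [tr_eq_inner hξ, map_sum, inner_sum]

theorem tr_star (hξ : SqSum ξ) (x : H →L[ℂ] H) : tr ξ (star x) = starRingEnd ℂ (tr ξ x) := by
  have h1 : tr ξ (star x) = ⟪io hξ x, io hξ 1⟫_ℂ := by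
    rw [← tr_star_mul, mul_one]
  rw [h1, tr_eq_inner hξ, inner_conj_symm]

theorem norm_tr_star_mul_le (hξ : SqSum ξ) (x y : H →L[ℂ] H) :
    ‖tr ξ (star x * y)‖ ≤ N2 ξ x * N2 ξ y := by
  rw [tr_star_mul hξ, ← norm_io hξ, ← norm_io hξ]; exact norm_inner_le_norm _ _

theorem tr_star_mul_self (hξ : SqSum ξ) (x : H →L[ℂ] H) :
    tr ξ (star x * x) = ((N2 ξ x ^ 2 : ℝ) : ℂ) := by
  rw [tr_star_mul hξ, ← norm_io hξ, inner_self_eq_norm_sq_to_K]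
  norm_cast

/-- polarised norm of a difference -/
theorem N2_sub_sq (hξ : SqSum ξ) (x y : H →L[ℂ] H) :
    N2 ξ (x - y) ^ 2 = N2 ξ x ^ 2 - 2 * (tr ξ (star x * y)).re + N2 ξ y ^ 2 := by
  rw [tr_star_mul hξ, ← norm_io hξ, ← norm_io hξ, ← norm_io hξ, map_sub, norm_sub_sq (𝕜 := ℂ)]
  rfl

end basic

section tracial

variable {M : VonNeumannAlgebra H} {ξ : ℕ → H}

theorem sqSum (hξ : IsFaithfulTracialVectorState M ξ) : SqSum ξ := hξ.1.summable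

theorem tr_one (hξ : IsFaithfulTracialVectorState M ξ) : tr ξ (1 : H →L[ℂ] H) = 1 := by
  have h : (fun n => ⟪ξ n, ξ n⟫_ℂ) = fun n => ((‖ξ n‖ ^ 2 : ℝ) : ℂ) := by
    ext n; rw [inner_self_eq_norm_sq_to_K]; norm_cast
  have : tr ξ (1 : H →L[ℂ] H) = ∑' n, ((‖ξ n‖ ^ 2 : ℝ) : ℂ) := by
    rw [tr, vectorState]; simp only [one_apply_eq_self]; rw [h]
  rw [this, ← Complex.ofReal_tsum, hξ.1.tsum_eq, Complex.ofReal_one]

theorem N2_one (hξ : IsFaithfulTracialVectorState M ξ) : N2 ξ (1 : H →L[ℂ] H) = 1 := by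
  rw [N2, traceNormSq]
  simp only [one_apply_eq_self]
  rw [hξ.1.tsum_eq, Real.sqrt_one]

theorem N2_le_norm (hξ : IsFaithfulTracialVectorState M ξ) (x : H →L[ℂ] H) : N2 ξ x ≤ ‖x‖ := by
  have := N2_mul_left (sqSum hξ) x 1
  rwa [mul_one, N2_one hξ, mul_one] at this

theorem tr_mul_comm (hξ : IsFaithfulTracialVectorState M ξ) {x y : H →L[ℂ] H} (hx : x ∈ M)
    (hy : y ∈ M) : tr ξ (x * y) = tr ξ (y * x) := hξ.2.1 x hx y hy

theorem N2_star (hξ : IsFaithfulTracialVectorState M ξ) {x : H →L[ℂ] H} (hx : x ∈ M) :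
    N2 ξ (star x) = N2 ξ x := by
  have h1 := tr_star_mul_self (sqSum hξ) x
  have h2 := tr_star_mul_self (sqSum hξ) (star x)
  rw [star_star, tr_mul_comm hξ hx (star_mem hx), h1] at h2
  have h3 : N2 ξ x ^ 2 = N2 ξ (star x) ^ 2 := by exact_mod_cast h2
  exact ((sq_eq_sq₀ (N2_nonneg _) (N2_nonneg _)).1 h3).symm

theorem N2_mul_right (hξ : IsFaithfulTracialVectorState M ξ) {x b : H →L[ℂ] H} (hx : x ∈ M)
    (hb : b ∈ M) : N2 ξ (x * b) ≤ N2 ξ x * ‖b‖ := by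
  rw [← N2_star hξ (mul_mem hx hb), star_mul]
  refine (N2_mul_left (sqSum hξ) _ _).trans ?_
  rw [norm_star, N2_star hξ hx, mul_comm]

theorem N2_mul_mul (hξ : IsFaithfulTracialVectorState M ξ) {a x b : H →L[ℂ] H}
    (hx : x ∈ M) (hb : b ∈ M) : N2 ξ (a * x * b) ≤ ‖a‖ * N2 ξ x * ‖b‖ := by
  rw [mul_assoc]
  refine (N2_mul_left (sqSum hξ) _ _).trans ?_
  rw [mul_assoc]
  gcongr
  exact N2_mul_right hξ hx hb

theorem eq_zero_of_N2 (hξ : IsFaithfulTracialVectorState M ξ) {x : H →L[ℂ] H} (hx : x ∈ M)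
    (h : N2 ξ x = 0) : x = 0 := by
  refine hξ.2.2 x hx fun n => ?_
  have := norm_apply_le_N2 (sqSum hξ) x n
  rw [h] at this
  simpa using this

theorem eq_of_N2 (hξ : IsFaithfulTracialVectorState M ξ) {x y : H →L[ℂ] H} (hx : x ∈ M)
    (hy : y ∈ M) (h : N2 ξ (x - y) = 0) : x = y :=
  sub_eq_zero.1 (eq_zero_of_N2 hξ (sub_mem hx hy) h)



end tracial

end Crest.Agent.R95
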