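import Mathlib
import Crest.Prelude.Def_VNFactor
import Crest.Agent.R95.L2
import Crest.Agent.R95.Defs

-- ▼ part R95/Factor1
section

/-! Basic tools for concrete von Neumann algebras: membership via the commutant, range
projections, spectral cut-off producing partial isometries. -/

set_option autoImplicit false

namespace Crest.Agent.R95

open scoped InnerProductSpace
open Filter Topology

variable {H : Type*} [NormedAddCommGroup H] [InnerProductSpace ℂ H] [CompleteSpace H]

/-- The von Neumann algebra of all operators commuting with `s` and `star s`. -/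
noncomputable def commSet (s : Set (H →L[ℂ] H)) : VonNeumannAlgebra H where
  toStarSubalgebra := StarSubalgebra.centralizer ℂ s
  centralizer_centralizer' := by
    simp

theorem mem_commSet {s : Set (H →L[ℂ] H)} {x : H →L[ℂ] H} :
    x ∈ commSet s ↔ ∀ y ∈ s, y * x = x * y ∧ star y * x = x * star y := by
  rw [commSet, ← SetLike.mem_coe]
  exact StarSubalgebra.mem_centralizer_iff ℂ

theorem mem_of_comm {M : VonNeumannAlgebra H} {x : H →L[ℂ] H}
    (h : ∀ y ∈ M.commutant, y * x = x * y) : x ∈ M := by
  rw [← VonNeumannAlgebra.commutant_commutant M, VonNeumannAlgebra.mem_commutant_iff]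
  exact h

theorem comm_of_mem {M : VonNeumannAlgebra H} {x y : H →L[ℂ] H}
    (hx : x ∈ M) (hy : y ∈ M.commutant) : x * y = y * x := by
  rw [VonNeumannAlgebra.mem_commutant_iff] at hy
  exact hy x hx

theorem smul_mem' {M : VonNeumannAlgebra H} {x : H →L[ℂ] H} (c : ℂ) (hx : x ∈ M) :
    c • x ∈ M := by
  apply mem_of_comm
  intro y hy
  rw [smul_mul_assoc, mul_smul_comm, comm_of_mem hx hy]

theorem cfc_mem {M : VonNeumannAlgebra H} {a : H →L[ℂ] H} (ha : a ∈ M)
    (f : ℝ → ℝ) : cfc f a ∈ M := by
  apply mem_of_comm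
  intro y hy
  have : Commute a y := comm_of_mem ha hy
  exact (this.cfc_real f).eq.symm

/-- The range projection of an operator. -/
noncomputable def rproj (c : H →L[ℂ] H) : H →L[ℂ] H :=
  (c.range.topologicalClosure).starProjection

theorem rproj_isStarProjection (c : H →L[ℂ] H) : IsStarProjection (rproj c) :=
  isStarProjection_starProjection


theorem rproj_star (c : H →L[ℂ] H) : star (rproj c) = rproj c :=
  (rproj_isStarProjection c).isSelfAdjoint

theorem rproj_idem (c : H →L[ℂ] H) : rproj c * rproj c = rproj c :=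
  (rproj_isStarProjection c).isIdempotentElem

theorem rproj_mul (c : H →L[ℂ] H) : rproj c * c = c := by
  ext v
  change rproj c (c v) = c v
  rw [rproj, Submodule.starProjection_eq_self_iff]
  exact Submodule.le_topologicalClosure _ ⟨v, rfl⟩

theorem rproj_ext {c x y : H →L[ℂ] H} (h : x * c = y * c) :
    x * rproj c = y * rproj c := by
  ext v
  change x (rproj c v) = y (rproj c v)
  have hcl : IsClosed {w : H | x w = y w} := isClosed_eq x.continuous y.continuous
  have hsub : (c.range.topologicalClosure : Set H) ⊆ {w : H | x w = y w} := by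
    rw [Submodule.topologicalClosure_coe]
    apply closure_minimal _ hcl
    rintro _ ⟨u, rfl⟩
    exact congrArg (fun T : H →L[ℂ] H => T u) h
  exact hsub (Submodule.starProjection_apply_mem _ v)

theorem rproj_zero_of {c x : H →L[ℂ] H} (h : x * c = 0) : x * rproj c = 0 := by
  have := rproj_ext (c := c) (x := x) (y := 0) (by simpa using h)
  simpa using this

theorem rproj_comm {c h : H →L[ℂ] H} (h1 : h * c = c * h) (h2 : star h * c = c * star h) :
    h * rproj c = rproj c * h := by
  have e1 : rproj c * h * rproj c = h * rproj c := by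
    apply rproj_ext
    rw [mul_assoc, h1, ← mul_assoc, rproj_mul]
  have e2 : rproj c * star h * rproj c = star h * rproj c := by
    apply rproj_ext
    rw [mul_assoc, h2, ← mul_assoc, rproj_mul]
  have e3 := congrArg star e2
  simp only [star_mul, rproj_star, star_star, ← mul_assoc] at e3
  rw [← e1, e3]

theorem rproj_mem {M : VonNeumannAlgebra H} {c : H →L[ℂ] H} (hc : c ∈ M) : rproj c ∈ M := by
  apply mem_of_comm
  intro y hy
  apply rproj_comm
  · exact (comm_of_mem hc hy).symm
  · exact (comm_of_mem hc (star_mem hy)).symm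

theorem rproj_ne_zero {c : H →L[ℂ] H} (hc : c ≠ 0) : rproj c ≠ 0 := by
  intro h
  apply hc
  rw [← rproj_mul c, h, zero_mul]

theorem exists_cutoff {M : VonNeumannAlgebra H} {a : H →L[ℂ] H} (ha : a ∈ M) (h0 : a ≠ 0) :
    ∃ w ∈ M, w ≠ 0 ∧ IsStarProjection (star w * w) ∧ (∀ r, r * a = a → r * w = w) ∧
      (∀ s, a * s = a → w * s = w) := by
  set h2 : H →L[ℂ] H := star a * a with hh2
  have hsa : IsSelfAdjoint h2 := IsSelfAdjoint.star_mul_self a
  have hpos : 0 ≤ h2 := star_mul_self_nonneg a
  have h2M : h2 ∈ M := mul_mem (star_mem ha) ha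
  have hn0 : 0 < ‖h2‖ := by
    rw [hh2, CStarRing.norm_star_mul_self]
    have : 0 < ‖a‖ := norm_pos_iff.mpr h0
    positivity
  set δ : ℝ := ‖h2‖ / 2 with hδ
  have hδ0 : 0 < δ := by positivity
  have hspec : ∀ t ∈ spectrum ℝ h2, 0 ≤ t := fun t ht => spectrum_nonneg_of_nonneg hpos ht
  set c : H →L[ℂ] H := cfc (fun t : ℝ => max (t - δ) 0) h2 with hc
  set f1 : H →L[ℂ] H := cfc (fun t : ℝ => max (t - δ) 0 / max t δ) h2 with hf1
  set g : H →L[ℂ] H := cfc (fun t : ℝ => 1 / Real.sqrt (max t δ)) h2 with hg
  have hmaxpos : ∀ t : ℝ, 0 < max t δ := fun t => lt_of_lt_of_le hδ0 (le_max_right _ _)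
  have hcont1 : Continuous (fun t : ℝ => max (t - δ) 0) := by fun_prop
  have hcont2 : Continuous (fun t : ℝ => max (t - δ) 0 / max t δ) := by
    apply Continuous.div (by fun_prop) (by fun_prop)
    intro t; exact (hmaxpos t).ne'
  have hcont3 : Continuous (fun t : ℝ => 1 / Real.sqrt (max t δ)) := by
    apply Continuous.div (by fun_prop) (by fun_prop)
    intro t; exact (Real.sqrt_pos.mpr (hmaxpos t)).ne'
  have hcM : c ∈ M := cfc_mem h2M _
  have hgM : g ∈ M := cfc_mem h2M _
  have hcid : Continuous (fun t : ℝ => t) := continuous_id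
  have hid : cfc (fun t : ℝ => t) h2 = h2 := cfc_id' ℝ h2 hsa
  -- c = f1 * h2
  have hcf : c = f1 * h2 := by
    rw [hc, hf1]
    nth_rewrite 3 [← hid]
    rw [← cfc_mul _ _ h2 hcont2.continuousOn hcid.continuousOn]
    apply cfc_congr
    intro t ht
    have h0t := hspec t ht
    simp only
    rcases le_total t δ with h | h
    · rw [max_eq_right (by linarith : t - δ ≤ 0)]; simp
    · rw [max_eq_left h]
      have : t ≠ 0 := by intro h'; linarith
      field_simp
  -- c ≠ 0
  have hcne : c ≠ 0 := by
    intro hc0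
    have hle : ‖h2 - c‖ ≤ δ := by
      have : h2 - c = cfc (fun t : ℝ => t - max (t - δ) 0) h2 := by
        rw [cfc_sub (R := ℝ) (fun t : ℝ => t) (fun t : ℝ => max (t - δ) 0) h2
          hcid.continuousOn hcont1.continuousOn, hid]
      rw [this]
      apply norm_cfc_le hδ0.le
      intro t ht
      have h0t := hspec t ht
      rcases le_total t δ with h | h
      · rw [max_eq_right (by linarith : t - δ ≤ 0), Real.norm_eq_abs, abs_of_nonneg (by linarith)]
        linarith
      · rw [max_eq_left (by linarith : 0 ≤ t - δ), Real.norm_eq_abs, abs_of_nonneg (by linarith)]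
        linarith
    rw [hc0, sub_zero] at hle
    linarith
  set e := rproj c with he
  have heM : e ∈ M := rproj_mem hcM
  have hene : e ≠ 0 := rproj_ne_zero hcne
  -- g h2 g e = e
  have hgsa : star g = g := (cfc_predicate (R := ℝ) _ h2 : IsSelfAdjoint g).star_eq
  have hk : g * h2 * g * e = e := by
    have h1 : g * h2 * g * c = 1 * c := by
      rw [hg, hc]
      nth_rewrite 2 [← hid]
      have hc4 : Continuous (fun t : ℝ => 1 / Real.sqrt (max t δ) * t) := hcont3.mul hcid
      have hc5 : Continuous (fun t : ℝ => 1 / Real.sqrt (max t δ) * t *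
          (1 / Real.sqrt (max t δ))) := hc4.mul hcont3
      rw [← cfc_mul _ _ h2 hcont3.continuousOn hcid.continuousOn,
        ← cfc_mul _ _ h2 hc4.continuousOn hcont3.continuousOn,
        ← cfc_mul _ _ h2 hc5.continuousOn hcont1.continuousOn,
        one_mul]
      apply cfc_congr
      intro t ht
      have h0t := hspec t ht
      simp only
      rcases le_total t δ with h | h
      · rw [max_eq_right (by linarith : t - δ ≤ 0)]; simp
      · rw [max_eq_left h]
        have ht0 : 0 < t := by linarith
        have hs : Real.sqrt t * Real.sqrt t = t := Real.mul_self_sqrt ht0.le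
        have hs0 : Real.sqrt t ≠ 0 := (Real.sqrt_pos.mpr ht0).ne'
        have : 1 / Real.sqrt t * t * (1 / Real.sqrt t) = 1 := by
          field_simp
          rw [sq]; exact hs.symm
        rw [this, one_mul]
    have h3 := rproj_ext h1
    rwa [one_mul] at h3
  have hee : e * e = e := rproj_idem c
  have hes : star e = e := rproj_star c
  have hww : star (a * g * e) * (a * g * e) = e := by
    calc star (a * g * e) * (a * g * e) = e * (g * h2 * g * e) := by
          simp only [star_mul, hgsa, hes, hh2, mul_assoc]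
      _ = e := by rw [hk, hee]
  refine ⟨a * g * e, mul_mem (mul_mem ha hgM) heM, ?_, ?_, ?_, ?_⟩
  · intro h
    rw [h] at hww
    simp at hww
    exact hene hww.symm
  · rw [hww]; exact rproj_isStarProjection c
  · intro r hr
    rw [← mul_assoc, ← mul_assoc, hr]
  · intro s hs
    have h1 : c * s = c := by
      rw [hcf, hh2, mul_assoc, mul_assoc, hs]
    have hcs : star c = c := (cfc_predicate (R := ℝ) _ h2 : IsSelfAdjoint c).star_eq
    have h2' : star s * c = 1 * c := by
      have := congrArg star h1
      rw [star_mul, hcs] at this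
      rw [this, one_mul]
    have h3 := rproj_ext h2'
    have h4 := congrArg star h3
    rw [star_mul, star_star, one_mul, rproj_star] at h4
    rw [mul_assoc, h4]

end Crest.Agent.R95
end

-- ▼ part R95/Factor2
section

/-! Factor lemmas: `p M q ≠ 0`, a minimal projection forces finite dimension, splitting of
projections in an infinite dimensional factor with faithful trace. -/

set_option autoImplicit false

namespace Crest.Agent.R95

open scoped InnerProductSpace
open Filter Topology Crest.OpAlg

variable {H : Type*} [NormedAddCommGroup H] [InnerProductSpace ℂ H] [CompleteSpace H]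

theorem starProj_comm {K : Submodule ℂ H} [K.HasOrthogonalProjection] {y : H →L[ℂ] H}
    (h1 : ∀ v ∈ K, y v ∈ K) (h2 : ∀ v ∈ K, star y v ∈ K) :
    y * K.starProjection = K.starProjection * y := by
  have hs : star K.starProjection = K.starProjection :=
    (isStarProjection_starProjection : IsStarProjection K.starProjection).isSelfAdjoint
  have key : ∀ z : H →L[ℂ] H, (∀ v ∈ K, z v ∈ K) →
      K.starProjection * z * K.starProjection = z * K.starProjection := by
    intro z hz
    ext v
    change K.starProjection (z (K.starProjection v)) = z (K.starProjection v)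
    rw [Submodule.starProjection_eq_self_iff]
    exact hz _ (Submodule.starProjection_apply_mem _ v)
  have e1 := key y h1
  have e3 := congrArg star (key (star y) h2)
  simp only [star_mul, hs, star_star, ← mul_assoc] at e3
  rw [← e1, e3]

theorem factor_exists_ne_zero {M : VonNeumannAlgebra H} (hM : IsFactor M) {p q : H →L[ℂ] H}
    (hp0 : p ≠ 0) (hq : q ∈ M) (hq0 : q ≠ 0) :
    ∃ x ∈ M, p * x * q ≠ 0 := by
  by_contra hcon
  push Not at hcon
  set K0 : Submodule ℂ H := Submodule.span ℂ {w | ∃ x ∈ M, ∃ v, w = x (q v)} with hK0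
  set K := K0.topologicalClosure with hK
  have hmaps : ∀ y : H →L[ℂ] H, (∀ w ∈ {w | ∃ x ∈ M, ∃ v, w = x (q v)}, y w ∈ K0) →
      ∀ v ∈ K, y v ∈ K := by
    intro y hy v hv
    have h1 : K0 ≤ K0.comap (y : H →ₗ[ℂ] H) := by
      rw [hK0, Submodule.span_le]
      intro w hw
      exact hy w hw
    have h2 : Set.MapsTo y (K0 : Set H) (K0 : Set H) := fun w hw => h1 hw
    have h3 := h2.closure y.continuous
    exact h3 hv
  have hzM : K.starProjection ∈ M := by
    apply mem_of_comm
    intro y hy
    have aux : ∀ y ∈ M.commutant, ∀ w ∈ {w | ∃ x ∈ M, ∃ v, w = x (q v)}, y w ∈ K0 := by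
      rintro y hy _ ⟨x, hx, v, rfl⟩
      apply Submodule.subset_span
      refine ⟨x, hx, y v, ?_⟩
      have e1 : y * (x * q) = (x * q) * y := (comm_of_mem (mul_mem hx hq) hy).symm
      exact congrArg (fun T : H →L[ℂ] H => T v) e1
    exact starProj_comm (hmaps y (aux y hy)) (hmaps _ (aux _ (star_mem hy)))
  have hzM' : ∀ y ∈ M, K.starProjection * y = y * K.starProjection := by
    intro y hy
    have aux : ∀ y ∈ M, ∀ w ∈ {w | ∃ x ∈ M, ∃ v, w = x (q v)}, y w ∈ K0 := by
      rintro y hy _ ⟨x, hx, v, rfl⟩
      apply Submodule.subset_span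
      exact ⟨y * x, mul_mem hy hx, v, rfl⟩
    exact (starProj_comm (hmaps y (aux y hy)) (hmaps _ (aux _ (star_mem hy)))).symm
  obtain ⟨c, hc⟩ := hM _ hzM hzM'
  have hzq : K.starProjection * q = q := by
    ext v
    change K.starProjection (q v) = q v
    rw [Submodule.starProjection_eq_self_iff]
    apply Submodule.le_topologicalClosure
    apply Submodule.subset_span
    exact ⟨1, one_mem M, v, rfl⟩
  have hc1 : c = 1 := by
    rw [hc] at hzq
    rw [smul_mul_assoc, one_mul] at hzq
    have : (c - 1) • q = 0 := by rw [sub_smul, hzq, one_smul, sub_self]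
    rcases smul_eq_zero.mp this with h | h
    · exact sub_eq_zero.mp h
    · exact absurd h hq0
  have hz1 : K.starProjection = 1 := by rw [hc, hc1, one_smul]
  apply hp0
  ext v
  have hv : v ∈ K := by
    rw [← Submodule.starProjection_eq_self_iff (K := K), hz1]; rfl
  have hcl : IsClosed {w : H | p w = 0} := isClosed_eq p.continuous continuous_const
  have hsub : (K : Set H) ⊆ {w : H | p w = 0} := by
    rw [hK, Submodule.topologicalClosure_coe]
    apply closure_minimal _ hcl
    intro w hw
    have : K0 ≤ LinearMap.ker (p : H →ₗ[ℂ] H) := by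
      rw [hK0, Submodule.span_le]
      rintro _ ⟨x, hx, v, rfl⟩
      exact congrArg (fun T : H →L[ℂ] H => T v) (hcon x hx)
    exact this hw
  exact hsub hv


theorem star_mul_eq_zero {a : H →L[ℂ] H} (h : star a * a = 0) : a = 0 :=
  (CStarRing.star_mul_self_eq_zero_iff a).mp h

/-- `w q = w` when `w⋆ w = q` is idempotent. -/
theorem mul_eq_self_of_star_mul {w q : H →L[ℂ] H} (h : star w * w = q) (hqq : q * q = q) :
    w * q = w := by
  have hqs : star q = q := by rw [← h]; simp
  have : star (w * q - w) * (w * q - w) = 0 := by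
    rw [star_sub, star_mul, hqs]
    have : (q * star w - star w) * (w * q - w) =
        q * (star w * w) * q - q * (star w * w) - (star w * w) * q + star w * w := by noncomm_ring
    rw [this, h, hqq, hqq]
    noncomm_ring
  exact sub_eq_zero.mp (star_mul_eq_zero this)

theorem N2_sq_add {ξ : ℕ → H} (hξ : SqSum (H := H) ξ) {x y : H →L[ℂ] H} (h : star x * y = 0) :
    N2 ξ (x + y) ^ 2 = N2 ξ x ^ 2 + N2 ξ y ^ 2 := by
  have := N2_sub_sq hξ x (-y)
  rw [sub_neg_eq_add, N2_neg, mul_neg, h, neg_zero, tr_zero] at this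
  rw [this]; simp

/-- A factor with a faithful tracial vector state and a minimal projection is finite dimensional. -/
theorem finiteDimensional_of_minimal {M : VonNeumannAlgebra H} {ξ : ℕ → H}
    (hξ : IsFaithfulTracialVectorState M ξ) (hM : IsFactor M) {q : H →L[ℂ] H} (hq : q ∈ M)
    (hqq : q * q = q) (hqs : star q = q) (hq0 : q ≠ 0)
    (hmin : ∀ x ∈ M, ∃ c : ℂ, q * x * q = c • q) :
    FiniteDimensional ℂ M.toStarSubalgebra := by
  set S : Set ℕ := {n : ℕ | ∃ w : Fin n → (H →L[ℂ] H), (∀ i, w i ∈ M) ∧
    (∀ i, star (w i) * w i = q) ∧ ∀ i j, i ≠ j → star (w i) * w j = 0} with hS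
  have htq : 0 < N2 ξ q ^ 2 := by
    have : N2 ξ q ≠ 0 := fun h => hq0 (eq_zero_of_N2 hξ hq h)
    have := N2_nonneg (ξ := ξ) q
    positivity
  have hproj : ∀ (n : ℕ) (w : Fin n → (H →L[ℂ] H)), (∀ i, w i ∈ M) →
      (∀ i, star (w i) * w i = q) → (∀ i j, i ≠ j → star (w i) * w j = 0) →
      ∀ i, star (w i) * (∑ j, w j * star (w j)) = star (w i) := by
    intro n w hwM hww hwo i
    rw [Finset.mul_sum, Finset.sum_eq_single i]
    · rw [← mul_assoc, hww]
      have h1 : w i * q = w i := mul_eq_self_of_star_mul (hww i) hqq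
      have := congrArg star h1
      rwa [star_mul, hqs] at this
    · intro j _ hj
      rw [← mul_assoc, hwo i j (Ne.symm hj), zero_mul]
    · intro h; exact absurd (Finset.mem_univ i) h
  have hbd : ∀ n ∈ S, (n : ℝ) ≤ 1 / N2 ξ q ^ 2 := by
    rintro n ⟨w, hwM, hww, hwo⟩
    set P := ∑ j, w j * star (w j) with hP
    have hPs : star P = P := by
      rw [hP, star_sum]
      apply Finset.sum_congr rfl
      intro i _
      rw [star_mul, star_star]
    have hPP : P * P = P := by
      conv_lhs => rw [hP, Finset.sum_mul]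
      rw [hP]
      apply Finset.sum_congr rfl
      intro i _
      rw [mul_assoc, hproj n w hwM hww hwo i]
    have hPproj : IsStarProjection P := ⟨hPP, hPs⟩
    have hPn : N2 ξ P ≤ 1 := (N2_le_norm hξ P).trans hPproj.norm_le
    have h1 : tr ξ P = ((N2 ξ P ^ 2 : ℝ) : ℂ) := by
      rw [← tr_star_mul_self (sqSum hξ), hPs, hPP]
    have h2 : tr ξ P = ((n * N2 ξ q ^ 2 : ℝ) : ℂ) := by
      rw [hP, tr_sum (sqSum hξ)]
      have : ∀ i ∈ (Finset.univ : Finset (Fin n)), tr ξ (w i * star (w i)) = ((N2 ξ q ^ 2 : ℝ) : ℂ) := by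
        intro i _
        rw [tr_mul_comm hξ (hwM i) (star_mem (hwM i)), hww, ← tr_star_mul_self (sqSum hξ), hqs, hqq]
      rw [Finset.sum_congr rfl this]
      simp
    have h3 : (n : ℝ) * N2 ξ q ^ 2 = N2 ξ P ^ 2 := by
      rw [h1] at h2; exact_mod_cast h2.symm
    rw [le_div_iff₀ htq, h3]
    have := N2_nonneg (ξ := ξ) P
    nlinarith
  have hbdd : BddAbove S := by
    obtain ⟨N, hN⟩ := exists_nat_gt (1 / N2 ξ q ^ 2)
    refine ⟨N, fun n hn => ?_⟩
    exact_mod_cast ((hbd n hn).trans_lt hN).le
  have hne : S.Nonempty := ⟨0, fun i => i.elim0, fun i => i.elim0, fun i => i.elim0,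
    fun i => i.elim0⟩
  obtain ⟨n, hnS, hnmax⟩ : ∃ n ∈ S, ∀ m ∈ S, m ≤ n :=
    ⟨sSup S, Nat.sSup_mem hne hbdd, fun m hm => le_csSup hbdd hm⟩
  obtain ⟨w, hwM, hww, hwo⟩ := hnS
  set P := ∑ j, w j * star (w j) with hP
  have hPM : P ∈ M := sum_mem fun j _ => mul_mem (hwM j) (star_mem (hwM j))
  have hP1 : P = 1 := by
    by_contra hne1
    have hr0 : (1 - P) ≠ 0 := fun h => hne1 (sub_eq_zero.mp h).symm
    obtain ⟨x, hx, hxne⟩ := factor_exists_ne_zero hM hr0 hq hq0
    set a := (1 - P) * x * q with ha
    have haM : a ∈ M := mul_mem (mul_mem (sub_mem (one_mem M) hPM) hx) hq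
    obtain ⟨c, hc⟩ := hmin (star a * a) (mul_mem (star_mem haM) haM)
    have haq : a * q = a := by rw [ha, mul_assoc _ q q, hqq]
    have hqa : q * star a = star a := by
      have := congrArg star haq
      rwa [star_mul, hqs] at this
    have hc' : star a * a = c • q := by
      rw [← hc]
      calc star a * a = (q * star a) * (a * q) := by rw [hqa, haq]
        _ = q * (star a * a) * q := by noncomm_ring
    have hcpos : c = ((N2 ξ a ^ 2 / N2 ξ q ^ 2 : ℝ) : ℂ) := by
      have h1 := tr_star_mul_self (sqSum hξ) a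
      have h2 : tr ξ q = ((N2 ξ q ^ 2 : ℝ) : ℂ) := by
        rw [← tr_star_mul_self (sqSum hξ), hqs, hqq]
      rw [hc', tr_smul (sqSum hξ), h2] at h1
      have h3 : ((N2 ξ q ^ 2 : ℝ) : ℂ) ≠ 0 := by exact_mod_cast htq.ne'
      rw [Complex.ofReal_div, eq_div_iff h3]
      exact h1
    have hapos : 0 < N2 ξ a ^ 2 := by
      have : N2 ξ a ≠ 0 := fun h => hxne (eq_zero_of_N2 hξ haM h)
      have := N2_nonneg (ξ := ξ) a
      positivity
    set t : ℝ := N2 ξ a ^ 2 / N2 ξ q ^ 2 with ht
    have htpos : 0 < t := div_pos hapos htq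
    set u := (((Real.sqrt t)⁻¹ : ℝ) : ℂ) • a with hu
    have huM : u ∈ M := smul_mem' _ haM
    have huu : star u * u = q := by
      rw [hu, star_smul, smul_mul_smul_comm, hc', hcpos, smul_smul]
      have : star (((Real.sqrt t)⁻¹ : ℝ) : ℂ) * (((Real.sqrt t)⁻¹ : ℝ) : ℂ) * ((t : ℝ) : ℂ) = 1 := by
        have h1 : star (((Real.sqrt t)⁻¹ : ℝ) : ℂ) = (((Real.sqrt t)⁻¹ : ℝ) : ℂ) :=
          Complex.conj_ofReal _
        rw [h1, ← Complex.ofReal_mul, ← Complex.ofReal_mul]
        have h2 : Real.sqrt t * Real.sqrt t = t := Real.mul_self_sqrt htpos.le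
        have h3 : Real.sqrt t ≠ 0 := (Real.sqrt_pos.mpr htpos).ne'
        have : (Real.sqrt t)⁻¹ * (Real.sqrt t)⁻¹ * t = 1 := by
          nth_rewrite 3 [← h2]
          field_simp
        rw [this]; simp
      rw [this, one_smul]
    have hortho : ∀ i, star (w i) * u = 0 := by
      intro i
      have h1 : star (w i) * (1 - P) = 0 := by
        rw [mul_sub, mul_one, hproj n w hwM hww hwo i, sub_self]
      rw [hu, mul_smul_comm, ha, ← mul_assoc, ← mul_assoc, h1]
      simp
    have hmem' : n + 1 ∈ S := by
      refine ⟨Fin.cons u w, ?_, ?_, ?_⟩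
      · intro i
        refine Fin.cases ?_ (fun i => ?_) i
        · simpa using huM
        · simpa using hwM i
      · intro i
        refine Fin.cases ?_ (fun i => ?_) i
        · simpa using huu
        · simpa using hww i
      · intro i j
        refine Fin.cases ?_ (fun i => ?_) i
        · refine Fin.cases ?_ (fun j => ?_) j
          · intro h; exact absurd rfl h
          · intro _
            have := congrArg star (hortho j)
            simpa using this
        · refine Fin.cases ?_ (fun j => ?_) j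
          · intro _
            simpa using hortho i
          · intro h
            simp only [Fin.cons_succ]
            exact hwo i j (fun h' => h (by rw [h']))
    have := hnmax _ hmem'
    omega
  -- spanning
  choose! φ hφ using hmin
  have hspan : ∀ x ∈ M, x = ∑ i, ∑ j, φ (star (w i) * x * w j) • (w i * star (w j)) := by
    intro x hx
    have h1 : x = P * x * P := by rw [hP1, one_mul, mul_one]
    nth_rewrite 1 [h1]
    rw [hP, Finset.sum_mul, Finset.sum_mul]
    apply Finset.sum_congr rfl
    intro i _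
    rw [Finset.mul_sum]
    apply Finset.sum_congr rfl
    intro j _
    have h2 := hφ (star (w i) * x * w j) (mul_mem (mul_mem (star_mem (hwM i)) hx) (hwM j))
    have hwi : w i * q = w i := mul_eq_self_of_star_mul (hww i) hqq
    have hwj : q * star (w j) = star (w j) := by
      have := congrArg star (mul_eq_self_of_star_mul (hww j) hqq)
      rwa [star_mul, hqs] at this
    calc w i * star (w i) * x * (w j * star (w j))
        = w i * (star (w i) * x * w j) * star (w j) := by noncomm_ring
      _ = (w i * q) * (star (w i) * x * w j) * (q * star (w j)) := by rw [hwi, hwj]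
      _ = w i * (q * (star (w i) * x * w j) * q) * star (w j) := by noncomm_ring
      _ = φ (star (w i) * x * w j) • (w i * star (w j)) := by
          rw [h2, mul_smul_comm, smul_mul_assoc, hwi]
  have hfin : (Submodule.span ℂ (Set.range fun ij : Fin n × Fin n => w ij.1 * star (w ij.2))).FG :=
    Submodule.fg_span (Set.finite_range _)
  have hle : M.toStarSubalgebra.toSubalgebra.toSubmodule ≤
      Submodule.span ℂ (Set.range fun ij : Fin n × Fin n => w ij.1 * star (w ij.2)) := by
    intro x hx
    have hxM : x ∈ M := hx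
    rw [hspan x hxM]
    refine Submodule.sum_mem _ fun i _ => Submodule.sum_mem _ fun j _ => ?_
    exact Submodule.smul_mem _ _ (Submodule.subset_span ⟨(i, j), rfl⟩)
  have : FiniteDimensional ℂ
      (Submodule.span ℂ (Set.range fun ij : Fin n × Fin n => w ij.1 * star (w ij.2))) :=
    Module.Finite.iff_fg.mpr hfin
  exact Submodule.finiteDimensional_of_le hle

end Crest.Agent.R95
end

-- ▼ part R95/Factor3
section

/-! Splitting a projection and nonzero nilpotent partial isometries under every projection. -/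

set_option autoImplicit false

namespace Crest.Agent.R95

open scoped InnerProductSpace
open Filter Topology Crest.OpAlg

variable {H : Type*} [NormedAddCommGroup H] [InnerProductSpace ℂ H] [CompleteSpace H]

/-- A self-adjoint element of trace zero with vanishing positive part is zero. -/
theorem eq_zero_of_posPart {M : VonNeumannAlgebra H} {ξ : ℕ → H}
    (hξ : IsFaithfulTracialVectorState M ξ) {y : H →L[ℂ] H} (hy : y ∈ M) (hys : star y = y)
    (hty : tr ξ y = 0) (h : cfc (fun t : ℝ => t * max t 0) y = 0) : y = 0 := by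
  have hsa : IsSelfAdjoint y := hys
  have c1 : Continuous (fun t : ℝ => max t 0) := by fun_prop
  have c2 : Continuous (fun t : ℝ => Real.sqrt (max (-t) 0)) := by fun_prop
  have cid : Continuous (fun t : ℝ => t) := continuous_id
  -- positive part zero
  have hp : cfc (fun t : ℝ => max t 0) y = 0 := by
    apply star_mul_eq_zero
    have hs : star (cfc (fun t : ℝ => max t 0) y) = cfc (fun t : ℝ => max t 0) y :=
      (cfc_predicate (R := ℝ) _ y : IsSelfAdjoint _).star_eq
    rw [hs, ← cfc_mul _ _ y c1.continuousOn c1.continuousOn, ← h]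
    apply cfc_congr
    intro t _
    simp only
    rcases le_total t 0 with h' | h'
    · rw [max_eq_right h']; simp
    · rw [max_eq_left h']
  set s := cfc (fun t : ℝ => Real.sqrt (max (-t) 0)) y with hs
  have hss : star s = s := (cfc_predicate (R := ℝ) _ y : IsSelfAdjoint _).star_eq
  have hsM : s ∈ M := cfc_mem hy _
  have hy2 : y = - (star s * s) := by
    have e1 : star s * s = cfc (fun t : ℝ => max (-t) 0) y := by
      rw [hss, hs, ← cfc_mul _ _ y c2.continuousOn c2.continuousOn]
      apply cfc_congr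
      intro t _
      exact Real.mul_self_sqrt (le_max_right _ _)
    have e2 : y = cfc (fun t : ℝ => max t 0) y - cfc (fun t : ℝ => max (-t) 0) y := by
      have c3 : Continuous (fun t : ℝ => max (-t) 0) := by fun_prop
      rw [← cfc_sub _ _ y c1.continuousOn c3.continuousOn]
      nth_rewrite 1 [← cfc_id' ℝ y hsa]
      apply cfc_congr
      intro t _
      simp only
      rcases le_total t 0 with h' | h'
      · rw [max_eq_right h', max_eq_left (by linarith)]; ring
      · rw [max_eq_left h', max_eq_right (by linarith)]; ring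
    rw [e1]
    nth_rewrite 1 [e2]
    rw [hp, zero_sub]
  have hN : N2 ξ s = 0 := by
    have h1 := tr_star_mul_self (sqSum hξ) s
    have h2 : tr ξ (star s * s) = 0 := by
      have : star s * s = -y := by rw [hy2]; simp
      rw [this, tr_neg (sqSum hξ), hty, neg_zero]
    rw [h2] at h1
    have h3 : N2 ξ s ^ 2 = 0 := by exact_mod_cast h1.symm
    exact pow_eq_zero_iff (two_ne_zero) |>.mp h3
  have hs0 : s = 0 := eq_zero_of_N2 hξ hsM hN
  rw [hy2, hs0]; simp

theorem exists_split {M : VonNeumannAlgebra H} {ξ : ℕ → H}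
    (hξ : IsFaithfulTracialVectorState M ξ) {q : H →L[ℂ] H} (hq : q ∈ M)
    (hqq : q * q = q) (hqs : star q = q) (hq0 : q ≠ 0)
    (hmin : ¬ ∀ x ∈ M, ∃ c : ℂ, q * x * q = c • q) :
    ∃ r ∈ M, IsStarProjection r ∧ r ≠ 0 ∧ q * r = r ∧ q - r ≠ 0 := by
  have htq : 0 < N2 ξ q ^ 2 := by
    have : N2 ξ q ≠ 0 := fun h => hq0 (eq_zero_of_N2 hξ hq h)
    have := N2_nonneg (ξ := ξ) q
    positivity
  have htrq : tr ξ q = ((N2 ξ q ^ 2 : ℝ) : ℂ) := by
    rw [← tr_star_mul_self (sqSum hξ), hqs, hqq]
  -- a self-adjoint non-scalar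
  obtain ⟨b, hbM, hbs, hqb, hbq, hb⟩ : ∃ b ∈ M, star b = b ∧ q * b = b ∧ b * q = b ∧
      ∀ c : ℂ, b ≠ c • q := by
    push Not at hmin
    obtain ⟨x, hx, hxc⟩ := hmin
    set a := q * x * q with ha
    have haM : a ∈ M := mul_mem (mul_mem hq hx) hq
    have hqa : q * a = a := by rw [ha, ← mul_assoc, ← mul_assoc, hqq]
    have haq : a * q = a := by rw [ha, mul_assoc _ q q, hqq]
    have hqa' : q * star a = star a := by
      have := congrArg star haq
      rwa [star_mul, hqs] at this
    have haq' : star a * q = star a := by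
      have := congrArg star hqa
      rwa [star_mul, hqs] at this
    by_contra hcon
    push Not at hcon
    obtain ⟨c1, hc1⟩ := hcon (a + star a) (add_mem haM (star_mem haM))
      (by rw [star_add, star_star, add_comm]) (by rw [mul_add, hqa, hqa'])
      (by rw [add_mul, haq, haq'])
    obtain ⟨c2, hc2⟩ := hcon (Complex.I • (a - star a)) (smul_mem' _ (sub_mem haM (star_mem haM)))
      (by
        rw [star_smul, star_sub, star_star]
        have : star Complex.I = - Complex.I := Complex.conj_I
        rw [this, neg_smul, ← smul_neg, neg_sub])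
      (by rw [mul_smul_comm, mul_sub, hqa, hqa'])
      (by rw [smul_mul_assoc, sub_mul, haq, haq'])
    apply hxc ((2 : ℂ)⁻¹ * (c1 - Complex.I * c2))
    have h1 : a = (2 : ℂ)⁻¹ • ((a + star a) - Complex.I • (Complex.I • (a - star a))) := by
      rw [smul_smul, Complex.I_mul_I, neg_smul, one_smul, sub_neg_eq_add]
      have : a + star a + (a - star a) = (2 : ℂ) • a := by
        rw [two_smul]; abel
      rw [this, smul_smul]; norm_num
    rw [h1, hc1, hc2, smul_smul, ← sub_smul, smul_smul]
  -- trace real
  have htb : tr ξ b = (((tr ξ b).re : ℝ) : ℂ) := by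
    have h1 := tr_star (sqSum hξ) b
    rw [hbs] at h1
    exact (Complex.conj_eq_iff_real.mp h1.symm).elim fun r hr => by rw [hr]; simp
  set lam : ℝ := (tr ξ b).re / N2 ξ q ^ 2 with hlam
  set y := b - ((lam : ℝ) : ℂ) • q with hy
  have hyM : y ∈ M := sub_mem hbM (smul_mem' _ hq)
  have hys : star y = y := by
    rw [hy, star_sub, hbs, star_smul, hqs]
    congr 2
    exact Complex.conj_ofReal _
  have hy0 : y ≠ 0 := fun h => hb _ (sub_eq_zero.mp h)
  have hqy : q * y = y := by rw [hy, mul_sub, hqb, mul_smul_comm, hqq]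
  have hyq : y * q = y := by rw [hy, sub_mul, hbq, smul_mul_assoc, hqq]
  have hty : tr ξ y = 0 := by
    rw [hy, tr_sub (sqSum hξ), tr_smul (sqSum hξ), htrq, htb, ← Complex.ofReal_mul,
      ← Complex.ofReal_sub]
    have : (tr ξ b).re - lam * N2 ξ q ^ 2 = 0 := by
      rw [hlam, div_mul_cancel₀ _ htq.ne', sub_self]
    simp [this]
  have hsa : IsSelfAdjoint y := hys
  have c1 : Continuous (fun t : ℝ => max t 0) := by fun_prop
  have c1' : Continuous (fun t : ℝ => max (-t) 0) := by fun_prop
  have cid : Continuous (fun t : ℝ => t) := continuous_id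
  set cp := cfc (fun t : ℝ => t * max t 0) y with hcp
  set cm := cfc (fun t : ℝ => t * max (-t) 0) y with hcm
  have hid : cfc (fun t : ℝ => t) y = y := cfc_id' ℝ y hsa
  have hcp1 : cp = y * cfc (fun t : ℝ => max t 0) y := by
    rw [hcp, cfc_mul _ _ y cid.continuousOn c1.continuousOn, hid]
  have hcm1 : cm = y * cfc (fun t : ℝ => max (-t) 0) y := by
    rw [hcm, cfc_mul _ _ y cid.continuousOn c1'.continuousOn, hid]
  have hcms : star cm = cm := (cfc_predicate (R := ℝ) _ y : IsSelfAdjoint _).star_eq
  have hqcm : q * cm = cm := by rw [hcm1, ← mul_assoc, hqy]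
  have hcmq : cm * q = cm := by
    have := congrArg star hqcm
    rwa [star_mul, hqs, hcms] at this
  have c5 : Continuous (fun t : ℝ => t * max t 0) := cid.mul c1
  have c6 : Continuous (fun t : ℝ => t * max (-t) 0) := cid.mul c1'
  have hmp : cm * cp = 0 := by
    rw [hcm, hcp, ← cfc_mul _ _ y c6.continuousOn c5.continuousOn,
      ← cfc_const_zero ℝ y]
    apply cfc_congr
    intro t _
    simp only
    rcases le_total t 0 with h' | h'
    · rw [max_eq_right h']; simp
    · rw [max_eq_right (by linarith : -t ≤ 0)]; simp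
  have hcp0 : cp ≠ 0 := fun h => hy0 (eq_zero_of_posPart hξ hyM hys hty h)
  have hcm0 : cm ≠ 0 := by
    intro h
    have hneg : -y = 0 := by
      apply eq_zero_of_posPart hξ (neg_mem hyM) (by rw [star_neg, hys])
        (by rw [tr_neg (sqSum hξ), hty, neg_zero])
      have c3 : Continuous (fun t : ℝ => t * max t 0) := cid.mul c1
      have c4 : Continuous (fun t : ℝ => -t) := by fun_prop
      have e1 : -y = cfc (fun t : ℝ => -t) y := by
        rw [cfc_neg, hid]
      rw [e1, ← cfc_comp' (fun t : ℝ => t * max t 0) (fun t : ℝ => -t) y c3.continuousOn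
        c4.continuousOn hsa]
      have e2 : cfc (fun t : ℝ => -t * max (-t) 0) y = - cm := by
        rw [hcm, ← cfc_neg]
        apply cfc_congr
        intro t _
        ring
      rw [e2, h, neg_zero]
    exact hy0 (neg_eq_zero.mp hneg)
  refine ⟨rproj cp, rproj_mem (cfc_mem hyM _), rproj_isStarProjection cp, rproj_ne_zero hcp0,
    ?_, ?_⟩
  · have := rproj_ext (c := cp) (x := q) (y := 1) (by rw [hcp1, ← mul_assoc, hqy, one_mul])
    rwa [one_mul] at this
  · intro h
    have h1 : cm * rproj cp = 0 := rproj_zero_of hmp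
    rw [← sub_eq_zero.mp h, hcmq] at h1
    exact hcm0 h1

/-- Under every nonzero projection of a II₁ factor there is a nonzero partial isometry with square
zero. -/
theorem exists_nilp {M : VonNeumannAlgebra H} {ξ : ℕ → H}
    (hξ : IsFaithfulTracialVectorState M ξ) (hM : IsFactor M)
    (hinf : ¬ FiniteDimensional ℂ M.toStarSubalgebra) {q : H →L[ℂ] H} (hq : q ∈ M)
    (hqq : q * q = q) (hqs : star q = q) (hq0 : q ≠ 0) :
    ∃ w ∈ M, w ≠ 0 ∧ w * star w * w = w ∧ w * w = 0 ∧ q * w = w ∧ w * q = w := by
  have hmin : ¬ ∀ x ∈ M, ∃ c : ℂ, q * x * q = c • q := fun h =>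
    hinf (finiteDimensional_of_minimal hξ hM hq hqq hqs hq0 h)
  obtain ⟨r, hrM, hr, hr0, hqr, hqr0⟩ := exists_split hξ hq hqq hqs hq0 hmin
  have hrr : r * r = r := hr.isIdempotentElem
  have hrs : star r = r := hr.isSelfAdjoint
  have hrq : r * q = r := by
    have := congrArg star hqr
    rwa [star_mul, hrs, hqs] at this
  obtain ⟨x, hx, hxne⟩ := factor_exists_ne_zero hM (p := r) (q := q - r) hr0 (sub_mem hq hrM) hqr0
  have haM : r * x * (q - r) ∈ M := mul_mem (mul_mem hrM hx) (sub_mem hq hrM)
  obtain ⟨w, hwM, hw0, hww, hl, hri⟩ := exists_cutoff haM hxne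
  have h1 : r * w = w := hl r (by rw [← mul_assoc, ← mul_assoc, hrr])
  have h2 : w * (q - r) = w := hri (q - r) (by
    rw [mul_assoc]
    congr 1
    rw [sub_mul, mul_sub, mul_sub, hqq, hqr, hrq, hrr]; simp)
  refine ⟨w, hwM, hw0, ?_, ?_, ?_, ?_⟩
  · rw [mul_assoc]
    exact mul_eq_self_of_star_mul rfl hww.isIdempotentElem
  · calc w * w = (w * (q - r)) * (r * w) := by rw [h1, h2]
      _ = w * ((q - r) * r) * w := by noncomm_ring
      _ = 0 := by rw [sub_mul, hqr, hrr, sub_self]; simp
  · calc q * w = q * (r * w) := by rw [h1]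
      _ = (q * r) * w := by rw [mul_assoc]
      _ = w := by rw [hqr, h1]
  · calc w * q = (w * (q - r)) * q := by rw [h2]
      _ = w * ((q - r) * q) := by rw [mul_assoc]
      _ = w := by rw [sub_mul, hqq, hrq, h2]

end Crest.Agent.R95
end

-- ▼ part R95/Factor4
section

/-! Halving: in a II₁ factor there is `v` with `v⋆ v + v v⋆ = 1`, `v² = 0`. -/

set_option autoImplicit false

namespace Crest.Agent.R95

open scoped InnerProductSpace
open Filter Topology Crest.OpAlg

variable {H : Type*} [NormedAddCommGroup H] [InnerProductSpace ℂ H] [CompleteSpace H]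

/-- partial isometries of `M` with square zero -/
structure PN (M : VonNeumannAlgebra H) (v : H →L[ℂ] H) : Prop where
  mem : v ∈ M
  pi : v * star v * v = v
  sq : v * v = 0

/-- the remaining projection -/
noncomputable def qv (v : H →L[ℂ] H) : H →L[ℂ] H := 1 - star v * v - v * star v

section qv

variable {M : VonNeumannAlgebra H} {v : H →L[ℂ] H}

theorem PN.zero (M : VonNeumannAlgebra H) : PN M 0 := ⟨zero_mem M, by simp, by simp⟩

theorem qv_star (v : H →L[ℂ] H) : star (qv v) = qv v := by
  simp [qv]

theorem PN.qv_mem (h : PN M v) : qv v ∈ M :=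
  sub_mem (sub_mem (one_mem M) (mul_mem (star_mem h.mem) h.mem)) (mul_mem h.mem (star_mem h.mem))

theorem PN.mul_qv (h : PN M v) : v * qv v = 0 := by
  rw [qv, mul_sub, mul_sub, mul_one, ← mul_assoc, h.pi, ← mul_assoc, h.sq, zero_mul, sub_self,
    sub_zero]

theorem PN.qv_mul (h : PN M v) : qv v * v = 0 := by
  rw [qv, sub_mul, sub_mul, one_mul, h.pi, mul_assoc, h.sq, mul_zero, sub_zero, sub_self]

theorem PN.star_mul_qv (h : PN M v) : star v * qv v = 0 := by
  have := congrArg star h.qv_mul
  rwa [star_mul, qv_star, star_zero] at this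

theorem PN.qv_mul_star (h : PN M v) : qv v * star v = 0 := by
  have := congrArg star h.mul_qv
  rwa [star_mul, qv_star, star_zero] at this

theorem PN.qv_idem (h : PN M v) : qv v * qv v = qv v := by
  calc qv v * qv v = (1 - star v * v - v * star v) * qv v := rfl
    _ = qv v - star v * (v * qv v) - v * (star v * qv v) := by
        rw [sub_mul, sub_mul, one_mul, mul_assoc, mul_assoc]
    _ = qv v := by rw [h.mul_qv, h.star_mul_qv]; simp

theorem PN.norm_le (h : PN M v) : ‖v‖ ≤ 1 := by
  have h1 : IsStarProjection (star v * v) := by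
    refine ⟨?_, by simp [IsSelfAdjoint]⟩
    change star v * v * (star v * v) = star v * v
    calc star v * v * (star v * v) = star v * (v * star v * v) := by noncomm_ring
      _ = star v * v := by rw [h.pi]
  have h2 := h1.norm_le
  rw [CStarRing.norm_star_mul_self] at h2
  nlinarith [norm_nonneg v]

theorem PN.add {u : H →L[ℂ] H} (h : PN M v) (hu : PN M u) (h1 : qv v * u = u)
    (h2 : u * qv v = u) : PN M (v + u) ∧ star v * u = 0 ∧
      qv (v + u) = qv v - star u * u - u * star u := by
  have e1 : v * u = 0 := by rw [← h1, ← mul_assoc, h.mul_qv, zero_mul]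
  have e2 : star v * u = 0 := by rw [← h1, ← mul_assoc, h.star_mul_qv, zero_mul]
  have e3 : u * v = 0 := by rw [← h2, mul_assoc, h.qv_mul, mul_zero]
  have e4 : u * star v = 0 := by rw [← h2, mul_assoc, h.qv_mul_star, mul_zero]
  have e5 : star u * v = 0 := by
    have := congrArg star e2
    rwa [star_mul, star_star, star_zero] at this
  have e6 : v * star u = 0 := by
    have := congrArg star e4
    rwa [star_mul, star_star, star_zero] at this
  refine ⟨⟨add_mem h.mem hu.mem, ?_, ?_⟩, e2, ?_⟩
  · rw [star_add]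
    have : (v + u) * (star v + star u) * (v + u) = v * star v * v + u * star u * u
        + v * (star v * u) + (v * star u) * v + (v * star u) * u + (u * star v) * v
        + (u * star v) * u + u * (star u * v) := by noncomm_ring
    rw [this, e2, e6, e4, e5, h.pi, hu.pi]
    simp
  · have : (v + u) * (v + u) = v * v + v * u + u * v + u * u := by noncomm_ring
    rw [this, h.sq, e1, e3, hu.sq]; simp
  · rw [qv, qv, star_add]
    have : 1 - (star v + star u) * (v + u) - (v + u) * (star v + star u) =
        1 - star v * v - v * star v - star u * u - u * star u - star v * u - star u * v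
        - v * star u - u * star v := by noncomm_ring
    rw [this, e2, e5, e6, e4]
    simp

end qv

theorem exists_half {M : VonNeumannAlgebra H} {ξ : ℕ → H}
    (hξ : IsFaithfulTracialVectorState M ξ) (hM : IsFactor M)
    (hinf : ¬ FiniteDimensional ℂ M.toStarSubalgebra) :
    ∃ v, PN M v ∧ star v * v + v * star v = 1 := by
  -- the set of masses
  let T : (H →L[ℂ] H) → Set ℝ := fun v =>
    {t | ∃ u, PN M u ∧ qv v * u = u ∧ u * qv v = u ∧ t = N2 ξ u ^ 2}
  have hN1 : ∀ u, PN M u → N2 ξ u ^ 2 ≤ 1 := by
    intro u hu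
    have h1 := (N2_le_norm hξ u).trans hu.norm_le
    have h2 := N2_nonneg (ξ := ξ) u
    nlinarith
  have hTb : ∀ v, BddAbove (T v) := by
    intro v
    refine ⟨1, ?_⟩
    rintro t ⟨u, hu, _, _, rfl⟩
    exact hN1 u hu
  have hT0 : ∀ v, (0 : ℝ) ∈ T v := fun v => ⟨0, PN.zero M, by simp, by simp, by simp⟩
  have hstep : ∀ v : H →L[ℂ] H, ∃ u, PN M u ∧ qv v * u = u ∧ u * qv v = u ∧
      sSup (T v) ≤ 2 * N2 ξ u ^ 2 := by
    intro v
    rcases le_or_gt (sSup (T v)) 0 with h | h
    · exact ⟨0, PN.zero M, by simp, by simp, by simpa using h⟩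
    · obtain ⟨t, ⟨u, hu, h1, h2, rfl⟩, ht⟩ :=
        exists_lt_of_lt_csSup (s := T v) ⟨0, hT0 v⟩ (b := sSup (T v) / 2) (by linarith)
      exact ⟨u, hu, h1, h2, by linarith⟩
  choose U hU1 hU2 hU3 hU4 using hstep
  let V : ℕ → (H →L[ℂ] H) := fun n => Nat.rec 0 (fun _ v => v + U v) n
  have hV0 : V 0 = 0 := rfl
  have hVs : ∀ n, V (n + 1) = V n + U (V n) := fun n => rfl
  have hPN : ∀ n, PN M (V n) := by
    intro n
    induction n with
    | zero => rw [hV0]; exact PN.zero M
    | succ n ih => rw [hVs]; exact (ih.add (hU1 _) (hU2 _) (hU3 _)).1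
  have hqs : ∀ n, qv (V (n + 1)) = qv (V n) - star (U (V n)) * U (V n) - U (V n) * star (U (V n)) := by
    intro n
    rw [hVs]; exact ((hPN n).add (hU1 _) (hU2 _) (hU3 _)).2.2
  -- `q_i` kills `V n`, `star (V n)` for `n ≤ i`
  have hkill : ∀ n i, n ≤ i → qv (V i) * V n = 0 ∧ qv (V i) * star (V n) = 0 := by
    intro n i hni
    induction i, hni using Nat.le_induction with
    | base => exact ⟨(hPN n).qv_mul, (hPN n).qv_mul_star⟩
    | succ i hni ih =>
      obtain ⟨ih1, ih2⟩ := ih
      have hu3 := hU3 (V i)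
      have hu2 : star (U (V i)) * qv (V i) = star (U (V i)) := by
        have := congrArg star (hU2 (V i))
        rwa [star_mul, qv_star] at this
      have aux : ∀ z, qv (V i) * z = 0 → qv (V (i + 1)) * z = 0 := by
        intro z hz
        have e1 : U (V i) * z = 0 := by rw [← hu3, mul_assoc, hz, mul_zero]
        have e2 : star (U (V i)) * z = 0 := by rw [← hu2, mul_assoc, hz, mul_zero]
        rw [hqs, sub_mul, sub_mul, hz, mul_assoc, e1, mul_assoc, e2]
        simp
      exact ⟨aux _ ih1, aux _ ih2⟩
  have hkill' : ∀ n i, n ≤ i → V n * qv (V i) = 0 ∧ star (V n) * qv (V i) = 0 := by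
    intro n i hni
    obtain ⟨h1, h2⟩ := hkill n i hni
    constructor
    · have := congrArg star h2
      rwa [star_mul, star_star, qv_star, star_zero] at this
    · have := congrArg star h1
      rwa [star_mul, qv_star, star_zero] at this
  have hu0 : ∀ n i, n ≤ i → U (V i) * V n = 0 ∧ U (V i) * star (V n) = 0 ∧
      V n * U (V i) = 0 ∧ star (V n) * U (V i) = 0 := by
    intro n i hni
    obtain ⟨h1, h2⟩ := hkill n i hni
    obtain ⟨h3, h4⟩ := hkill' n i hni
    refine ⟨?_, ?_, ?_, ?_⟩
    · rw [← hU3, mul_assoc, h1, mul_zero]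
    · rw [← hU3, mul_assoc, h2, mul_zero]
    · rw [← hU2, ← mul_assoc, h3, zero_mul]
    · rw [← hU2, ← mul_assoc, h4, zero_mul]
  have hA : ∀ n m, n ≤ m → star (V n) * V m = star (V n) * V n ∧
      V m * star (V n) = V n * star (V n) ∧ V n * V m = 0 ∧ V m * V n = 0 := by
    intro n m hnm
    induction m, hnm using Nat.le_induction with
    | base => exact ⟨rfl, rfl, (hPN n).sq, (hPN n).sq⟩
    | succ m hnm ih =>
      obtain ⟨i1, i2, i3, i4⟩ := ih
      obtain ⟨j1, j2, j3, j4⟩ := hu0 n m hnm
      rw [hVs]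
      refine ⟨?_, ?_, ?_, ?_⟩
      · rw [mul_add, i1, j4, add_zero]
      · rw [add_mul, i2, j2, add_zero]
      · rw [mul_add, i3, j3, add_zero]
      · rw [add_mul, i4, j1, add_zero]
  -- Pythagoras
  have hpyth : ∀ n m, n ≤ m → ∀ x, ‖V m x‖ ^ 2 = ‖V n x‖ ^ 2 + ‖V m x - V n x‖ ^ 2 := by
    intro n m hnm x
    have h1 : ⟪V n x, V m x - V n x⟫_ℂ = 0 := by
      have e1 : star (V n) * (V m - V n) = 0 := by
        rw [mul_sub, (hA n m hnm).1, sub_self]
      have e2 : (star (V n)) ((V m - V n) x) = 0 :=
        congrArg (fun T : H →L[ℂ] H => T x) e1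
      rw [ContinuousLinearMap.star_eq_adjoint] at e2
      have e3 := ContinuousLinearMap.adjoint_inner_right (V n) x ((V m - V n) x)
      rw [e2, inner_zero_right] at e3
      exact e3.symm
    have h2 : V m x = V n x + (V m x - V n x) := by abel
    have h3 := norm_add_sq_eq_norm_sq_add_norm_sq_of_inner_eq_zero (V n x) (V m x - V n x) h1
    rw [← h2] at h3
    rw [sq, sq, sq]; exact h3
  have hbound : ∀ n x, ‖V n x‖ ≤ ‖x‖ := by
    intro n x
    have := (V n).le_opNorm x
    have h1 := (hPN n).norm_le
    calc ‖V n x‖ ≤ ‖V n‖ * ‖x‖ := this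
      _ ≤ 1 * ‖x‖ := by gcongr
      _ = ‖x‖ := one_mul _
  have hconv : ∀ x, ∃ y, Tendsto (fun n => V n x) atTop (𝓝 y) := by
    intro x
    apply cauchySeq_tendsto_of_complete
    have hmono : Monotone fun n => ‖V n x‖ ^ 2 := by
      intro n m hnm
      have := hpyth n m hnm x
      simp only
      rw [this]
      linarith [sq_nonneg ‖V m x - V n x‖]
    have hbdd : BddAbove (Set.range fun n => ‖V n x‖ ^ 2) := by
      refine ⟨‖x‖ ^ 2, ?_⟩
      rintro _ ⟨n, rfl⟩
      exact pow_le_pow_left₀ (norm_nonneg _) (hbound n x) 2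
    have hlim := tendsto_atTop_ciSup hmono hbdd
    set L := ⨆ n, ‖V n x‖ ^ 2 with hL
    have hle : ∀ n, ‖V n x‖ ^ 2 ≤ L := fun n => le_ciSup hbdd n
    apply cauchySeq_of_le_tendsto_0 (fun N => 2 * Real.sqrt (L - ‖V N x‖ ^ 2))
    · intro n m N hn hm
      have key : ∀ k, N ≤ k → dist (V k x) (V N x) ≤ Real.sqrt (L - ‖V N x‖ ^ 2) := by
        intro k hk
        apply Real.le_sqrt_of_sq_le
        rw [dist_eq_norm]
        have := hpyth N k hk x
        have h2 := hle k
        linarith
      have h1 := key n hn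
      have h2 := key m hm
      have h3 := dist_triangle (V n x) (V N x) (V m x)
      rw [dist_comm (V N x)] at h3
      linarith
    · have h1 : Tendsto (fun N => L - ‖V N x‖ ^ 2) atTop (𝓝 (L - L)) :=
        tendsto_const_nhds.sub hlim
      rw [sub_self] at h1
      have h2 := (Real.continuous_sqrt.tendsto 0).comp h1
      rw [Real.sqrt_zero] at h2
      simpa using h2.const_mul 2
  choose W0 hW0 using hconv
  set W : H →L[ℂ] H := continuousLinearMapOfTendsto (fun n => V n) (f := W0)
    (tendsto_pi_nhds.mpr hW0) with hWdef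
  have hW : ∀ x, Tendsto (fun n => V n x) atTop (𝓝 (W x)) := hW0
  -- identities
  have L1 : ∀ n, W * star (V n) = V n * star (V n) := by
    intro n
    ext x
    refine tendsto_nhds_unique (hW (star (V n) x)) ?_
    apply tendsto_const_nhds.congr'
    filter_upwards [eventually_ge_atTop n] with m hm
    exact congrArg (fun T : H →L[ℂ] H => T x) (hA n m hm).2.1.symm
  have L2 : ∀ n, W * V n = 0 := by
    intro n
    ext x
    refine tendsto_nhds_unique (hW (V n x)) ?_
    apply tendsto_const_nhds.congr'
    filter_upwards [eventually_ge_atTop n] with m hm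
    exact congrArg (fun T : H →L[ℂ] H => T x) (hA n m hm).2.2.2.symm
  have L3 : ∀ n, star (V n) * W = star (V n) * V n := by
    intro n
    ext x
    refine tendsto_nhds_unique (((star (V n)).continuous.tendsto (W x)).comp (hW x)) ?_
    apply tendsto_const_nhds.congr'
    filter_upwards [eventually_ge_atTop n] with m hm
    exact congrArg (fun T : H →L[ℂ] H => T x) (hA n m hm).1.symm
  have L4 : ∀ n, V n * W = 0 := by
    intro n
    ext x
    refine tendsto_nhds_unique (((V n).continuous.tendsto (W x)).comp (hW x)) ?_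
    apply tendsto_const_nhds.congr'
    filter_upwards [eventually_ge_atTop n] with m hm
    exact congrArg (fun T : H →L[ℂ] H => T x) (hA n m hm).2.2.1.symm
  have L1' : ∀ n, V n * star W = V n * star (V n) := by
    intro n
    have := congrArg star (L1 n)
    simpa only [star_mul, star_star] using this
  have L2' : ∀ n, star (V n) * star W = 0 := by
    intro n
    have := congrArg star (L2 n)
    simpa only [star_mul, star_star, star_zero] using this
  have L3' : ∀ n, star W * V n = star (V n) * V n := by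
    intro n
    have := congrArg star (L3 n)
    simpa only [star_mul, star_star] using this
  have L4' : ∀ n, star W * star (V n) = 0 := by
    intro n
    have := congrArg star (L4 n)
    simpa only [star_mul, star_star, star_zero] using this
  have hWPN : PN M W := by
    refine ⟨?_, ?_, ?_⟩
    · apply mem_of_comm
      intro y hy
      ext x
      refine tendsto_nhds_unique ((y.continuous.tendsto (W x)).comp (hW x)) ?_
      refine (hW (y x)).congr ?_
      intro n
      exact congrArg (fun T : H →L[ℂ] H => T x) (comm_of_mem (hPN n).mem hy)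
    · ext x
      refine tendsto_nhds_unique (((W * star W).continuous.tendsto (W x)).comp (hW x)) ?_
      refine (hW x).congr ?_
      intro n
      have : W * star W * V n = V n := by
        rw [mul_assoc, L3' n, ← mul_assoc, L1 n, (hPN n).pi]
      exact congrArg (fun T : H →L[ℂ] H => T x) this.symm
    · ext x
      refine tendsto_nhds_unique ((W.continuous.tendsto (W x)).comp (hW x)) ?_
      apply tendsto_const_nhds.congr
      intro n
      exact congrArg (fun T : H →L[ℂ] H => T x) (L2 n).symm
  -- masses tend to zero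
  have hsum : ∀ n, ∑ i ∈ Finset.range n, N2 ξ (U (V i)) ^ 2 = N2 ξ (V n) ^ 2 := by
    intro n
    induction n with
    | zero => simp [hV0]
    | succ n ih =>
      rw [Finset.sum_range_succ, ih, hVs, N2_sq_add (sqSum hξ)]
      exact ((hPN n).add (hU1 _) (hU2 _) (hU3 _)).2.1
  have hsummable : Summable fun n => N2 ξ (U (V n)) ^ 2 := by
    apply summable_of_sum_range_le (c := 1)
    · intro n; positivity
    · intro n; rw [hsum]; exact hN1 _ (hPN n)
  have hto0 := hsummable.tendsto_atTop_zero
  have hq0 : qv W = 0 := by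
    by_contra hne
    obtain ⟨u, huM, hu0', hupi, husq, hqu, huq⟩ := exists_nilp hξ hM hinf hWPN.qv_mem
      hWPN.qv_idem (qv_star W) hne
    have huPN : PN M u := ⟨huM, hupi, husq⟩
    have hmem : ∀ n, N2 ξ u ^ 2 ∈ T (V n) := by
      intro n
      have k1 : V n * qv W = 0 := by
        rw [qv, mul_sub, mul_sub, mul_one, ← mul_assoc, L1' n, ← mul_assoc, L4 n, zero_mul,
          mul_assoc, L3 n, ← mul_assoc, (hPN n).pi]
        simp
      have k2 : star (V n) * qv W = 0 := by
        rw [qv, mul_sub, mul_sub, mul_one, ← mul_assoc, L2' n, zero_mul, ← mul_assoc, L3 n,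
          mul_assoc, L1' n, ← mul_assoc]
        have := congrArg star (hPN n).pi
        simp only [star_mul, star_star] at this
        rw [← mul_assoc] at this
        rw [this]; simp
      have k3 : qv W * V n = 0 := by
        have := congrArg star k2
        simpa only [star_mul, star_star, star_zero, qv_star] using this
      have k4 : qv W * star (V n) = 0 := by
        have := congrArg star k1
        simpa only [star_mul, star_star, star_zero, qv_star] using this
      refine ⟨u, huPN, ?_, ?_, rfl⟩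
      · have e1 : V n * u = 0 := by rw [← hqu, ← mul_assoc, k1, zero_mul]
        have e2 : star (V n) * u = 0 := by rw [← hqu, ← mul_assoc, k2, zero_mul]
        rw [qv, sub_mul, sub_mul, one_mul, mul_assoc, e1, mul_assoc, e2]
        simp
      · have e1 : u * V n = 0 := by rw [← huq, mul_assoc, k3, mul_zero]
        have e2 : u * star (V n) = 0 := by rw [← huq, mul_assoc, k4, mul_zero]
        rw [qv, mul_sub, mul_sub, mul_one, ← mul_assoc, e2, ← mul_assoc, e1]
        simp
    have hle : ∀ n, N2 ξ u ^ 2 ≤ 2 * N2 ξ (U (V n)) ^ 2 := fun n =>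
      (le_csSup (hTb _) (hmem n)).trans (hU4 _)
    have hle0 : N2 ξ u ^ 2 ≤ 2 * 0 := ge_of_tendsto' (hto0.const_mul 2) hle
    have h0 : N2 ξ u = 0 := by
      have : N2 ξ u ^ 2 = 0 := le_antisymm (by simpa using hle0) (sq_nonneg _)
      exact pow_eq_zero_iff (two_ne_zero) |>.mp this
    exact hu0' (eq_zero_of_N2 hξ huM h0)
  refine ⟨W, hWPN, ?_⟩
  rw [qv, sub_sub, sub_eq_zero] at hq0
  exact hq0.symm

end Crest.Agent.R95
end

-- ▼ part R95/Factor5

/-! Pairs of anticommuting self-adjoint unitaries in a II₁ factor; the relative commutant of such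
a pair is again a II₁ factor (same trace vectors); infinite sequence of commuting pairs. -/

set_option autoImplicit false

namespace Crest.Agent.R95

open scoped InnerProductSpace
open Filter Topology Crest.OpAlg

variable {H : Type*} [NormedAddCommGroup H] [InnerProductSpace ℂ H] [CompleteSpace H]

/-- Relative commutant of a pair in `M`. -/
noncomputable def relComm (M : VonNeumannAlgebra H) (u v : H →L[ℂ] H) : VonNeumannAlgebra H :=
  commSet ((M.commutant : Set (H →L[ℂ] H)) ∪ {u, v})

theorem mem_relComm {M : VonNeumannAlgebra H} {u v x : H →L[ℂ] H} (hu : star u = u)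
    (hv : star v = v) : x ∈ relComm M u v ↔ x ∈ M ∧ u * x = x * u ∧ v * x = x * v := by
  rw [relComm, mem_commSet]
  constructor
  · intro h
    refine ⟨?_, (h u (Or.inr (Or.inl rfl))).1, (h v (Or.inr (Or.inr rfl))).1⟩
    apply mem_of_comm
    intro y hy
    exact (h y (Or.inl hy)).1
  · rintro ⟨h1, h2, h3⟩ y hy
    rcases hy with hy | hy | hy
    · exact ⟨(comm_of_mem h1 hy).symm, (comm_of_mem h1 (star_mem hy)).symm⟩
    · rw [hy]; exact ⟨h2, by rw [hu]; exact h2⟩
    · rw [Set.mem_singleton_iff.mp hy]; exact ⟨h3, by rw [hv]; exact h3⟩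

/-- an anticommuting pair of self-adjoint unitaries -/
structure ACPair (u v : H →L[ℂ] H) : Prop where
  us : star u = u
  vs : star v = v
  uu : u * u = 1
  vv : v * v = 1
  anti : u * v = -(v * u)

theorem exists_acpair {M : VonNeumannAlgebra H} {ξ : ℕ → H}
    (hξ : IsFaithfulTracialVectorState M ξ) (hM : IsFactor M)
    (hinf : ¬ FiniteDimensional ℂ M.toStarSubalgebra) :
    ∃ u ∈ M, ∃ v ∈ M, ACPair u v := by
  obtain ⟨w, hw, hw1⟩ := exists_half hξ hM hinf
  have hsq : w * w = 0 := hw.sq
  have hss : star w * star w = 0 := by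
    have := congrArg star hsq
    simpa only [star_mul, star_zero] using this
  have hpi : w * star w * w = w := hw.pi
  have hpi' : star w * w * star w = star w := by
    have := congrArg star hpi
    simpa only [star_mul, star_star, mul_assoc] using this
  refine ⟨star w * w - w * star w, sub_mem (mul_mem (star_mem hw.mem) hw.mem)
    (mul_mem hw.mem (star_mem hw.mem)), w + star w, add_mem hw.mem (star_mem hw.mem), ?_⟩
  refine ⟨by simp, by simp [add_comm], ?_, ?_, ?_⟩
  · have e : (star w * w - w * star w) * (star w * w - w * star w) =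
        star w * (w * star w * w) + (w * star w * w) * star w - star w * (w * w) * star w
          - w * (star w * star w) * w := by noncomm_ring
    rw [e, hpi, hsq, hss]
    simp [hw1]
  · have e : (w + star w) * (w + star w) = w * w + star w * star w + (star w * w + w * star w) := by
      noncomm_ring
    rw [e, hsq, hss, hw1]; simp
  · have e1 : (star w * w - w * star w) * (w + star w) =
        star w * (w * w) + star w * w * star w - w * star w * w - w * (star w * star w) := by
      noncomm_ring
    have e2 : (w + star w) * (star w * w - w * star w) =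
        w * star w * w - (w * w) * star w + (star w * star w) * w - star w * w * star w := by
      noncomm_ring
    rw [e1, e2, hsq, hss, hpi, hpi']
    simp

section rel

variable {M : VonNeumannAlgebra H} {u v : H →L[ℂ] H}

/-- averaging over the pair -/
noncomputable def Eav (u v y : H →L[ℂ] H) : H →L[ℂ] H :=
  (4 : ℂ)⁻¹ • (y + u * y * u + v * y * v + u * v * y * (v * u))

theorem Eav_mem (h : ACPair u v) (hu : u ∈ M) (hv : v ∈ M) {y : H →L[ℂ] H} (hy : y ∈ M) :
    Eav u v y ∈ relComm M u v := by
  have a1 : ∀ z, u * (u * z) = z := fun z => by rw [← mul_assoc, h.uu, one_mul]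
  have a2 : ∀ z, v * (v * z) = z := fun z => by rw [← mul_assoc, h.vv, one_mul]
  have a3 : ∀ z, v * (u * z) = -(u * (v * z)) := fun z => by
    rw [← mul_assoc, ← mul_assoc, h.anti, neg_mul, neg_neg]
  have a4 : v * u = -(u * v) := by rw [h.anti, neg_neg]
  rw [mem_relComm h.us h.vs]
  refine ⟨?_, ?_, ?_⟩
  · exact smul_mem' _ (add_mem (add_mem (add_mem hy (mul_mem (mul_mem hu hy) hu))
      (mul_mem (mul_mem hv hy) hv)) (mul_mem (mul_mem (mul_mem hu hv) hy) (mul_mem hv hu)))
  · simp only [Eav, mul_smul_comm, smul_mul_assoc]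
    congr 1
    simp only [mul_add, add_mul, mul_assoc, a1, a2, a3, a4, h.uu, h.vv, mul_neg, neg_mul, mul_one,
      neg_neg]
    abel
  · simp only [Eav, mul_smul_comm, smul_mul_assoc]
    congr 1
    simp only [mul_add, add_mul, mul_assoc, a1, a2, a3, a4, h.uu, h.vv, mul_neg, neg_mul, mul_one,
      neg_neg]
    abel

theorem decomp_pair (h : ACPair u v) (y : H →L[ℂ] H) :
    y = Eav u v y + Eav u v (y * u) * u + Eav u v (y * v) * v + Eav u v (y * (v * u)) * (u * v) := by
  have a1 : ∀ z, u * (u * z) = z := fun z => by rw [← mul_assoc, h.uu, one_mul]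
  have a2 : ∀ z, v * (v * z) = z := fun z => by rw [← mul_assoc, h.vv, one_mul]
  have a3 : ∀ z, v * (u * z) = -(u * (v * z)) := fun z => by
    rw [← mul_assoc, ← mul_assoc, h.anti, neg_mul, neg_neg]
  have a4 : v * u = -(u * v) := by rw [h.anti, neg_neg]
  simp only [Eav, smul_mul_assoc, ← smul_add]
  rw [eq_comm, inv_smul_eq_iff₀ (by norm_num : (4 : ℂ) ≠ 0)]
  simp only [add_mul, mul_assoc, a1, a2, a3, a4, h.uu, h.vv, mul_neg, neg_mul, mul_one,
      neg_neg]
  have : (4 : ℂ) • y = y + y + y + y := by
    rw [show (4 : ℂ) = 1 + 1 + 1 + 1 by norm_num]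
    simp only [add_smul, one_smul]
  rw [this]
  abel

theorem relComm_factor (h : ACPair u v) (hu : u ∈ M) (hv : v ∈ M) (hM : IsFactor M) :
    IsFactor (relComm M u v) := by
  intro x hx hcomm
  have hx' := (mem_relComm h.us h.vs).mp hx
  apply hM x hx'.1
  intro y hy
  have c : ∀ z ∈ M, x * Eav u v z = Eav u v z * x := fun z hz => hcomm _ (Eav_mem h hu hv hz)
  have d1 : x * u = u * x := hx'.2.1.symm
  have d2 : x * v = v * x := hx'.2.2.symm
  rw [decomp_pair h y]
  have c1 := c y hy
  have c2 := c _ (mul_mem hy hu)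
  have c3 := c _ (mul_mem hy hv)
  have c4 := c _ (mul_mem hy (mul_mem hv hu))
  simp only [mul_add, add_mul]
  rw [c1]
  congr 1
  · congr 1
    · congr 1
      rw [← mul_assoc, c2, mul_assoc, d1, ← mul_assoc]
    · rw [← mul_assoc, c3, mul_assoc, d2, ← mul_assoc]
  · rw [← mul_assoc, c4, mul_assoc, ← mul_assoc x u v, d1, mul_assoc u x v, d2]
    simp only [mul_assoc]

theorem relComm_inf (h : ACPair u v) (hu : u ∈ M) (hv : v ∈ M)
    (hinf : ¬ FiniteDimensional ℂ M.toStarSubalgebra) :
    ¬ FiniteDimensional ℂ (relComm M u v).toStarSubalgebra := by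
  intro hfin
  apply hinf
  set N := relComm M u v with hN
  set S : Submodule ℂ (H →L[ℂ] H) := N.toStarSubalgebra.toSubalgebra.toSubmodule with hS
  have hSfin : FiniteDimensional ℂ S := hfin
  have hle : M.toStarSubalgebra.toSubalgebra.toSubmodule ≤
      S ⊔ S.map (LinearMap.mulRight ℂ u) ⊔ S.map (LinearMap.mulRight ℂ v) ⊔
        S.map (LinearMap.mulRight ℂ (u * v)) := by
    intro y hy
    have hy' : y ∈ M := hy
    rw [decomp_pair h y]
    refine Submodule.add_mem _ (Submodule.add_mem _ (Submodule.add_mem _ ?_ ?_) ?_) ?_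
    · apply Submodule.mem_sup_left
      apply Submodule.mem_sup_left
      apply Submodule.mem_sup_left
      exact Eav_mem h hu hv hy'
    · apply Submodule.mem_sup_left
      apply Submodule.mem_sup_left
      apply Submodule.mem_sup_right
      exact ⟨_, Eav_mem h hu hv (mul_mem hy' hu), rfl⟩
    · apply Submodule.mem_sup_left
      apply Submodule.mem_sup_right
      exact ⟨_, Eav_mem h hu hv (mul_mem hy' hv), rfl⟩
    · apply Submodule.mem_sup_right
      exact ⟨_, Eav_mem h hu hv (mul_mem hy' (mul_mem hv hu)), rfl⟩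
  exact Submodule.finiteDimensional_of_le hle

theorem relComm_faithful {ξ : ℕ → H} (h : ACPair u v) (hξ : IsFaithfulTracialVectorState M ξ) :
    IsFaithfulTracialVectorState (relComm M u v) ξ := by
  refine ⟨hξ.1, ?_, ?_⟩
  · intro x hx y hy
    exact hξ.2.1 x ((mem_relComm h.us h.vs).mp hx).1 y ((mem_relComm h.us h.vs).mp hy).1
  · intro x hx hx0
    exact hξ.2.2 x ((mem_relComm h.us h.vs).mp hx).1 hx0

end rel

/-- The data carried along the induction: a II₁ factor with the fixed trace vectors. -/
structure IsII1 (M : VonNeumannAlgebra H) (ξ : ℕ → H) : Prop where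
  fac : IsFactor M
  inf : ¬ FiniteDimensional ℂ M.toStarSubalgebra
  tr : IsFaithfulTracialVectorState M ξ

theorem IsII1.relComm {M : VonNeumannAlgebra H} {ξ : ℕ → H} (hM : IsII1 M ξ)
    {u v : H →L[ℂ] H} (h : ACPair u v) (hu : u ∈ M) (hv : v ∈ M) : IsII1 (relComm M u v) ξ :=
  ⟨relComm_factor h hu hv hM.fac, relComm_inf h hu hv hM.inf, relComm_faithful h hM.tr⟩


/-- Every II₁ factor contains an infinite sequence of commuting pairs of anticommuting
self-adjoint unitaries. -/
theorem IsII1.exists_hasPauli {M : VonNeumannAlgebra H} {ξ : ℕ → H} (hM : IsII1 M ξ) :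
    ∃ u v : ℕ → H →L[ℂ] H, HasPauli M u v := by
  have step : ∀ N : {N : VonNeumannAlgebra H // IsII1 N ξ}, ∃ uv : (H →L[ℂ] H) × (H →L[ℂ] H),
      uv.1 ∈ N.1 ∧ uv.2 ∈ N.1 ∧ ACPair uv.1 uv.2 := by
    rintro ⟨N, hN⟩
    obtain ⟨u, hu, v, hv, huv⟩ := exists_acpair hN.tr hN.fac hN.inf
    exact ⟨(u, v), hu, hv, huv⟩
  choose f hf1 hf2 hf3 using step
  let nxt : {N : VonNeumannAlgebra H // IsII1 N ξ} → {N : VonNeumannAlgebra H // IsII1 N ξ} :=
    fun N => ⟨Crest.Agent.R95.relComm N.1 (f N).1 (f N).2, N.2.relComm (hf3 N) (hf1 N) (hf2 N)⟩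
  let A : ℕ → {N : VonNeumannAlgebra H // IsII1 N ξ} := fun n => nxt^[n] ⟨M, hM⟩
  have hA0 : A 0 = ⟨M, hM⟩ := rfl
  have hAs : ∀ n, A (n + 1) = nxt (A n) := fun n => Function.iterate_succ_apply' nxt n _
  have hanti : ∀ n x, x ∈ (A (n + 1)).1 → x ∈ (A n).1 ∧ (f (A n)).1 * x = x * (f (A n)).1 ∧
      (f (A n)).2 * x = x * (f (A n)).2 := by
    intro n x hx
    rw [hAs] at hx
    exact (mem_relComm (hf3 (A n)).us (hf3 (A n)).vs).mp hx
  have hle : ∀ n m, n ≤ m → ∀ x, x ∈ (A m).1 → x ∈ (A n).1 := by
    intro n m hnm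
    induction m, hnm using Nat.le_induction with
    | base => exact fun x hx => hx
    | succ m hnm ih => exact fun x hx => ih x (hanti m x hx).1
  have hcomm : ∀ n m, n < m → ∀ x, x ∈ (A m).1 → (f (A n)).1 * x = x * (f (A n)).1 ∧
      (f (A n)).2 * x = x * (f (A n)).2 := by
    intro n m hnm x hx
    exact (hanti n x (hle (n + 1) m hnm x hx)).2
  refine ⟨fun n => (f (A n)).1, fun n => (f (A n)).2, ?_, ?_⟩
  · intro j
    have h := hf3 (A j)
    exact ⟨hle 0 j (Nat.zero_le j) _ (hf1 (A j)), hle 0 j (Nat.zero_le j) _ (hf2 (A j)), h.us,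
      h.vs, h.uu, h.vv, h.anti⟩
  · intro j k hjk
    rcases lt_or_gt_of_ne hjk with h | h
    · obtain ⟨c1, c2⟩ := hcomm j k h _ (hf1 (A k))
      obtain ⟨c3, c4⟩ := hcomm j k h _ (hf2 (A k))
      exact ⟨c1, c3, c4⟩
    · obtain ⟨c1, c2⟩ := hcomm k j h _ (hf1 (A j))
      obtain ⟨c3, c4⟩ := hcomm k j h _ (hf2 (A j))
      exact ⟨c1.symm, c2.symm, c4.symm⟩

theorem hasPauli_of_factor (P : VonNeumannAlgebra H) (hP : IsTypeIIOneFactor P) :
    ∃ u v : ℕ → H →L[ℂ] H, HasPauli P u v := by
  obtain ⟨h1, h2, ξ, h3⟩ := hP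
  exact IsII1.exists_hasPauli (ξ := ξ) ⟨h1, h2, h3⟩

end Crest.Agent.R95
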