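import Crest.Agent.R95.Trace
import Crest.Agent.R95.Cayley
import Crest.Agent.R95.Defs
import Crest.Agent.R95.PauliAlg
import Mathlib

-- ▼ part R95/Noise
section

/-!
# R95 Noise: independent mean zero perturbations of products of Cayley transforms
-/

set_option autoImplicit false

namespace Crest.Agent.R95

open Complex Finset

section Avg

variable {κ : Type} [Fintype κ] [DecidableEq κ]

/-- shift of the coordinate `b` by `x` -/
def shiftAt (b : κ) (x : ZMod 4) : (κ → ZMod 4) ≃ (κ → ZMod 4) where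
  toFun ω := Function.update ω b (ω b + x)
  invFun ω := Function.update ω b (ω b - x)
  left_inv ω := by simp
  right_inv ω := by simp

theorem sum_shift (b : κ) (Φ : (κ → ZMod 4) → ℝ) :
    ∑ ω, Φ ω = (1 / 4) * ∑ ω, ∑ x, Φ (Function.update ω b (ω b + x)) := by
  have h : ∀ x : ZMod 4, ∑ ω, Φ (Function.update ω b (ω b + x)) = ∑ ω, Φ ω := fun x =>
    Equiv.sum_comp (shiftAt b x) Φ
  rw [sum_comm, sum_congr rfl (fun x _ => h x), sum_const, card_univ, ZMod.card, nsmul_eq_mul]
  push_cast; ring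

theorem sum_coord_zero (b : κ) (Ψ : (κ → ZMod 4) → ZMod 4 → ℝ)
    (hinv : ∀ ω x y, Ψ (Function.update ω b x) y = Ψ ω y) (h0 : ∀ ω, ∑ y, Ψ ω y = 0) :
    ∑ ω, Ψ ω (ω b) = 0 := by
  rw [sum_shift b (fun ω => Ψ ω (ω b))]
  have : ∀ ω : κ → ZMod 4, ∑ x, Ψ (Function.update ω b (ω b + x))
      (Function.update ω b (ω b + x) b) = 0 := by
    intro ω
    have e : ∀ x : ZMod 4, Ψ (Function.update ω b (ω b + x))
      (Function.update ω b (ω b + x) b) = Ψ ω (ω b + x) := by
      intro x
      rw [hinv, Function.update_self]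
    rw [sum_congr rfl (fun x _ => e x), ← h0 ω]
    exact Equiv.sum_comp (Equiv.addLeft (ω b)) (fun y => Ψ ω y)
  rw [sum_congr rfl (fun ω _ => this ω)]
  simp

theorem sum_coord (b : κ) (g : ZMod 4 → ℝ) :
    ∑ ω : κ → ZMod 4, g (ω b) = (Fintype.card (κ → ZMod 4) : ℝ) * ((1 / 4) * ∑ y, g y) := by
  rw [sum_shift b (fun ω => g (ω b))]
  have : ∀ ω : κ → ZMod 4, ∑ x, g (Function.update ω b (ω b + x) b) = ∑ y, g y := by
    intro ω
    have e : ∀ x : ZMod 4, g (Function.update ω b (ω b + x) b) = g (ω b + x) := by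
      intro x; rw [Function.update_self]
    rw [sum_congr rfl (fun x _ => e x)]
    exact Equiv.sum_comp (Equiv.addLeft (ω b)) g
  rw [sum_congr rfl (fun ω _ => this ω), sum_const, card_univ, nsmul_eq_mul]
  ring

end Avg

variable {A : Type*} [CStarAlgebra A] (T : TracialState A)

theorem sum_nrm2_sum_sq {κ : Type} [Fintype κ] [DecidableEq κ] (s : Finset κ) (G : κ → ZMod 4 → A)
    (h0 : ∀ b ∈ s, ∑ x, G b x = 0) :
    ∑ ω : κ → ZMod 4, T.nrm2 (∑ b ∈ s, G b (ω b)) ^ 2 =
      (Fintype.card (κ → ZMod 4) : ℝ) * ∑ b ∈ s, (1 / 4) * ∑ x, T.nrm2 (G b x) ^ 2 := by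
  induction s using Finset.induction_on with
  | empty => simp [T.nrm2_zero]
  | insert b s hb ih =>
    have ih' := ih (fun c hc => h0 c (mem_insert_of_mem hc))
    have e : ∀ ω : κ → ZMod 4, T.nrm2 (∑ c ∈ insert b s, G c (ω c)) ^ 2
        = T.nrm2 (G b (ω b)) ^ 2 + 2 * (T.τ (star (G b (ω b)) * ∑ c ∈ s, G c (ω c))).re
          + T.nrm2 (∑ c ∈ s, G c (ω c)) ^ 2 := by
      intro ω
      rw [sum_insert hb, T.nrm2_add_sq]
    rw [sum_congr rfl (fun ω _ => e ω), sum_add_distrib, sum_add_distrib, ih', ← mul_sum]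
    have h1 : ∑ ω : κ → ZMod 4, (T.τ (star (G b (ω b)) * ∑ c ∈ s, G c (ω c))).re = 0 := by
      refine sum_coord_zero b (fun ω y => (T.τ (star (G b y) * ∑ c ∈ s, G c (ω c))).re) ?_ ?_
      · intro ω x y
        have : ∑ c ∈ s, G c (Function.update ω b x c) = ∑ c ∈ s, G c (ω c) := by
          refine sum_congr rfl (fun c hc => ?_)
          have : c ≠ b := fun h => hb (h ▸ hc)
          rw [Function.update_of_ne this]
        simp only [this]
      · intro ω
        rw [← Complex.re_sum, ← map_sum, ← sum_mul, ← star_sum, h0 b (mem_insert_self b s)]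
        simp
    have h2 := sum_coord b (fun y => T.nrm2 (G b y) ^ 2)
    rw [h1, h2, sum_insert hb]
    ring

theorem avg_nrm2_sum_sq {κ : Type} [Fintype κ] [DecidableEq κ] (G : κ → ZMod 4 → A)
    (h0 : ∀ b, ∑ x, G b x = 0) :
    avg (fun ω : κ → ZMod 4 => T.nrm2 (∑ b, G b (ω b)) ^ 2) =
      ∑ b, (1 / 4) * ∑ x, T.nrm2 (G b x) ^ 2 := by
  unfold avg
  rw [sum_nrm2_sum_sq T univ G (fun b _ => h0 b), ← mul_assoc, inv_mul_cancel₀, one_mul]
  exact_mod_cast Fintype.card_ne_zero

theorem pr_unitary {U : ℕ → A} (h : ∀ l, star (U l) * U l = 1) (h' : ∀ l, U l * star (U l) = 1)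
    (k : ℕ) : star (pr U k) * pr U k = 1 ∧ pr U k * star (pr U k) = 1 := by
  induction k with
  | zero => simp [pr]
  | succ k ih =>
    have e : pr U (k + 1) = pr U k * U k := rfl
    rw [e, star_mul]
    constructor
    · calc star (U k) * star (pr U k) * (pr U k * U k)
          = star (U k) * (star (pr U k) * pr U k) * U k := by noncomm_ring
        _ = 1 := by rw [ih.1, mul_one, h]
    · calc pr U k * U k * (star (U k) * star (pr U k))
          = pr U k * (U k * star (U k)) * star (pr U k) := by noncomm_ring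
        _ = 1 := by rw [h', mul_one, ih.2]

theorem pr_congr {g g' : ℕ → A} {d : ℕ} (h : ∀ l < d, g l = g' l) : pr g d = pr g' d := by
  induction d with
  | zero => rfl
  | succ k ih =>
    change pr g k * g k = pr g' k * g' k
    rw [ih (fun l hl => h l (by omega)), h k (by omega)]

theorem nrm2_of_star_mul {u : A} (h : star u * u = 1) : T.nrm2 u ^ 2 = 1 := by
  rw [T.nrm2_sq, h, T.one]; simp

theorem noise {κ : Type} [Fintype κ] [DecidableEq κ] (d : ℕ) (B : ℕ → Finset κ)
    (hB : ∀ l < d, ∀ j < d, l ≠ j → Disjoint (B l) (B j))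
    (a : ℕ → (κ → ZMod 4) → A) (ha : ∀ l ω, IsSelfAdjoint (a l ω))
    (hinv : ∀ l < d, ∀ j < d, ∀ b ∈ B j, ∀ ω x, a l (Function.update ω b x) = a l ω)
    (n : ℕ → κ → ZMod 4 → A) (hn : ∀ l b x, IsSelfAdjoint (n l b x))
    (hn0 : ∀ l < d, ∀ b ∈ B l, ∑ x, n l b x = 0) :
    avg (fun ω : κ → ZMod 4 =>
      T.nrm2 (pr (fun l => cay (a l ω + ∑ b ∈ B l, n l b (ω b))) d -
        pr (fun l => cay (a l ω)) d) ^ 2) ≤
      4 * ∑ l ∈ Finset.range d, ∑ b ∈ B l, (1 / 4) * ∑ x, T.nrm2 (n l b x) ^ 2 := by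
  classical
  set N : ℕ → (κ → ZMod 4) → A := fun l ω => ∑ b ∈ B l, n l b (ω b) with hN
  have hNsa : ∀ l ω, IsSelfAdjoint (N l ω) := by
    intro l ω
    change star (∑ b ∈ B l, n l b (ω b)) = ∑ b ∈ B l, n l b (ω b)
    rw [star_sum]
    exact sum_congr rfl (fun b _ => (hn l b (ω b)).star_eq)
  set F : ℕ → (κ → ZMod 4) → A := fun k ω => pr (fun l => cay (a l ω + N l ω)) k with hF
  set G : ℕ → (κ → ZMod 4) → A := fun k ω => pr (fun l => cay (a l ω)) k with hG
  have hFu : ∀ k ω, star (F k ω) * F k ω = 1 ∧ F k ω * star (F k ω) = 1 := fun k ω =>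
    pr_unitary (fun l => star_cay_mul ((ha l ω).add (hNsa l ω)))
      (fun l => mul_star_cay ((ha l ω).add (hNsa l ω))) k
  have hGu : ∀ k ω, star (G k ω) * G k ω = 1 ∧ G k ω * star (G k ω) = 1 := fun k ω =>
    pr_unitary (fun l => star_cay_mul (ha l ω)) (fun l => mul_star_cay (ha l ω)) k
  set Φ : ℕ → (κ → ZMod 4) → ℝ := fun k ω => (T.τ (star (G k ω) * F k ω)).re with hΦ
  -- the square of the distance
  have hdist : ∀ ω, T.nrm2 (F d ω - G d ω) ^ 2 = 2 - 2 * Φ d ω := by
    intro ω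
    rw [sub_eq_add_neg, T.nrm2_add_sq, T.nrm2_neg, nrm2_of_star_mul T (hFu d ω).1,
      nrm2_of_star_mul T (hGu d ω).1, mul_neg, map_neg, Complex.neg_re, T.star_mul_comm_re]
    ring
  -- the linear term
  set Lin : ℕ → (κ → ZMod 4) → ℝ := fun k ω =>
    (T.τ (star (cay (a k ω)) * (star (G k ω) * F k ω) *
      ((2 * I) • (res (a k ω) * N k ω * res (a k ω))) * 1)).re with hLin
  have hstep : ∀ k ω, Φ k ω + Lin k ω - 2 * T.nrm2 (N k ω) ^ 2 ≤ Φ (k + 1) ω := by
    intro k ω
    set g := cay (a k ω) with hg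
    set f := cay (a k ω + N k ω) with hf
    set X := star (G k ω) * F k ω with hX
    have e1 : star (G (k + 1) ω) * F (k + 1) ω = star g * X * f := by
      have : G (k + 1) ω = G k ω * g := rfl
      have h2 : F (k + 1) ω = F k ω * f := rfl
      rw [this, h2, star_mul, hX]; noncomm_ring
    have e2 : T.τ (star g * X * g) = T.τ X := by
      rw [T.tr (star g * X) g]
      have : g * (star g * X) = X := by
        rw [← mul_assoc, mul_star_cay (ha k ω), one_mul]
      rw [this]
    have h2 := cay_second T (ha k ω) (hNsa k ω) (star g * X) 1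
    have h3 : ‖star g * X‖ ≤ 1 := by
      refine norm_le_one_of_star_mul ?_
      rw [hX, star_mul, star_mul, star_star, star_star]
      calc star (F k ω) * G k ω * g * (star g * (star (G k ω) * F k ω))
          = star (F k ω) * (G k ω * (g * star g) * star (G k ω)) * F k ω := by noncomm_ring
        _ = 1 := by
          rw [mul_star_cay (ha k ω), mul_one, (hGu k ω).2, mul_one, (hFu k ω).1]
    have h4 : ‖T.τ (star g * X * (f - g - (2 * I) • (res (a k ω) * N k ω * res (a k ω))) * 1)‖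
        ≤ 2 * T.nrm2 (N k ω) ^ 2 := by
      refine h2.trans ?_
      have h5 : ‖(1 : A)‖ ≤ 1 := norm_one_le
      have h6 : 0 ≤ T.nrm2 (N k ω) ^ 2 := by positivity
      have h7 : ‖star g * X‖ * ‖(1 : A)‖ ≤ 1 := by
        nlinarith [norm_nonneg (star g * X), norm_nonneg (1 : A)]
      nlinarith
    have h5 := (abs_le.1 ((Complex.abs_re_le_norm _).trans h4)).1
    have e3 : T.τ (star g * X * (f - g - (2 * I) • (res (a k ω) * N k ω * res (a k ω))) * 1)
        = T.τ (star g * X * f) - T.τ (star g * X * g)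
          - T.τ (star g * X * ((2 * I) • (res (a k ω) * N k ω * res (a k ω))) * 1) := by
      rw [mul_one, mul_one, mul_sub, mul_sub, map_sub, map_sub]
    rw [e3, e2] at h5
    simp only [Complex.sub_re] at h5
    have e4 : Φ (k + 1) ω = (T.τ (star g * X * f)).re := by rw [hΦ]; simp only [e1]
    have e5 : Φ k ω = (T.τ X).re := rfl
    have e6 : Lin k ω = (T.τ (star g * X * ((2 * I) • (res (a k ω) * N k ω * res (a k ω))) * 1)).re :=
      rfl
    rw [e4, e5, e6]
    linarith
  -- the linear term averages to zero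
  have hLin0 : ∀ k < d, ∑ ω, Lin k ω = 0 := by
    intro k hk
    have e1 : ∀ ω, Lin k ω = ∑ b ∈ B k, (T.τ (star (cay (a k ω)) * (star (G k ω) * F k ω) *
        ((2 * I) • (res (a k ω) * n k b (ω b) * res (a k ω))) * 1)).re := by
      intro ω
      rw [hLin]
      simp only [hN]
      rw [mul_sum, sum_mul, smul_sum, mul_sum, sum_mul, map_sum, Complex.re_sum]
    rw [sum_congr rfl (fun ω _ => e1 ω), sum_comm]
    refine sum_eq_zero (fun b hb => ?_)
    refine sum_coord_zero b (fun ω y => (T.τ (star (cay (a k ω)) * (star (G k ω) * F k ω) *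
        ((2 * I) • (res (a k ω) * n k b y * res (a k ω))) * 1)).re) ?_ ?_
    · intro ω x y
      have ea : ∀ j < d, a j (Function.update ω b x) = a j ω := fun j hj => hinv j hj k hk b hb ω x
      have eN : ∀ j < k, N j (Function.update ω b x) = N j ω := by
        intro j hj
        rw [hN]
        refine sum_congr rfl (fun c hc => ?_)
        have hne : c ≠ b := by
          intro h
          subst h
          exact Finset.disjoint_left.1 (hB j (by omega) k hk (by omega)) hc hb
        rw [Function.update_of_ne hne]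
      have eG : G k (Function.update ω b x) = G k ω :=
        pr_congr (fun l hl => by rw [ea l (by omega)])
      have eF : F k (Function.update ω b x) = F k ω :=
        pr_congr (fun l hl => by rw [ea l (by omega), eN l hl])
      simp only [eG, eF, ea k hk]
    · intro ω
      rw [← Complex.re_sum, ← map_sum, ← sum_mul, ← mul_sum, ← smul_sum, ← sum_mul, ← mul_sum,
        hn0 k hk b hb]
      simp
  -- telescoping
  have htel : ∀ k ≤ d, (Fintype.card (κ → ZMod 4) : ℝ) - 2 * ∑ l ∈ range k, ∑ ω, T.nrm2 (N l ω) ^ 2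
      ≤ ∑ ω, Φ k ω := by
    intro k
    induction k with
    | zero =>
      intro _
      have : ∀ ω, Φ 0 ω = 1 := by
        intro ω
        have : Φ 0 ω = (T.τ (star (1 : A) * 1)).re := rfl
        rw [this, star_one, mul_one, T.one]; simp
      rw [sum_congr rfl (fun ω _ => this ω)]
      simp
    | succ k ih =>
      intro hk
      have h1 := ih (by omega)
      have h2 : ∑ ω, (Φ k ω + Lin k ω - 2 * T.nrm2 (N k ω) ^ 2) ≤ ∑ ω, Φ (k + 1) ω :=
        sum_le_sum (fun ω _ => hstep k ω)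
      rw [sum_sub_distrib, sum_add_distrib, hLin0 k (by omega), ← mul_sum] at h2
      rw [sum_range_succ]
      linarith
  have hfin := htel d le_rfl
  have hcard : (0 : ℝ) < Fintype.card (κ → ZMod 4) := by exact_mod_cast Fintype.card_pos
  have hNs : ∀ l ∈ range d, ∑ ω, T.nrm2 (N l ω) ^ 2
      = (Fintype.card (κ → ZMod 4) : ℝ) * ∑ b ∈ B l, (1 / 4) * ∑ x, T.nrm2 (n l b x) ^ 2 := by
    intro l hl
    exact sum_nrm2_sum_sq T (B l) (n l) (hn0 l (mem_range.1 hl))
  rw [sum_congr rfl hNs, ← mul_sum] at hfin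
  have htot : ∑ ω, T.nrm2 (F d ω - G d ω) ^ 2
      = 2 * (Fintype.card (κ → ZMod 4) : ℝ) - 2 * ∑ ω, Φ d ω := by
    rw [sum_congr rfl (fun ω _ => hdist ω), sum_sub_distrib, ← mul_sum, sum_const, card_univ,
      nsmul_eq_mul]
    ring
  unfold avg
  change (Fintype.card (κ → ZMod 4) : ℝ)⁻¹ * ∑ ω, T.nrm2 (F d ω - G d ω) ^ 2 ≤ _
  rw [htot, inv_mul_le_iff₀ hcard]
  linarith

end Crest.Agent.R95
end

-- ▼ part R95/Moment
section

/-!
# R95: random sign moments and the smooth truncation `gam` (helper440)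

* `fourth`, `second` : moments of `η = ∑ i, (sg (ζ i) : ℂ) • w i`, averages over `ζ : ι → Bool`.
* `gam a = a (1 + a²)⁻¹` for selfadjoint `a`.
-/

set_option autoImplicit false

namespace Crest.Agent.R95

open Complex Finset

section signs

variable {ι : Type*} [DecidableEq ι]

/-- sign of a boolean -/
def sg (b : Bool) : ℝ := if b then 1 else -1

@[simp] lemma sg_true : sg true = 1 := by simp [sg]
@[simp] lemma sg_false : sg false = -1 := by simp [sg]
@[simp] lemma sg_mul_self (b : Bool) : sg b * sg b = 1 := by cases b <;> simp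
@[simp] lemma sg_sq (b : Bool) : sg b ^ 2 = 1 := by cases b <;> simp
@[simp] lemma sg_not (b : Bool) : sg (!b) = - sg b := by cases b <;> simp

/-- sgFlip coordinate `i` -/
def sgFlip (i : ι) (e : ι → Bool) : ι → Bool := Function.update e i (!(e i))

@[simp] lemma sgFlip_same (i : ι) (e : ι → Bool) : sgFlip i e i = !(e i) := by simp [sgFlip]
lemma sgFlip_ne {i j : ι} (h : j ≠ i) (e : ι → Bool) : sgFlip i e j = e j := by simp [sgFlip, h]

lemma sgFlip_sgFlip (i : ι) (e : ι → Bool) : sgFlip i (sgFlip i e) = e := by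
  funext j
  by_cases h : j = i
  · subst h; simp [sgFlip]
  · simp [sgFlip, h]

/-- flipping as an equivalence -/
def sgFlipEquiv (i : ι) : (ι → Bool) ≃ (ι → Bool) where
  toFun := sgFlip i
  invFun := sgFlip i
  left_inv := sgFlip_sgFlip i
  right_inv := sgFlip_sgFlip i

variable [Fintype ι]

lemma sum_sgFlip {M : Type*} [AddCommMonoid M] (i : ι) (F : (ι → Bool) → M) :
    ∑ e, F (sgFlip i e) = ∑ e, F e :=
  (sgFlipEquiv i).sum_comp F

/-- symmetrisation in one coordinate -/
lemma sum_eq_half_sgFlip (i : ι) (F : (ι → Bool) → ℝ) :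
    ∑ e, F e = ∑ e, (F e + F (sgFlip i e)) / 2 := by
  have := sum_sgFlip i F
  rw [← Finset.sum_div, Finset.sum_add_distrib, this]; ring

end signs

section moments

variable {A : Type*} [CStarAlgebra A] (T : TracialState A)

namespace TracialState

lemma mom_nrm2_sq (a : A) : T.nrm2 a ^ 2 = (T.τ (star a * a)).re :=
  Real.sq_sqrt (T.pos a)

/-- partial random sum -/
noncomputable def rs {ι : Type*} (y : ι → A) (s : Finset ι) (e : ι → Bool) : A :=
  ∑ i ∈ s, (sg (e i) : ℂ) • y i

lemma rs_insert {ι : Type*} [DecidableEq ι] (y : ι → A) {s : Finset ι} {i : ι} (hi : i ∉ s)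
    (e : ι → Bool) : rs y (insert i s) e = rs y s e + (sg (e i) : ℂ) • y i := by
  simp [rs, Finset.sum_insert hi, add_comm]

lemma rs_flip {ι : Type*} [DecidableEq ι] (y : ι → A) {s : Finset ι} {i : ι} (hi : i ∉ s)
    (e : ι → Bool) : rs y s (sgFlip i e) = rs y s e := by
  unfold rs
  refine Finset.sum_congr rfl fun j hj => ?_
  rw [sgFlip_ne]
  rintro rfl; exact hi hj

lemma rs_sa {ι : Type*} (y : ι → A) (hy : ∀ i, IsSelfAdjoint (y i)) (s : Finset ι)
    (e : ι → Bool) : IsSelfAdjoint (rs y s e) := by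
  unfold rs IsSelfAdjoint
  rw [star_sum]
  refine Finset.sum_congr rfl fun i _ => ?_
  rw [star_smul, (hy i).star_eq, RCLike.star_def, Complex.conj_ofReal]

/-- squares with a sign -/
lemma mom_add_smul_sq (a b : A) (s : ℝ) (hs : s * s = 1) :
    (a + (s : ℂ) • b) * (a + (s : ℂ) • b) = (a * a + b * b) + (s : ℂ) • (a * b + b * a) := by
  have hs' : (s : ℂ) * (s : ℂ) = 1 := by rw [← Complex.ofReal_mul, hs]; simp
  simp only [mul_add, add_mul, smul_mul_assoc, mul_smul_comm, smul_smul, hs', one_smul, smul_add]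
  abel

lemma mom_re_tau_smul (s : ℝ) (a : A) : (T.τ ((s : ℂ) • a)).re = s * (T.τ a).re := by
  rw [map_smul, smul_eq_mul, Complex.re_ofReal_mul]

/-- `Re τ (abab) ≤ Re τ (a² b²)` for selfadjoint `a`, `b`. -/
lemma re_tau_abab_le {a b : A} (ha : IsSelfAdjoint a) (hb : IsSelfAdjoint b) :
    (T.τ (a * b * (a * b))).re ≤ (T.τ (a * a * (b * b))).re := by
  have h := T.pos (a * b - b * a)
  have e1 : star (a * b - b * a) * (a * b - b * a)
      = b * (a * a * b) - b * (a * b * a) - a * (b * a * b) + a * (b * b * a) := by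
    rw [star_sub, star_mul, star_mul, ha.star_eq, hb.star_eq]; noncomm_ring
  have e2 : T.τ (b * (a * a * b)) = T.τ (a * a * (b * b)) := by
    rw [T.tr]; simp only [mul_assoc]
  have e3 : T.τ (b * (a * b * a)) = T.τ (a * b * (a * b)) := by
    rw [T.tr]; simp only [mul_assoc]
  have e4 : T.τ (a * (b * a * b)) = T.τ (a * b * (a * b)) := by
    simp only [mul_assoc]
  have e5 : T.τ (a * (b * b * a)) = T.τ (a * a * (b * b)) := by
    rw [T.tr, T.tr (a * a)]; simp only [mul_assoc]
  rw [e1, map_add, map_sub, map_sub, e2, e3, e4, e5] at h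
  simp only [Complex.add_re, Complex.sub_re] at h
  linarith

/-- one step of the fourth moment estimate -/
lemma fourth_step {a b : A} (ha : IsSelfAdjoint a) (hb : IsSelfAdjoint b) (s : ℝ)
    (hs : s * s = 1) :
    ((T.τ ((a + (s : ℂ) • b) * (a + (s : ℂ) • b) * ((a + (s : ℂ) • b) * (a + (s : ℂ) • b)))).re
      + (T.τ ((a + ((-s : ℝ) : ℂ) • b) * (a + ((-s : ℝ) : ℂ) • b)
          * ((a + ((-s : ℝ) : ℂ) • b) * (a + ((-s : ℝ) : ℂ) • b)))).re) / 2
      ≤ (T.τ (a * a * (a * a))).re + 6 * (T.τ (a * a * (b * b))).re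
        + (T.τ (b * b * (b * b))).re := by
  rw [mom_add_smul_sq a b s hs, mom_add_smul_sq a b (-s) (by linarith)]
  have h1 := T.re_tau_abab_le ha hb
  set p := a * a + b * b with hp
  set q := a * b + b * a with hq
  have expand : ∀ r : ℝ, r * r = 1 → (T.τ ((p + (r : ℂ) • q) * (p + (r : ℂ) • q))).re
      = (T.τ (p * p)).re + (T.τ (q * q)).re + r * (T.τ (p * q + q * p)).re := by
    intro r hr
    rw [mom_add_smul_sq p q r hr, map_add, map_add, Complex.add_re, Complex.add_re, mom_re_tau_smul]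
  rw [expand s hs, expand (-s) (by linarith)]
  have hpp : (T.τ (p * p)).re = (T.τ (a * a * (a * a))).re + 2 * (T.τ (a * a * (b * b))).re
      + (T.τ (b * b * (b * b))).re := by
    have : p * p = a * a * (a * a) + a * a * (b * b) + b * b * (a * a) + b * b * (b * b) := by
      rw [hp]; noncomm_ring
    rw [this, map_add, map_add, map_add, T.tr (b * b) (a * a)]
    simp only [Complex.add_re]; ring
  have hqq : (T.τ (q * q)).re = 2 * (T.τ (a * b * (a * b))).re
      + 2 * (T.τ (a * a * (b * b))).re := by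
    have : q * q = a * b * (a * b) + a * (b * b * a) + b * (a * a * b) + b * (a * b * a) := by
      rw [hq]; noncomm_ring
    have e2 : T.τ (b * (a * a * b)) = T.τ (a * a * (b * b)) := by
      rw [T.tr]; simp only [mul_assoc]
    have e3 : T.τ (b * (a * b * a)) = T.τ (a * b * (a * b)) := by
      rw [T.tr]; simp only [mul_assoc]
    have e5 : T.τ (a * (b * b * a)) = T.τ (a * a * (b * b)) := by
      rw [T.tr, T.tr (a * a)]; simp only [mul_assoc]
    rw [this, map_add, map_add, map_add, e2, e3, e5]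
    simp only [Complex.add_re]; ring
  rw [hpp, hqq]
  linarith

lemma sum_tau_rs_sq {ι : Type*} [Fintype ι] [DecidableEq ι] (y : ι → A) (z : A) (s : Finset ι) :
    ∑ e : ι → Bool, (T.τ (rs y s e * rs y s e * z)).re
      = Fintype.card (ι → Bool) * (T.τ ((∑ i ∈ s, y i * y i) * z)).re := by
  induction s using Finset.induction_on with
  | empty => simp [rs]
  | @insert i s hi ih =>
    rw [sum_eq_half_sgFlip i]
    have : ∀ e : ι → Bool, ((T.τ (rs y (insert i s) e * rs y (insert i s) e * z)).re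
        + (T.τ (rs y (insert i s) (sgFlip i e) * rs y (insert i s) (sgFlip i e) * z)).re) / 2
        = (T.τ (rs y s e * rs y s e * z)).re + (T.τ (y i * y i * z)).re := by
      intro e
      rw [rs_insert y hi, rs_insert y hi, rs_flip y hi, sgFlip_same, sg_not,
        mom_add_smul_sq _ _ _ (sg_mul_self _), mom_add_smul_sq _ _ (- sg (e i)) (by simp)]
      simp only [add_mul, map_add, Complex.add_re, smul_mul_assoc, smul_add, mom_re_tau_smul]
      ring
    rw [Finset.sum_congr rfl (fun e _ => this e), Finset.sum_add_distrib, ih,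
      Finset.sum_insert hi]
    simp only [Finset.sum_const, Finset.card_univ, nsmul_eq_mul, add_mul, map_add,
      Complex.add_re]
    ring

/-- fourth moment, unnormalised, partial sums -/
lemma sum_tau_rs_fourth_le {ι : Type*} [Fintype ι] [DecidableEq ι] (y : ι → A)
    (hy : ∀ i, IsSelfAdjoint (y i)) (s : Finset ι) :
    ∑ e : ι → Bool, (T.τ (rs y s e * rs y s e * (rs y s e * rs y s e))).re
      ≤ Fintype.card (ι → Bool)
        * (3 * (T.τ ((∑ i ∈ s, y i * y i) * (∑ i ∈ s, y i * y i))).re) := by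
  induction s using Finset.induction_on with
  | empty => simp [rs]
  | @insert i s hi ih =>
    rw [sum_eq_half_sgFlip i]
    have key : ∀ e : ι → Bool,
        ((T.τ (rs y (insert i s) e * rs y (insert i s) e
            * (rs y (insert i s) e * rs y (insert i s) e))).re
        + (T.τ (rs y (insert i s) (sgFlip i e) * rs y (insert i s) (sgFlip i e)
            * (rs y (insert i s) (sgFlip i e) * rs y (insert i s) (sgFlip i e)))).re) / 2
        ≤ (T.τ (rs y s e * rs y s e * (rs y s e * rs y s e))).re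
          + 6 * (T.τ (rs y s e * rs y s e * (y i * y i))).re
          + (T.τ (y i * y i * (y i * y i))).re := by
      intro e
      rw [rs_insert y hi, rs_insert y hi, rs_flip y hi, sgFlip_same, sg_not]
      exact T.fourth_step (rs_sa y hy s e) (hy i) _ (sg_mul_self _)
    refine (Finset.sum_le_sum fun e _ => key e).trans ?_
    rw [Finset.sum_add_distrib, Finset.sum_add_distrib, ← Finset.mul_sum,
      T.sum_tau_rs_sq y (y i * y i) s, Finset.sum_insert hi]
    set P := ∑ j ∈ s, y j * y j with hP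
    have h5 : (T.τ ((y i * y i + P) * (y i * y i + P))).re = (T.τ (P * P)).re
        + 2 * (T.τ (P * (y i * y i))).re + (T.τ (y i * y i * (y i * y i))).re := by
      have : (y i * y i + P) * (y i * y i + P) = P * P + P * (y i * y i) + y i * y i * P
          + y i * y i * (y i * y i) := by noncomm_ring
      rw [this, map_add, map_add, map_add, T.tr (y i * y i) P]
      simp only [Complex.add_re]; ring
    have h6 : 0 ≤ (T.τ (y i * y i * (y i * y i))).re := by
      have := T.pos (y i * y i)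
      rwa [star_mul, (hy i).star_eq] at this
    rw [h5]
    simp only [Finset.sum_const, Finset.card_univ, nsmul_eq_mul]
    have hc : (0 : ℝ) ≤ (Fintype.card (ι → Bool) : ℝ) := Nat.cast_nonneg _
    nlinarith [mul_nonneg hc h6]

/-- second moment, unnormalised, partial sums -/
lemma sum_nrm2_rs_sq {ι : Type*} [Fintype ι] [DecidableEq ι] (y : ι → A)
    (hy : ∀ i, IsSelfAdjoint (y i)) (s : Finset ι) :
    ∑ e : ι → Bool, T.nrm2 (rs y s e) ^ 2
      = Fintype.card (ι → Bool) * ∑ i ∈ s, T.nrm2 (y i) ^ 2 := by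
  have h := T.sum_tau_rs_sq y 1 s
  simp only [mul_one] at h
  have h1 : ∀ e : ι → Bool, T.nrm2 (rs y s e) ^ 2 = (T.τ (rs y s e * rs y s e)).re := by
    intro e; rw [T.mom_nrm2_sq, (rs_sa y hy s e).star_eq]
  have h2 : ∀ i, T.nrm2 (y i) ^ 2 = (T.τ (y i * y i)).re := by
    intro i; rw [T.mom_nrm2_sq, (hy i).star_eq]
  simp only [h1, h2, h, map_sum, Complex.re_sum]

/-- **Fourth moment** of a random signed sum of selfadjoint elements. -/
theorem fourth {ι : Type*} [Fintype ι] [DecidableEq ι] (w : ι → A)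
    (hw : ∀ i, IsSelfAdjoint (w i)) :
    avg (fun ζ : ι → Bool => (T.τ ((∑ i, (sg (ζ i) : ℂ) • w i) ^ 4)).re)
      ≤ 3 * (T.τ ((∑ i, w i * w i) ^ 2)).re := by
  have h := T.sum_tau_rs_fourth_le w hw Finset.univ
  unfold avg
  have hc : (0 : ℝ) < (Fintype.card (ι → Bool) : ℝ) := by
    exact_mod_cast Fintype.card_pos
  rw [inv_mul_le_iff₀ hc]
  have e1 : ∀ x : A, x ^ 4 = x * x * (x * x) := fun x => by noncomm_ring
  simp only [e1, pow_two]
  exact h

/-- **Second moment** of a random signed sum of selfadjoint elements. -/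
theorem second {ι : Type*} [Fintype ι] [DecidableEq ι] (w : ι → A)
    (hw : ∀ i, IsSelfAdjoint (w i)) :
    avg (fun ζ : ι → Bool => T.nrm2 (∑ i, (sg (ζ i) : ℂ) • w i) ^ 2)
      = ∑ i, T.nrm2 (w i) ^ 2 := by
  have h := T.sum_nrm2_rs_sq w hw Finset.univ
  unfold avg
  have hc : (Fintype.card (ι → Bool) : ℝ) ≠ 0 := by
    exact_mod_cast Fintype.card_ne_zero
  rw [inv_mul_eq_iff_eq_mul₀ hc]
  exact h

/-- **Second moment** of a random signed sum (no selfadjointness needed). -/
theorem avg_nrm2_signs {ι : Type*} [Fintype ι] [DecidableEq ι] (w : ι → A) :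
    avg (fun ζ : ι → Bool => T.nrm2 (∑ i, (sg (ζ i) : ℂ) • w i) ^ 2)
      = ∑ i, T.nrm2 (w i) ^ 2 := by
  have hstep : ∀ s : Finset ι, ∑ e : ι → Bool, T.nrm2 (rs w s e) ^ 2
      = Fintype.card (ι → Bool) * ∑ i ∈ s, T.nrm2 (w i) ^ 2 := by
    intro s
    induction s using Finset.induction_on with
    | empty => simp [rs, TracialState.nrm2]
    | @insert i s hi ih =>
      rw [sum_eq_half_sgFlip i]
      have hex : ∀ (a b : A) (r : ℝ), r * r = 1 → T.nrm2 (a + (r : ℂ) • b) ^ 2
          = T.nrm2 a ^ 2 + T.nrm2 b ^ 2 + r * (T.τ (star a * b + star b * a)).re := by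
        intro a b r hr
        have hr' : (r : ℂ) * (r : ℂ) = 1 := by rw [← Complex.ofReal_mul, hr]; simp
        rw [T.mom_nrm2_sq, T.mom_nrm2_sq, T.mom_nrm2_sq]
        have : star (a + (r : ℂ) • b) * (a + (r : ℂ) • b)
            = star a * a + star b * b + (r : ℂ) • (star a * b + star b * a) := by
          rw [star_add, star_smul, RCLike.star_def, Complex.conj_ofReal]
          simp only [mul_add, add_mul, smul_mul_assoc, mul_smul_comm, smul_smul, hr', one_smul,
            smul_add]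
          abel
        rw [this, map_add, map_add, Complex.add_re, Complex.add_re, T.mom_re_tau_smul]
      have : ∀ e : ι → Bool, (T.nrm2 (rs w (insert i s) e) ^ 2
          + T.nrm2 (rs w (insert i s) (sgFlip i e)) ^ 2) / 2
          = T.nrm2 (rs w s e) ^ 2 + T.nrm2 (w i) ^ 2 := by
        intro e
        rw [rs_insert w hi, rs_insert w hi, rs_flip w hi, sgFlip_same, sg_not,
          hex _ _ _ (sg_mul_self _), hex _ _ (- sg (e i)) (by simp)]
        ring
      rw [Finset.sum_congr rfl (fun e _ => this e), Finset.sum_add_distrib, ih,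
        Finset.sum_insert hi]
      simp only [Finset.sum_const, Finset.card_univ, nsmul_eq_mul]
      ring
  have h := hstep Finset.univ
  unfold avg
  have hc : (Fintype.card (ι → Bool) : ℝ) ≠ 0 := by
    exact_mod_cast Fintype.card_ne_zero
  rw [inv_mul_eq_iff_eq_mul₀ hc]
  exact h

/-- random signed sums of selfadjoint elements are selfadjoint -/
lemma signed_sum_sa {ι : Type*} [Fintype ι] (w : ι → A) (hw : ∀ i, IsSelfAdjoint (w i))
    (ζ : ι → Bool) : IsSelfAdjoint (∑ i, (sg (ζ i) : ℂ) • w i) :=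
  rs_sa w hw Finset.univ ζ

end TracialState

end moments

section gam

variable {A : Type*} [CStarAlgebra A]

/-- `1 - i a` is invertible for selfadjoint `a` -/
lemma isUnit_one_sub_aux {a : A} (ha : IsSelfAdjoint a) : IsUnit (1 - I • a) := by
  have h : (-I : ℂ) ∉ spectrum ℂ a := by
    intro h
    have := ha.im_eq_zero_of_mem_spectrum h
    simp at this
  rw [spectrum.notMem_iff] at h
  have h2 : (1 : A) - I • a = I • (algebraMap ℂ A (-I) - a) := by
    rw [smul_sub, Algebra.algebraMap_eq_smul_one, smul_smul]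
    simp
  rw [h2]
  exact h.smul (Units.mk0 I I_ne_zero)

lemma res_mul_aux {a : A} (ha : IsSelfAdjoint a) : res a * (1 - I • a) = 1 :=
  Ring.inverse_mul_cancel _ (isUnit_one_sub_aux ha)

lemma mul_res_aux {a : A} (ha : IsSelfAdjoint a) : (1 - I • a) * res a = 1 :=
  Ring.mul_inverse_cancel _ (isUnit_one_sub_aux ha)

lemma star_res_aux {a : A} (ha : IsSelfAdjoint a) : star (res a) = res (-a) := by
  unfold res
  rw [← Ring.inverse_star, star_sub, star_one, star_smul, ha.star_eq]
  congr 2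
  simp

lemma norm_res_le_aux {a : A} (ha : IsSelfAdjoint a) : ‖res a‖ ≤ 1 := by
  let _ := CStarAlgebra.spectralOrder A
  let _ := CStarAlgebra.spectralOrderedRing A
  have h2 : star (1 - I • a) * (1 - I • a) = 1 + star a * a := by
    rw [star_sub, star_one, star_smul, ha.star_eq, RCLike.star_def, Complex.conj_I]
    simp only [neg_smul, sub_neg_eq_add, mul_sub, add_mul, one_mul, mul_one, smul_mul_assoc,
      mul_smul_comm, smul_smul, Complex.I_mul_I, neg_smul, one_smul, smul_add]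
    abel
  have h1 : star (res a) * res a ≤ 1 := by
    have h3 : (1 : A) ≤ star (1 - I • a) * (1 - I • a) := by
      rw [h2]; exact le_add_of_nonneg_right (star_mul_self_nonneg a)
    have h4 := star_left_conjugate_le_conjugate h3 (res a)
    rw [mul_one] at h4
    refine h4.trans (le_of_eq ?_)
    rw [← mul_assoc, ← star_mul, mul_res_aux ha, star_one, one_mul, mul_res_aux ha]
  have h5 := (CStarAlgebra.norm_le_one_iff_of_nonneg (star (res a) * res a)
    (star_mul_self_nonneg _)).2 h1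
  rw [CStarRing.norm_star_mul_self] at h5
  nlinarith [norm_nonneg (res a)]

/-- smooth truncation `a (1 + a²)⁻¹` -/
noncomputable def gam (a : A) : A := (1 / (2 * I) : ℂ) • (res a - res (-a))

lemma gam_sa {a : A} (ha : IsSelfAdjoint a) : IsSelfAdjoint (gam a) := by
  have h1 := star_res_aux ha
  have h2 := star_res_aux ha.neg
  rw [neg_neg] at h2
  unfold gam IsSelfAdjoint
  rw [star_smul, star_sub, h1, h2]
  have : star (1 / (2 * I) : ℂ) = -(1 / (2 * I) : ℂ) := by
    simp [Complex.conj_I, mul_comm]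
  rw [this, neg_smul, ← smul_neg, neg_sub]

lemma norm_gam_le {a : A} (ha : IsSelfAdjoint a) : ‖gam a‖ ≤ 1 := by
  unfold gam
  rw [norm_smul]
  have h1 := norm_res_le_aux ha
  have h2 := norm_res_le_aux ha.neg
  have h3 := norm_sub_le (res a) (res (-a))
  have h4 : ‖(1 / (2 * I) : ℂ)‖ = 1 / 2 := by simp
  rw [h4]; linarith

/-- anything commuting with `a` commutes with `res a` -/
lemma commute_res_aux {a f : A} (ha : IsSelfAdjoint a) (h : f * a = a * f) :
    f * res a = res a * f := by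
  have h1 : f * (1 - I • a) = (1 - I • a) * f := by
    simp only [mul_sub, sub_mul, mul_one, one_mul, mul_smul_comm, smul_mul_assoc, h]
  calc f * res a = (res a * (1 - I • a)) * f * res a := by rw [res_mul_aux ha, one_mul]
    _ = res a * ((1 - I • a) * f) * res a := by simp only [mul_assoc]
    _ = res a * f * ((1 - I • a) * res a) := by rw [← h1]; simp only [mul_assoc]
    _ = res a * f := by rw [mul_res_aux ha, mul_one]

lemma commute_gam {a f : A} (ha : IsSelfAdjoint a) (h : f * a = a * f) :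
    f * gam a = gam a * f := by
  have h1 := commute_res_aux ha h
  have h2 := commute_res_aux (f := f) ha.neg (by rw [mul_neg, neg_mul, h])
  unfold gam
  rw [mul_smul_comm, smul_mul_assoc, mul_sub, sub_mul, h1, h2]

/-- `gam a = a * (res a * res (-a))` -/
lemma gam_eq {a : A} (ha : IsSelfAdjoint a) : gam a = a * (res a * res (-a)) := by
  have hm : (1 : A) + I • a = 1 - I • (-a) := by rw [smul_neg, sub_neg_eq_add]
  have h1 : res a - res (-a) = (2 * I) • (a * (res a * res (-a))) := by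
    have e1 : res a = (1 + I • a) * (res a * res (-a)) := by
      have hc : (1 + I • a) * res a = res a * (1 + I • a) := by
        have := commute_res_aux (f := (1 + I • a)) ha (by
          simp only [mul_add, add_mul, mul_one, one_mul, mul_smul_comm, smul_mul_assoc])
        exact this
      rw [← mul_assoc, hc, mul_assoc, hm, mul_res_aux ha.neg, mul_one]
    have e2 : res (-a) = (1 - I • a) * (res a * res (-a)) := by
      rw [← mul_assoc, mul_res_aux ha, one_mul]
    calc res a - res (-a) = (1 + I • a) * (res a * res (-a)) - (1 - I • a) * (res a * res (-a)) := by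
          rw [← e1, ← e2]
      _ = (2 * I) • (a * (res a * res (-a))) := by
          rw [← sub_mul]
          have : (1 : A) + I • a - (1 - I • a) = (2 * I) • a := by
            rw [mul_smul, two_smul]; abel
          rw [this, smul_mul_assoc]
  unfold gam
  rw [h1, smul_smul, one_div, inv_mul_cancel₀ (by simp), one_smul]

/-- `a - gam a = a³ (1+a²)⁻¹` -/
lemma sub_gam_eq {a : A} (ha : IsSelfAdjoint a) :
    a - gam a = a * a * (res a * res (-a)) * a := by
  have hm : (1 : A) + I • a = 1 - I • (-a) := by rw [smul_neg, sub_neg_eq_add]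
  have hca : a * (res a * res (-a)) = (res a * res (-a)) * a := by
    have h1 := commute_res_aux (f := a) ha rfl
    have h2 := commute_res_aux (f := a) ha.neg (by rw [mul_neg, neg_mul])
    rw [← mul_assoc, h1, mul_assoc, h2, mul_assoc]
  have h1 : (1 + a * a) * (res a * res (-a)) = 1 := by
    have e : (1 : A) + a * a = (1 + I • a) * (1 - I • a) := by
      simp only [mul_sub, add_mul, one_mul, mul_one, smul_mul_assoc, mul_smul_comm, smul_smul,
        Complex.I_mul_I, neg_smul, one_smul, smul_add]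
      abel
    rw [e, mul_assoc, ← mul_assoc (1 - I • a), mul_res_aux ha, one_mul, hm, mul_res_aux ha.neg]
  have h2 : (1 : A) - res a * res (-a) = a * a * (res a * res (-a)) := by
    rw [add_mul, one_mul] at h1
    rw [← h1]; abel
  rw [gam_eq ha, ← h2, hca, sub_mul, one_mul]

variable (T : TracialState A)

/-- correlation of the smooth truncation: for `σ > 0` (in fact any real `σ ≥ 0`) -/
lemma TracialState.gam_corr {η : A} (hη : IsSelfAdjoint η) {σ : ℝ} (hσ : 0 ≤ σ) :
    σ * T.nrm2 η ^ 2 - σ ^ 3 * (T.τ (η ^ 4)).re ≤ (T.τ (gam ((σ : ℂ) • η) * η)).re := by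
  set a : A := (σ : ℂ) • η with ha_def
  have ha : IsSelfAdjoint a := by
    rw [ha_def]
    unfold IsSelfAdjoint
    rw [star_smul, hη.star_eq, RCLike.star_def, Complex.conj_ofReal]
  have h1 : gam a * η = a * η - (σ ^ 3 : ℂ) • (η * η * (res a * res (-a)) * (η * η)) := by
    have : gam a = a - (a - gam a) := by abel
    rw [this, sub_mul, sub_gam_eq ha, ha_def]
    simp only [smul_mul_assoc, mul_smul_comm, smul_smul, mul_assoc]
    congr 2
    ring
  rw [h1, map_sub, Complex.sub_re, ha_def, smul_mul_assoc, T.mom_re_tau_smul]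
  have h2 : T.nrm2 η ^ 2 = (T.τ (η * η)).re := by rw [T.mom_nrm2_sq, hη.star_eq]
  rw [h2]
  have h3 : (T.τ ((σ ^ 3 : ℂ) • (η * η * (res ((σ : ℂ) • η) * res (-((σ : ℂ) • η))) * (η * η)))).re
      = σ ^ 3 * (T.τ (η * η * (res a * res (-a)) * (η * η))).re := by
    rw [← ha_def, ← Complex.ofReal_pow, T.mom_re_tau_smul]
  rw [h3]
  have h4 : (T.τ (η * η * (res a * res (-a)) * (η * η))).re ≤ (T.τ (η ^ 4)).re := by
    have hs : star (res (-a) * (η * η)) * (res (-a) * (η * η))
        = η * η * (res a * res (-a)) * (η * η) := by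
      rw [star_mul, star_mul, hη.star_eq, star_res_aux ha.neg, neg_neg]
      simp only [mul_assoc]
    have h5 := T.bdd (res (-a)) (η * η)
    rw [hs] at h5
    have h6 : star (η * η) * (η * η) = η ^ 4 := by
      rw [star_mul, hη.star_eq]; noncomm_ring
    rw [h6] at h5
    have h7 : 0 ≤ (T.τ (η ^ 4)).re := by
      have := T.pos (η * η)
      rwa [h6] at this
    have h8 := norm_res_le_aux ha.neg
    have h9 : ‖res (-a)‖ ^ 2 ≤ 1 := by nlinarith [norm_nonneg (res (-a))]
    calc _ ≤ _ := h5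
      _ ≤ 1 * (T.τ (η ^ 4)).re := mul_le_mul_of_nonneg_right h9 h7
      _ = _ := one_mul _
  have h5 : 0 ≤ σ ^ 3 := by positivity
  nlinarith [mul_le_mul_of_nonneg_left h4 h5]



/-- **Gain in the mixed coordinates.** If `∑ i, nrm2 (w i)² = s²` and
`Re τ ((∑ w i²)²) ≤ m`, then on average over signs the truncation of `η` correlates with `η`. -/
theorem TracialState.avg_gam_corr {ι : Type*} [Fintype ι] [DecidableEq ι] (w : ι → A)
    (hw : ∀ i, IsSelfAdjoint (w i)) {σ : ℝ} (hσ : 0 ≤ σ) :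
    σ * (∑ i, T.nrm2 (w i) ^ 2) - 3 * σ ^ 3 * (T.τ ((∑ i, w i * w i) ^ 2)).re
      ≤ avg (fun ζ : ι → Bool =>
          (T.τ (gam ((σ : ℂ) • ∑ i, (sg (ζ i) : ℂ) • w i) * ∑ i, (sg (ζ i) : ℂ) • w i)).re) := by
  have h1 := T.fourth w hw
  have h2 := T.second w hw
  have h3 : avg (fun ζ : ι → Bool => σ * T.nrm2 (∑ i, (sg (ζ i) : ℂ) • w i) ^ 2
      - σ ^ 3 * (T.τ ((∑ i, (sg (ζ i) : ℂ) • w i) ^ 4)).re)
      ≤ avg (fun ζ : ι → Bool =>
          (T.τ (gam ((σ : ℂ) • ∑ i, (sg (ζ i) : ℂ) • w i) * ∑ i, (sg (ζ i) : ℂ) • w i)).re) := by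
    unfold avg
    refine mul_le_mul_of_nonneg_left (Finset.sum_le_sum fun ζ _ => ?_) (by positivity)
    exact T.gam_corr (TracialState.signed_sum_sa w hw ζ) hσ
  have h4 : avg (fun ζ : ι → Bool => σ * T.nrm2 (∑ i, (sg (ζ i) : ℂ) • w i) ^ 2
      - σ ^ 3 * (T.τ ((∑ i, (sg (ζ i) : ℂ) • w i) ^ 4)).re)
      = σ * avg (fun ζ : ι → Bool => T.nrm2 (∑ i, (sg (ζ i) : ℂ) • w i) ^ 2)
        - σ ^ 3 * avg (fun ζ : ι → Bool => (T.τ ((∑ i, (sg (ζ i) : ℂ) • w i) ^ 4)).re) := by
    unfold avg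
    rw [Finset.sum_sub_distrib, ← Finset.mul_sum, ← Finset.mul_sum]
    ring
  rw [h4, h2] at h3
  refine le_trans ?_ h3
  have h5 : 0 ≤ σ ^ 3 := by positivity
  nlinarith [mul_le_mul_of_nonneg_left h1 h5]

end gam

end Crest.Agent.R95
end

-- ▼ part R95/CoreOwn
section

/-!
# R95 CoreOwn (helper795): ordered products of Cayley transforms, own-noise lemma.
-/

set_option autoImplicit false

namespace Crest.Agent.R95.Cor

open Complex

variable {A : Type*} [CStarAlgebra A] (T : TracialState A)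

/-! ### basic facts on `pr` -/

theorem pr_zero {B : Type*} [Monoid B] (g : ℕ → B) : pr g 0 = 1 := rfl

theorem pr_succ {B : Type*} [Monoid B] (g : ℕ → B) (k : ℕ) : pr g (k + 1) = pr g k * g k := rfl

theorem pr_congr {B : Type*} [Monoid B] {g h : ℕ → B} {d : ℕ} (H : ∀ l < d, g l = h l) :
    pr g d = pr h d := by
  induction d with
  | zero => rfl
  | succ d ih =>
    rw [pr_succ, pr_succ, ih (fun l hl => H l (by omega)), H d (by omega)]

theorem norm_pr_le (g : ℕ → A) (hg : ∀ l, ‖g l‖ ≤ 1) (d : ℕ) (h1 : ‖(1 : A)‖ ≤ 1) :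
    ‖pr g d‖ ≤ 1 := by
  induction d with
  | zero => simpa [pr_zero] using h1
  | succ d ih =>
    rw [pr_succ]
    calc ‖pr g d * g d‖ ≤ ‖pr g d‖ * ‖g d‖ := norm_mul_le _ _
      _ ≤ 1 * 1 := mul_le_mul ih (hg d) (norm_nonneg _) zero_le_one
      _ = 1 := one_mul 1

theorem norm_one_le' : ‖(1 : A)‖ ≤ 1 := by
  rcases subsingleton_or_nontrivial A with h | h
  · rw [Subsingleton.elim (1 : A) 0, norm_zero]; exact zero_le_one
  · exact CStarRing.norm_one.le


theorem star_pr_mul (g : ℕ → A) (d : ℕ) (hg : ∀ l < d, star (g l) * g l = 1) :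
    star (pr g d) * pr g d = 1 := by
  induction d with
  | zero => simp [pr_zero]
  | succ d ih =>
    rw [pr_succ, star_mul, mul_assoc, ← mul_assoc (star (pr g d)), ih (fun l hl => hg l (by omega)),
      one_mul, hg d (by omega)]

theorem pr_mul_star (g : ℕ → A) (d : ℕ) (hg : ∀ l < d, g l * star (g l) = 1) :
    pr g d * star (pr g d) = 1 := by
  induction d with
  | zero => simp [pr_zero]
  | succ d ih =>
    rw [pr_succ, star_mul, mul_assoc, ← mul_assoc (g d), hg d (by omega), one_mul,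
      ih (fun l hl => hg l (by omega))]

theorem pr_mem (S : StarSubalgebra ℂ A) (g : ℕ → A) (d : ℕ) (hg : ∀ l < d, g l ∈ S) :
    pr g d ∈ S := by
  induction d with
  | zero => rw [pr_zero]; exact one_mem S
  | succ d ih =>
    rw [pr_succ]; exact mul_mem (ih (fun l hl => hg l (by omega))) (hg d (by omega))

theorem pr_inQ {ι : Type} [Fintype ι] [DecidableEq ι] (F : PauliSys A ι) (g : ℕ → A) (d : ℕ)
    (hg : ∀ l < d, F.InQ (g l)) : F.InQ (pr g d) := by
  induction d with
  | zero => rw [pr_zero]; exact PauliSys.InQ.one F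
  | succ d ih =>
    rw [pr_succ]; exact PauliSys.InQ.mul F (ih (fun l hl => hg l (by omega))) (hg d (by omega))

/-- telescoping in the 2-norm for contractions -/
theorem nrm2_pr_sub_le (g h : ℕ → A) (hg : ∀ l, ‖g l‖ ≤ 1) (hh : ∀ l, ‖h l‖ ≤ 1) (d : ℕ) :
    T.nrm2 (pr g d - pr h d) ≤ ∑ l ∈ Finset.range d, T.nrm2 (g l - h l) := by
  induction d with
  | zero => simp [pr_zero, T.nrm2_zero]
  | succ d ih =>
    rw [pr_succ, pr_succ, Finset.sum_range_succ]
    have e : pr g d * g d - pr h d * h d = (pr g d - pr h d) * g d + pr h d * (g d - h d) := by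
      noncomm_ring
    rw [e]
    refine (T.nrm2_add_le _ _).trans (add_le_add ?_ ?_)
    · refine (T.nrm2_mul_le_right _ _).trans ?_
      calc T.nrm2 (pr g d - pr h d) * ‖g d‖ ≤ T.nrm2 (pr g d - pr h d) * 1 :=
            mul_le_mul_of_nonneg_left (hg d) (T.nrm2_nonneg _)
        _ ≤ _ := by rw [mul_one]; exact ih
    · refine (T.nrm2_mul_le_left _ _).trans ?_
      calc ‖pr h d‖ * T.nrm2 (g d - h d) ≤ 1 * T.nrm2 (g d - h d) :=
            mul_le_mul_of_nonneg_right (norm_pr_le h hh d norm_one_le') (T.nrm2_nonneg _)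
        _ = _ := one_mul _

/-! ### the own noise -/

/-- `W_l^* b W_l` with `W_l` the prefix product of the Cayley transforms of `x` -/
noncomputable def conjW (x : ℕ → A) (l : ℕ) (b : A) : A :=
  star (pr (fun j => cay (x j)) l) * b * pr (fun j => cay (x j)) l

theorem conjW_sa (x : ℕ → A) (l : ℕ) {b : A} (hb : IsSelfAdjoint b) :
    IsSelfAdjoint (conjW x l b) := by
  unfold conjW
  rw [IsSelfAdjoint, star_mul, star_mul, star_star, hb.star_eq, mul_assoc]

theorem norm_conjW_le (x : ℕ → A) (hx : ∀ l, IsSelfAdjoint (x l)) (l : ℕ) (b : A) :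
    ‖conjW x l b‖ ≤ ‖b‖ := by
  unfold conjW
  have h1 : ‖pr (fun j => cay (x j)) l‖ ≤ 1 :=
    norm_pr_le _ (fun j => norm_cay_le (hx j)) l norm_one_le'
  have h2 : ‖star (pr (fun j => cay (x j)) l)‖ ≤ 1 := by rw [norm_star]; exact h1
  calc _ ≤ ‖star (pr (fun j => cay (x j)) l) * b‖ * ‖pr (fun j => cay (x j)) l‖ := norm_mul_le _ _
    _ ≤ (‖star (pr (fun j => cay (x j)) l)‖ * ‖b‖) * ‖pr (fun j => cay (x j)) l‖ :=
        mul_le_mul_of_nonneg_right (norm_mul_le _ _) (norm_nonneg _)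
    _ ≤ (1 * ‖b‖) * 1 :=
        mul_le_mul (mul_le_mul_of_nonneg_right h2 (norm_nonneg _)) h1 (norm_nonneg _)
          (by positivity)
    _ = ‖b‖ := by ring


theorem conjW_zero (x : ℕ → A) (l : ℕ) : conjW x l (0 : A) = 0 := by
  unfold conjW; simp

theorem conjW_sum {κ : Type*} (x : ℕ → A) (l : ℕ) (s : Finset κ) (b : κ → A) :
    conjW x l (∑ i ∈ s, b i) = ∑ i ∈ s, conjW x l (b i) := by
  unfold conjW
  rw [Finset.mul_sum, Finset.sum_mul]

theorem conjW_smul (x : ℕ → A) (l : ℕ) (c : ℂ) (b : A) :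
    conjW x l (c • b) = c • conjW x l b := by
  unfold conjW
  rw [mul_smul_comm, smul_mul_assoc]

theorem own_prod (x : ℕ → A) (hx : ∀ l, IsSelfAdjoint (x l)) (b : A) (hb : IsSelfAdjoint b)
    (c : ℝ) (d : ℕ) :
    pr (fun l => cay ((c : ℂ) • conjW x l b) * cay (x l)) d =
      cay ((c : ℂ) • b) ^ d * pr (fun j => cay (x j)) d := by
  induction d with
  | zero => simp [pr_zero]
  | succ d ih =>
    rw [pr_succ, pr_succ, ih]
    set W := pr (fun j => cay (x j)) d with hW
    have hW1 : star W * W = 1 := star_pr_mul _ _ (fun l _ => star_cay_mul (hx l))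
    have hW2 : W * star W = 1 := pr_mul_star _ _ (fun l _ => mul_star_cay (hx l))
    have hcb : IsSelfAdjoint ((c : ℂ) • b) := by
      rw [IsSelfAdjoint, star_smul, hb.star_eq]; simp
    have e1 : cay ((c : ℂ) • conjW x d b) = star W * cay ((c : ℂ) • b) * W := by
      rw [cay_conj hcb hW1 hW2, ← conjW_smul, conjW, ← hW]
    rw [e1]
    calc cay ((c : ℂ) • b) ^ d * W * (star W * cay ((c : ℂ) • b) * W * cay (x d))
        = cay ((c : ℂ) • b) ^ d * (W * star W) * cay ((c : ℂ) • b) * W * cay (x d) := by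
          simp only [mul_assoc]
      _ = cay ((c : ℂ) • b) ^ (d + 1) * (W * cay (x d)) := by
          rw [hW2, mul_one, pow_succ]; simp only [mul_assoc]

theorem isSelfAdjoint_real_smul {a : A} (ha : IsSelfAdjoint a) (r : ℝ) :
    IsSelfAdjoint ((r : ℂ) • a) := by
  rw [IsSelfAdjoint, star_smul, ha.star_eq]; simp

theorem own_pr (d : ℕ) (hd : 1 ≤ d) (x : ℕ → A) (hx : ∀ l, IsSelfAdjoint (x l)) (b : A)
    (hb : IsSelfAdjoint b) :
    T.nrm2 (pr (fun l => cay (x l + ((1 / (2 * d) : ℝ) : ℂ) • conjW x l b)) d -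
      cay (((1 / (2 * d) : ℝ) : ℂ) • b) ^ d * pr (fun j => cay (x j)) d) ≤
      3 * (‖b‖ / d) * ∑ l ∈ Finset.range d, T.nrm2 (x l) + ‖b‖ ^ 2 / d := by
  have hd0 : (0 : ℝ) < d := by exact_mod_cast hd
  rw [← own_prod x hx b hb]
  have hsa : ∀ l, IsSelfAdjoint (conjW x l b) := fun l => conjW_sa x l hb
  refine (nrm2_pr_sub_le T _ _ (fun l => norm_cay_le ((hx l).add
    (isSelfAdjoint_real_smul (hsa l) _))) (fun l => ?_) d).trans ?_
  · calc ‖cay (((1 / (2 * d) : ℝ) : ℂ) • conjW x l b) * cay (x l)‖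
        ≤ ‖cay (((1 / (2 * d) : ℝ) : ℂ) • conjW x l b)‖ * ‖cay (x l)‖ := norm_mul_le _ _
      _ ≤ 1 * 1 := mul_le_mul (norm_cay_le (isSelfAdjoint_real_smul (hsa l) _))
          (norm_cay_le (hx l)) (norm_nonneg _) zero_le_one
      _ = 1 := one_mul 1
  · have key : ∀ l, T.nrm2 (cay (x l + ((1 / (2 * d) : ℝ) : ℂ) • conjW x l b) -
        cay (((1 / (2 * d) : ℝ) : ℂ) • conjW x l b) * cay (x l)) ≤
        3 * (‖b‖ / d) * T.nrm2 (x l) + (‖b‖ / d) ^ 2 := by
      intro l
      have e : ((1 / (2 * d) : ℝ) : ℂ) • conjW x l b =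
          (1 / 2 : ℂ) • (((1 / d : ℝ) : ℂ) • conjW x l b) := by
        rw [smul_smul]; congr 1; push_cast; field_simp
      rw [e]
      have h1 := cay_own T (hx l) (isSelfAdjoint_real_smul (hsa l) (1 / d))
      have h2 : ‖((1 / d : ℝ) : ℂ) • conjW x l b‖ ≤ ‖b‖ / d := by
        rw [norm_smul, Complex.norm_real, Real.norm_of_nonneg (by positivity)]
        calc 1 / (d : ℝ) * ‖conjW x l b‖ ≤ 1 / (d : ℝ) * ‖b‖ :=
              mul_le_mul_of_nonneg_left (norm_conjW_le x hx l b) (by positivity)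
          _ = ‖b‖ / d := by ring
      refine h1.trans ?_
      have h3 := T.nrm2_nonneg (x l)
      have h4 : (0 : ℝ) ≤ ‖((1 / d : ℝ) : ℂ) • conjW x l b‖ := norm_nonneg _
      gcongr
    calc _ ≤ ∑ l ∈ Finset.range d, (3 * (‖b‖ / d) * T.nrm2 (x l) + (‖b‖ / d) ^ 2) :=
          Finset.sum_le_sum (fun l _ => key l)
      _ = 3 * (‖b‖ / d) * ∑ l ∈ Finset.range d, T.nrm2 (x l) + ‖b‖ ^ 2 / d := by
          rw [Finset.sum_add_distrib, ← Finset.mul_sum, Finset.sum_const, Finset.card_range,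
            nsmul_eq_mul]
          congr 1
          field_simp

/-- own noise, final form -/
theorem own_pr' (d : ℕ) (hd : 1 ≤ d) (x : ℕ → A) (hx : ∀ l, IsSelfAdjoint (x l)) (b : A)
    (hb : IsSelfAdjoint b) (s : ℝ) (hbs : ‖b‖ ≤ s) :
    T.nrm2 (pr (fun l => cay (x l + ((1 / (2 * d) : ℝ) : ℂ) • conjW x l b)) d -
      (1 + I • b) * pr (fun j => cay (x j)) d) ≤
      3 * (s / d) * ∑ l ∈ Finset.range d, T.nrm2 (x l) + 2 * s ^ 2 := by
  have hd0 : (0 : ℝ) < d := by exact_mod_cast hd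
  have hd1 : (1 : ℝ) ≤ d := by exact_mod_cast hd
  have hb0 := norm_nonneg b
  have h1 := own_pr T d hd x hx b hb
  set W := pr (fun j => cay (x j)) d with hW
  have hWn : ‖W‖ ≤ 1 := norm_pr_le _ (fun j => norm_cay_le (hx j)) d norm_one_le'
  have h2 := cay_pow (isSelfAdjoint_real_smul hb (1 / (2 * d))) d hd
  have e1 : (2 * d * I : ℂ) • (((1 / (2 * d) : ℝ) : ℂ) • b) = I • b := by
    rw [smul_smul]; congr 1; push_cast
    have : (d : ℂ) ≠ 0 := by exact_mod_cast hd0.ne'
    field_simp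
  have e2 : 4 * (d : ℝ) ^ 2 * ‖(((1 / (2 * d) : ℝ) : ℂ) • b)‖ ^ 2 = ‖b‖ ^ 2 := by
    rw [norm_smul, Complex.norm_real, Real.norm_of_nonneg (by positivity)]
    field_simp
    ring
  rw [e1, e2] at h2
  set C := cay (((1 / (2 * d) : ℝ) : ℂ) • b) ^ d with hC
  have e3 : pr (fun l => cay (x l + ((1 / (2 * d) : ℝ) : ℂ) • conjW x l b)) d -
      (1 + I • b) * W = (pr (fun l => cay (x l + ((1 / (2 * d) : ℝ) : ℂ) • conjW x l b)) d -
        C * W) + (C - 1 - I • b) * W := by noncomm_ring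
  rw [e3]
  have h3 : T.nrm2 ((C - 1 - I • b) * W) ≤ ‖b‖ ^ 2 := by
    refine (T.nrm2_mul_le_left _ _).trans ?_
    calc ‖C - 1 - I • b‖ * T.nrm2 W ≤ ‖b‖ ^ 2 * 1 :=
          mul_le_mul h2 ((T.nrm2_le_norm W).trans hWn) (T.nrm2_nonneg _) (by positivity)
      _ = ‖b‖ ^ 2 := mul_one _
  have h4 : (0 : ℝ) ≤ ∑ l ∈ Finset.range d, T.nrm2 (x l) :=
    Finset.sum_nonneg (fun l _ => T.nrm2_nonneg _)
  have h5 : ‖b‖ ^ 2 ≤ s ^ 2 := by gcongr
  have h6 : ‖b‖ ^ 2 / d ≤ s ^ 2 := by
    calc ‖b‖ ^ 2 / d ≤ ‖b‖ ^ 2 / 1 := by gcongr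
      _ = ‖b‖ ^ 2 := div_one _
      _ ≤ s ^ 2 := h5
  have h7 : 3 * (‖b‖ / d) * ∑ l ∈ Finset.range d, T.nrm2 (x l) ≤
      3 * (s / d) * ∑ l ∈ Finset.range d, T.nrm2 (x l) := by gcongr
  calc _ ≤ T.nrm2 (pr (fun l => cay (x l + ((1 / (2 * d) : ℝ) : ℂ) • conjW x l b)) d - C * W) +
        T.nrm2 ((C - 1 - I • b) * W) := T.nrm2_add_le _ _
    _ ≤ (3 * (‖b‖ / d) * ∑ l ∈ Finset.range d, T.nrm2 (x l) + ‖b‖ ^ 2 / d) + ‖b‖ ^ 2 :=
        add_le_add h1 h3
    _ ≤ _ := by linarith

/-! ### the own phase -/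

/-- fourth root of unity `i^x` -/
noncomputable def ph (x : ZMod 4) : ℂ := I ^ x.val

theorem norm_ph (x : ZMod 4) : ‖ph x‖ = 1 := by simp [ph]

theorem sum_zmod4 {B : Type*} [AddCommMonoid B] (g : ZMod 4 → B) :
    ∑ x, g x = g 0 + g 1 + g 2 + g 3 := by
  exact Fin.sum_univ_four (fun x : Fin 4 => g x)

theorem ph_zero : ph 0 = 1 := by simp [ph]
theorem ph_one : ph 1 = I := by
  have : (1 : ZMod 4).val = 1 := rfl
  rw [ph, this, pow_one]
theorem ph_two : ph 2 = -1 := by
  have : (2 : ZMod 4).val = 2 := rfl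
  rw [ph, this, I_sq]
theorem ph_three : ph 3 = -I := by
  have : (3 : ZMod 4).val = 3 := rfl
  rw [ph, this, I_pow_three]

/-- the move `β(x)` -/
noncomputable def beta (s : ℝ) (V γ : A) (x : ZMod 4) : A :=
  ((s / 2 : ℝ) : ℂ) • ((I * ph x) • (V * γ) + star ((I * ph x) • (V * γ)))

theorem beta_sa (s : ℝ) (V γ : A) (x : ZMod 4) : IsSelfAdjoint (beta s V γ x) := by
  unfold beta
  exact isSelfAdjoint_real_smul (IsSelfAdjoint.add_star_self _) _

theorem norm_beta_le {s : ℝ} (hs : 0 ≤ s) {V γ : A} (hV : ‖V‖ ≤ 1) (hγ : ‖γ‖ ≤ 1) (x : ZMod 4) :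
    ‖beta s V γ x‖ ≤ s := by
  unfold beta
  have h1 : ‖(I * ph x) • (V * γ)‖ ≤ 1 := by
    rw [norm_smul, norm_mul, norm_ph, Complex.norm_I, one_mul, one_mul]
    calc ‖V * γ‖ ≤ ‖V‖ * ‖γ‖ := norm_mul_le _ _
      _ ≤ 1 * 1 := mul_le_mul hV hγ (norm_nonneg _) zero_le_one
      _ = 1 := one_mul 1
  rw [norm_smul, Complex.norm_real, Real.norm_of_nonneg (by positivity)]
  calc s / 2 * ‖(I * ph x) • (V * γ) + star ((I * ph x) • (V * γ))‖
      ≤ s / 2 * (1 + 1) := by
        refine mul_le_mul_of_nonneg_left ((norm_add_le _ _).trans (add_le_add h1 ?_))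
          (by positivity)
        rw [norm_star]; exact h1
    _ = s := by ring

theorem sum_beta (s : ℝ) (V γ : A) : ∑ x, beta s V γ x = 0 := by
  unfold beta
  rw [← Finset.smul_sum, sum_zmod4, ph_zero, ph_one, ph_two, ph_three]
  simp only [star_smul, RCLike.star_def, map_mul, map_neg, map_one, Complex.conj_I]
  rw [show ∀ a b : A, (I * 1) • a + (-I * 1) • b + ((I * I) • a + (-I * -I) • b) +
      ((I * -1) • a + (-I * -1) • b) + ((I * -I) • a + (-I * -(-I)) • b) = 0 from ?_, smul_zero]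
  intro a b
  module

/-- the gain from the own phase -/
theorem own_gain (s : ℝ) {V γ : A} (η : A) (hV : star V * V = 1) (hγ : IsSelfAdjoint γ) :
    (1 / 4 : ℝ) * ∑ x, (T.τ ((ph x • ((1 + I • beta s V γ x) * V)) * η)).re =
      s / 2 * (T.τ (γ * η)).re := by
  have key : ∑ x, ph x • ((1 + I • beta s V γ x) * V) = ((4 * (s / 2) : ℝ) : ℂ) • γ := by
    rw [sum_zmod4, ph_zero, ph_one, ph_two, ph_three]
    unfold beta
    rw [ph_zero, ph_one, ph_two, ph_three]
    simp only [star_smul, RCLike.star_def, map_neg, map_one, Complex.conj_I, star_mul,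
      hγ.star_eq, add_mul, one_mul, smul_mul_assoc]
    have e : γ * star V * V = γ := by rw [mul_assoc, hV, mul_one]
    rw [e]
    push_cast
    set P := V * γ * V
    simp only [smul_add, smul_smul]
    have i2 : (I : ℂ) ^ 2 = -1 := I_sq
    have i4 : (I : ℂ) ^ 4 = 1 := I_pow_four
    match_scalars <;> ring_nf <;> simp only [i2, i4] <;> ring
  have h2 : ∑ x, T.τ ((ph x • ((1 + I • beta s V γ x) * V)) * η) =
      ((4 * (s / 2) : ℝ) : ℂ) * T.τ (γ * η) := by
    rw [← map_sum, ← Finset.sum_mul, key, smul_mul_assoc, map_smul, smul_eq_mul]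
  rw [← Complex.re_sum, h2, Complex.re_ofReal_mul]
  ring

end Crest.Agent.R95.Cor
end

-- ▼ part R95/CoreLines
section

/-!
# R95 CoreLines (helper795): the incidence structure (lines `s = u + l v`).
-/

set_option autoImplicit false

namespace Crest.Agent.R95.Cor

/-- Incidence structure: `p l a` = the variable used by constraint `a` at level `l < d`.-/
structure Lines (ι κ : Type) (d k : ℕ) where
  p : ℕ → κ → ι
  ai : κ → ι
  ai_inj : Function.Injective ai
  level : ∀ l < d, ∀ l' < d, ∀ a b, p l a = p l' b → l = l'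
  meet : ∀ a b, a ≠ b → ∀ l < d, ∀ l' < d, p l a = p l b → p l' a = p l' b → l = l'
  deg : ∀ l < d, ∀ i : ι, ∀ s : Finset κ, (∀ a ∈ s, p l a = i) → s.card ≤ k

theorem exists_lines (m k : ℕ) (hm : 1 ≤ m) (hk : 1 ≤ k) (ι : Type) [Fintype ι]
    (hι : 2 * (m * k) * (1 + (m * k) * k) ≤ Fintype.card ι) :
    ∃ q : ℕ, 1 ≤ q ∧ q * k ≤ Fintype.card ι ∧ Fintype.card ι ≤ 2 * m * (q * k) ∧
      Nonempty (Lines ι (Fin q × Fin k) (m * k) k) := by
  classical
  set d := m * k with hd
  have hd1 : 1 ≤ d := Nat.mul_pos hm hk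
  set N := Fintype.card ι with hN
  set q := N / d - d * k with hq
  have h1 : 2 * (1 + d * k) ≤ N / d := by
    rw [Nat.le_div_iff_mul_le (by omega)]
    calc 2 * (1 + d * k) * d = 2 * d * (1 + d * k) := by ring
      _ ≤ N := hι
  have hqd : q + d * k = N / d := by omega
  have hdN : d * (q + d * k) ≤ N := by rw [hqd]; exact Nat.mul_div_le N d
  have hq1 : 1 ≤ q := by omega
  have hqk : q * k ≤ N := by
    calc q * k ≤ q * d := Nat.mul_le_mul_left _ (by rw [hd]; exact Nat.le_mul_of_pos_left k hm)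
      _ = d * q := Nat.mul_comm _ _
      _ ≤ d * (q + d * k) := Nat.mul_le_mul_left _ (by omega)
      _ ≤ N := hdN
  have hNq : N ≤ 2 * m * (q * k) := by
    have h2 : N < d * (N / d + 1) := by
      have := Nat.div_add_mod N d
      have h3 := Nat.mod_lt N (show 0 < d by omega)
      nlinarith
    have h4 : N / d + 1 ≤ 2 * q := by omega
    calc N ≤ d * (N / d + 1) := h2.le
      _ ≤ d * (2 * q) := Nat.mul_le_mul_left _ h4
      _ = 2 * m * (q * k) := by rw [hd]; ring
  refine ⟨q, hq1, hqk, hNq, ?_⟩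
  -- embeddings
  have hc : Fintype.card (Fin d × Fin (q + d * k)) ≤ Fintype.card ι := by
    rw [Fintype.card_prod, Fintype.card_fin, Fintype.card_fin]; exact hdN
  obtain ⟨e⟩ := Function.Embedding.nonempty_of_card_le hc
  have hc2 : Fintype.card (Fin q × Fin k) ≤ Fintype.card ι := by
    rw [Fintype.card_prod, Fintype.card_fin, Fintype.card_fin]; exact hqk
  obtain ⟨ai⟩ := Function.Embedding.nonempty_of_card_le hc2
  have hs : ∀ l < d, ∀ a : Fin q × Fin k, (a.1 : ℕ) + l * a.2 < q + d * k := by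
    intro l hl a
    have h5 : l * (a.2 : ℕ) ≤ d * k := Nat.mul_le_mul hl.le a.2.2.le
    have := a.1.2
    omega
  let p : ℕ → Fin q × Fin k → ι := fun l a =>
    if hl : l < d then e (⟨l, hl⟩, ⟨(a.1 : ℕ) + l * a.2, hs l hl a⟩) else ai a
  have hp : ∀ l (hl : l < d) a, p l a = e (⟨l, hl⟩, ⟨(a.1 : ℕ) + l * a.2, hs l hl a⟩) := by
    intro l hl a
    simp only [p, dif_pos hl]
  have hpe : ∀ l < d, ∀ l' < d, ∀ a b, p l a = p l' b →
      l = l' ∧ (a.1 : ℕ) + l * a.2 = (b.1 : ℕ) + l' * b.2 := by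
    intro l hl l' hl' a b h
    rw [hp l hl a, hp l' hl' b] at h
    have h6 := e.injective h
    rw [Prod.mk.injEq, Fin.mk.injEq, Fin.mk.injEq] at h6
    exact h6
  refine ⟨⟨p, ai, ai.injective, ?_, ?_, ?_⟩⟩
  · intro l hl l' hl' a b h
    exact (hpe l hl l' hl' a b h).1
  · intro a b hab l hl l' hl' h h'
    by_contra hne
    apply hab
    have e1 := (hpe l hl l hl a b h).2
    have e2 := (hpe l' hl' l' hl' a b h').2
    have e3 : ((l : ℤ) - l') * ((a.2 : ℤ) - b.2) = 0 := by
      have e1' : ((a.1 : ℕ) : ℤ) + l * (a.2 : ℕ) = (b.1 : ℕ) + l * (b.2 : ℕ) := by exact_mod_cast e1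
      have e2' : ((a.1 : ℕ) : ℤ) + l' * (a.2 : ℕ) = (b.1 : ℕ) + l' * (b.2 : ℕ) := by
        exact_mod_cast e2
      linear_combination e1' - e2'
    have e4 : (l : ℤ) - l' ≠ 0 := by
      intro h0; apply hne; omega
    have e5 : ((a.2 : ℕ) : ℤ) - (b.2 : ℕ) = 0 := (mul_eq_zero.mp e3).resolve_left e4
    have e6 : (a.2 : ℕ) = b.2 := by omega
    have e7 : (a.1 : ℕ) = b.1 := by rw [e6] at e1; omega
    exact Prod.ext (Fin.ext e7) (Fin.ext e6)
  · intro l hl i s hs'
    have hinj : Set.InjOn (fun a : Fin q × Fin k => a.2) (s : Set (Fin q × Fin k)) := by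
      intro a ha b hb hab
      have h8 := (hpe l hl l hl a b ((hs' a ha).trans (hs' b hb).symm)).2
      have h9 : a.2 = b.2 := hab
      rw [h9] at h8
      have h10 : (a.1 : ℕ) = b.1 := by omega
      exact Prod.ext (Fin.ext h10) h9
    calc s.card = (s.image (fun a : Fin q × Fin k => a.2)).card :=
          (Finset.card_image_of_injOn hinj).symm
      _ ≤ Fintype.card (Fin k) := Finset.card_le_univ _
      _ = k := Fintype.card_fin k

end Crest.Agent.R95.Cor
end

-- ▼ part R95/CoreSum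

/-!
# R95 CoreSum (helper795): coordinates, sums over constraints.
-/

set_option autoImplicit false
set_option linter.unusedSectionVars false

namespace Crest.Agent.R95.Cor

open Complex

variable {A : Type*} [CStarAlgebra A] (T : TracialState A)
variable {ι κ : Type} [Fintype ι] [DecidableEq ι] [Fintype κ] [DecidableEq κ] (F : PauliSys A ι)
  {d k : ℕ} (L : Lines ι κ d k)

/-- coordinate collecting -/
noncomputable def coll (n : κ → ℕ → A) (i : ι) : A :=
  ∑ a, ∑ l ∈ Finset.range d, if L.p l a = i then n a l else 0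

theorem sum_coord (n : κ → ℕ → A) :
    ∑ a : κ, ∑ l ∈ Finset.range d, F.f (L.p l a) * n a l = ∑ i, F.f i * coll L n i := by
  symm
  unfold coll
  simp_rw [Finset.mul_sum, mul_ite, mul_zero]
  rw [Finset.sum_comm]
  refine Finset.sum_congr rfl (fun a _ => ?_)
  rw [Finset.sum_comm]
  refine Finset.sum_congr rfl (fun l _ => ?_)
  rw [Finset.sum_ite_eq]
  simp

/-- the constraints `b ≠ a` using the same variable as `a` at level `l` -/
def Bset (a : κ) (l : ℕ) : Finset κ := Finset.univ.filter (fun b => b ≠ a ∧ L.p l b = L.p l a)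

theorem mem_Bset {a b : κ} {l : ℕ} : b ∈ Bset L a l ↔ b ≠ a ∧ L.p l b = L.p l a := by
  simp [Bset]

theorem Bset_card_le (a : κ) (l : ℕ) (hl : l < d) : (Bset L a l).card ≤ k :=
  L.deg l hl (L.p l a) _ (fun _ hb => ((mem_Bset L).mp hb).2)

theorem Bset_disjoint (a : κ) : ∀ l < d, ∀ j < d, l ≠ j → Disjoint (Bset L a l) (Bset L a j) := by
  intro l hl j hj hlj
  rw [Finset.disjoint_left]
  intro b hb hb'
  have h1 := (mem_Bset L).mp hb
  have h2 := (mem_Bset L).mp hb'
  exact hlj (L.meet b a h1.1 l hl j hj h1.2 h2.2)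

theorem coll_eq (n : κ → ℕ → A) (a : κ) (l : ℕ) (hl : l < d) :
    coll L n (L.p l a) = n a l + ∑ b ∈ Bset L a l, n b l := by
  unfold coll
  have h1 : ∀ b, (∑ l' ∈ Finset.range d, if L.p l' b = L.p l a then n b l' else 0) =
      if L.p l b = L.p l a then n b l else 0 := by
    intro b
    rw [Finset.sum_eq_single_of_mem l (Finset.mem_range.mpr hl)]
    intro l' hl' hne
    rw [if_neg]
    intro h
    exact hne (L.level l' (Finset.mem_range.mp hl') l hl b a h)
  simp_rw [h1]
  rw [← Finset.add_sum_erase Finset.univ _ (Finset.mem_univ a), if_pos rfl]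
  congr 1
  rw [← Finset.sum_filter]
  refine Finset.sum_congr ?_ (fun _ _ => rfl)
  ext b
  simp [Bset]

theorem coll_inQ (n : κ → ℕ → A) (hn : ∀ a l, F.InQ (n a l)) (i : ι) : F.InQ (coll L n i) := by
  unfold coll
  refine PauliSys.InQ.sum F _ _ (fun a _ => PauliSys.InQ.sum F _ _ (fun l _ => ?_))
  split_ifs
  · exact hn a l
  · intro i; simp

/-- rescaled coordinate -/
noncomputable def xh (X : A) (i : ι) : A := ((Real.sqrt (Fintype.card ι) : ℝ) : ℂ) • F.E (F.f i * X)

theorem xh_sa {X : A} (hX : IsSelfAdjoint X) (i : ι) : IsSelfAdjoint (xh F X i) :=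
  isSelfAdjoint_real_smul (F.E_sa hX i) _

theorem xh_inQ (X : A) (i : ι) : F.InQ (xh F X i) := PauliSys.InQ.smul F _ (F.E_inQ _)

/-- modification of `X` -/
noncomputable def modi (X : A) (n : κ → ℕ → A) : A :=
  X + (((Real.sqrt (Fintype.card ι))⁻¹ : ℝ) : ℂ) •
    ∑ a : κ, ∑ l ∈ Finset.range d, F.f (L.p l a) * n a l

include F in
theorem card_pos : 0 < Fintype.card ι := Fintype.card_pos_iff.mpr ⟨F.o⟩

include F in
theorem sqrt_card_pos : 0 < Real.sqrt (Fintype.card ι) :=
  Real.sqrt_pos.mpr (by exact_mod_cast card_pos F)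

theorem xh_modi (X : A) (n : κ → ℕ → A) (hn : ∀ a l, F.InQ (n a l)) (i : ι) :
    xh F (modi F L X n) i = xh F X i + coll L n i := by
  unfold xh modi
  rw [mul_add, F.E_add, smul_add, mul_smul_comm, F.E_smul, smul_smul, sum_coord,
    F.coord _ (coll_inQ F L n hn)]
  congr 1
  have := (sqrt_card_pos F).ne'
  rw [← Complex.ofReal_mul, mul_inv_cancel₀ this, Complex.ofReal_one, one_smul]

/-- each `f i * n` is selfadjoint if `n ∈ Q` is -/
theorem f_mul_sa {n : A} (hn : F.InQ n) (hsa : IsSelfAdjoint n) (i : ι) :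
    IsSelfAdjoint (F.f i * n) := by
  rw [IsSelfAdjoint, star_mul, hsa.star_eq, (F.sa i).star_eq, hn i]

theorem modi_sa {X : A} (hX : IsSelfAdjoint X) (n : κ → ℕ → A) (hn : ∀ a l, F.InQ (n a l))
    (hsa : ∀ a l, IsSelfAdjoint (n a l)) : IsSelfAdjoint (modi F L X n) := by
  unfold modi
  refine hX.add (isSelfAdjoint_real_smul ?_ _)
  exact isSelfAdjoint_sum _ (fun a _ => isSelfAdjoint_sum _ (fun l _ =>
    f_mul_sa F (hn a l) (hsa a l) _))

/-- orthogonality within one constraint -/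
theorem nrm2_sum_level (a : κ) (n : ℕ → A) (hn : ∀ l, F.InQ (n l)) :
    T.nrm2 (∑ l ∈ Finset.range d, F.f (L.p l a) * n l) ^ 2 =
      ∑ l ∈ Finset.range d, T.nrm2 (n l) ^ 2 := by
  have e : ∑ l ∈ Finset.range d, F.f (L.p l a) * n l =
      ∑ i, F.f i * ∑ l ∈ Finset.range d, if L.p l a = i then n l else 0 := by
    simp_rw [Finset.mul_sum, mul_ite, mul_zero]
    rw [Finset.sum_comm]
    refine Finset.sum_congr rfl (fun l _ => ?_)
    rw [Finset.sum_ite_eq]
    simp
  rw [e, F.nrm2_sum_sq T]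
  · have h1 : ∀ i, T.nrm2 (∑ l ∈ Finset.range d, if L.p l a = i then n l else 0) ^ 2 =
        ∑ l ∈ Finset.range d, if L.p l a = i then T.nrm2 (n l) ^ 2 else 0 := by
      intro i
      by_cases h : ∃ l ∈ Finset.range d, L.p l a = i
      · obtain ⟨l, hl, hli⟩ := h
        have hz : ∀ l' ∈ Finset.range d, l' ≠ l → L.p l' a ≠ i := by
          intro l' hl' hne h
          exact hne (L.level l' (Finset.mem_range.mp hl') l (Finset.mem_range.mp hl) a a
            (h.trans hli.symm))
        rw [Finset.sum_eq_single_of_mem l hl (fun l' hl' hne => if_neg (hz l' hl' hne)),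
          Finset.sum_eq_single_of_mem l hl (fun l' hl' hne => if_neg (hz l' hl' hne)),
          if_pos hli, if_pos hli]
      · push Not at h
        rw [Finset.sum_eq_zero (fun l hl => if_neg (h l hl)),
          Finset.sum_eq_zero (fun l hl => if_neg (h l hl)), T.nrm2_zero]
        simp
    simp_rw [h1]
    rw [Finset.sum_comm]
    refine Finset.sum_congr rfl (fun l _ => ?_)
    rw [Finset.sum_ite_eq]
    simp
  · intro i
    refine PauliSys.InQ.sum F _ _ (fun l _ => ?_)
    split_ifs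
    · exact hn l
    · intro i; simp

/-- (F3) the distance moved, averaged over the phases -/
theorem avg_dist (X : A) (n : κ → ℕ → ZMod 4 → A) (hn : ∀ a l x, F.InQ (n a l x))
    (h0 : ∀ a l, ∑ x, n a l x = 0) (C : ℝ) (hC00 : 0 ≤ C) (hC : ∀ a l x, T.nrm2 (n a l x) ^ 2 ≤ C)
    (hκ : Fintype.card κ ≤ Fintype.card ι) :
    avg (fun ω : κ → ZMod 4 =>
      T.nrm2 (modi F L X (fun a l => n a l (ω a)) - X) ^ 2) ≤ d * C := by
  have e1 : ∀ ω : κ → ZMod 4, T.nrm2 (modi F L X (fun a l => n a l (ω a)) - X) ^ 2 =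
      (Fintype.card ι : ℝ)⁻¹ *
        T.nrm2 (∑ a, (fun b x => ∑ l ∈ Finset.range d, F.f (L.p l b) * n b l x) a (ω a)) ^ 2 := by
    intro ω
    unfold modi
    rw [add_sub_cancel_left, T.nrm2_smul, mul_pow, Complex.norm_real,
      Real.norm_of_nonneg (by positivity), inv_pow, Real.sq_sqrt (by positivity)]
  have h1 := avg_nrm2_sum_sq T (fun (b : κ) (x : ZMod 4) =>
    ∑ l ∈ Finset.range d, F.f (L.p l b) * n b l x) (by
      intro b
      rw [Finset.sum_comm]
      refine Finset.sum_eq_zero (fun l _ => ?_)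
      rw [← Finset.mul_sum, h0, mul_zero])
  have e2 : avg (fun ω : κ → ZMod 4 =>
      T.nrm2 (modi F L X (fun a l => n a l (ω a)) - X) ^ 2) =
      (Fintype.card ι : ℝ)⁻¹ * avg (fun ω : κ → ZMod 4 => T.nrm2
        (∑ a, (fun b x => ∑ l ∈ Finset.range d, F.f (L.p l b) * n b l x) a (ω a)) ^ 2) := by
    unfold avg
    simp_rw [e1]
    rw [← Finset.mul_sum]
    ring
  rw [e2, h1]
  have h2 : ∀ b x, T.nrm2 (∑ l ∈ Finset.range d, F.f (L.p l b) * n b l x) ^ 2 ≤ d * C := by
    intro b x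
    rw [nrm2_sum_level T F L b _ (fun l => hn b l x)]
    calc ∑ l ∈ Finset.range d, T.nrm2 (n b l x) ^ 2 ≤ ∑ l ∈ Finset.range d, C :=
          Finset.sum_le_sum (fun l _ => hC b l x)
      _ = d * C := by simp
  have hN : (0 : ℝ) < Fintype.card ι := by exact_mod_cast card_pos F
  have hC0 : 0 ≤ d * C := by positivity
  calc (Fintype.card ι : ℝ)⁻¹ * ∑ b, (1 / 4) * ∑ x,
        T.nrm2 (∑ l ∈ Finset.range d, F.f (L.p l b) * n b l x) ^ 2
      ≤ (Fintype.card ι : ℝ)⁻¹ * ∑ b : κ, (1 / 4) * ∑ x : ZMod 4, d * C := by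
        refine mul_le_mul_of_nonneg_left (Finset.sum_le_sum (fun b _ =>
          mul_le_mul_of_nonneg_left (Finset.sum_le_sum (fun x _ => h2 b x)) (by norm_num)))
          (by positivity)
    _ = (Fintype.card ι : ℝ)⁻¹ * Fintype.card κ * (d * C) := by
        rw [Finset.sum_const, Finset.sum_const, Finset.card_univ, Finset.card_univ, ZMod.card]
        simp only [nsmul_eq_mul]
        push_cast
        ring
    _ ≤ 1 * (d * C) := by
        refine mul_le_mul_of_nonneg_right ?_ hC0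
        rw [inv_mul_le_iff₀ hN, mul_one]
        exact_mod_cast hκ
    _ = d * C := one_mul _

/-! ### the output element `Y` -/

/-- the mixed coordinate `η_a` of `y0` -/
noncomputable def eta (y0 : A) (ζ : ι → Bool) (a : κ) : A :=
  ∑ i, (sg (ζ i) : ℂ) • ((F.c i (L.ai a) : ℂ) • F.E (F.f i * y0))

/-- the output `Y` -/
noncomputable def outY (ζ : ι → Bool) (D : κ → A) : A :=
  (((Fintype.card ι : ℝ)⁻¹ : ℝ) : ℂ) •
    ∑ a : κ, ∑ i, ((F.c i (L.ai a) * sg (ζ i) : ℝ) : ℂ) • (F.f i * D a)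

theorem sg_sq (b : Bool) : sg b * sg b = 1 := by
  cases b <;> simp [sg]

theorem outY_eq (ζ : ι → Bool) (D : κ → A) :
    outY F L ζ D = ∑ i, F.f i * ((((Fintype.card ι : ℝ)⁻¹ * sg (ζ i) : ℝ) : ℂ) •
      ∑ a : κ, (F.c i (L.ai a) : ℂ) • D a) := by
  unfold outY
  rw [Finset.sum_comm, Finset.smul_sum]
  refine Finset.sum_congr rfl (fun i _ => ?_)
  rw [Finset.smul_sum, Finset.smul_sum, Finset.mul_sum]
  refine Finset.sum_congr rfl (fun a _ => ?_)
  rw [smul_smul, smul_smul, mul_smul_comm]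
  congr 1
  push_cast
  ring

theorem nrm2_outY_sq (ζ : ι → Bool) (D : κ → A) (hD : ∀ a, F.InQ (D a)) :
    T.nrm2 (outY F L ζ D) ^ 2 = (Fintype.card ι : ℝ)⁻¹ * ∑ a, T.nrm2 (D a) ^ 2 := by
  rw [outY_eq, F.nrm2_sum_sq T]
  · have hN : (Fintype.card ι : ℝ) ≠ 0 := by exact_mod_cast (card_pos F).ne'
    have h1 : ∀ i, T.nrm2 ((((Fintype.card ι : ℝ)⁻¹ * sg (ζ i) : ℝ) : ℂ) •
        ∑ a : κ, (F.c i (L.ai a) : ℂ) • D a) ^ 2 =
        ((Fintype.card ι : ℝ)⁻¹ ^ 2) * ∑ a : κ, ∑ b : κ, F.c i (L.ai a) * F.c i (L.ai b) *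
          (T.τ (star (D a) * D b)).re := by
      intro i
      rw [T.nrm2_smul, mul_pow, Complex.norm_real, Real.norm_eq_abs, sq_abs, mul_pow,
        T.nrm2_sq]
      have h2 : sg (ζ i) ^ 2 = 1 := by rw [sq, sg_sq]
      rw [h2, mul_one]
      congr 1
      rw [star_sum, Finset.sum_mul_sum, map_sum, Complex.re_sum]
      refine Finset.sum_congr rfl (fun a _ => ?_)
      rw [map_sum, Complex.re_sum]
      refine Finset.sum_congr rfl (fun b _ => ?_)
      rw [star_smul, smul_mul_smul_comm, map_smul, smul_eq_mul, RCLike.star_def,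
        Complex.conj_ofReal, ← Complex.ofReal_mul, Complex.re_ofReal_mul]
    simp_rw [h1]
    rw [← Finset.mul_sum]
    have h3 : ∑ i, ∑ a : κ, ∑ b : κ, F.c i (L.ai a) * F.c i (L.ai b) *
          (T.τ (star (D a) * D b)).re = Fintype.card ι * ∑ a : κ, T.nrm2 (D a) ^ 2 := by
      rw [Finset.sum_comm, Finset.mul_sum]
      refine Finset.sum_congr rfl (fun a _ => ?_)
      rw [Finset.sum_comm]
      have h4 : ∀ b : κ, ∑ i, F.c i (L.ai a) * F.c i (L.ai b) * (T.τ (star (D a) * D b)).re =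
          if a = b then (Fintype.card ι : ℝ) * T.nrm2 (D b) ^ 2 else 0 := by
        intro b
        rw [← Finset.sum_mul, F.ortho]
        by_cases hab : a = b
        · subst hab
          rw [if_pos rfl, if_pos rfl, T.nrm2_sq]
        · rw [if_neg (fun h => hab (L.ai_inj h)), if_neg hab, zero_mul]
      simp_rw [h4]
      simp
    rw [h3]
    field_simp
  · intro i
    exact PauliSys.InQ.smul F _ (PauliSys.InQ.sum F _ _ (fun a _ => PauliSys.InQ.smul F _ (hD a)))

theorem tau_outY (ζ : ι → Bool) (D : κ → A) (hD : ∀ a, F.InQ (D a)) {y0 : A}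
    (hy : IsSelfAdjoint y0) :
    (T.τ (outY F L ζ D * y0)).re =
      (Fintype.card ι : ℝ)⁻¹ * ∑ a, (T.τ (D a * eta F L y0 ζ a)).re := by
  unfold outY eta
  rw [smul_mul_assoc, map_smul, smul_eq_mul, Complex.re_ofReal_mul, Finset.sum_mul, map_sum,
    Complex.re_sum]
  congr 1
  refine Finset.sum_congr rfl (fun a _ => ?_)
  rw [Finset.sum_mul, map_sum, Finset.mul_sum, map_sum]
  congr 1
  refine Finset.sum_congr rfl (fun i _ => ?_)
  rw [smul_mul_assoc, map_smul, mul_smul_comm, mul_smul_comm, smul_smul, map_smul, mul_assoc,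
    T.tr, mul_assoc, F.tau_E T _ _ (hD a), F.E_comm hy]
  congr 1
  push_cast
  ring

end Crest.Agent.R95.Cor
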