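import Crest.Agent.R95.CoreSum
import Crest.Agent.R95.Bridge
import Mathlib
import Crest.Agent.R95.Defs
import Crest.Agent.R95.L2
import Crest.Prelude.Def_VNFactor

-- ▼ part R95/CoreAvg
section

/-!
# R95 CoreAvg (helper795): averages and the estimate for one constraint.
-/

set_option autoImplicit false
set_option linter.unusedSectionVars false

namespace Crest.Agent.R95.Cor

open Complex

/-! ### averages -/

section avg

variable {Ω : Type*} [Fintype Ω]

theorem avg_mono {f g : Ω → ℝ} (h : ∀ ω, f ω ≤ g ω) : avg f ≤ avg g := by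
  unfold avg
  exact mul_le_mul_of_nonneg_left (Finset.sum_le_sum (fun ω _ => h ω)) (by positivity)

theorem avg_add (f g : Ω → ℝ) : avg (fun ω => f ω + g ω) = avg f + avg g := by
  unfold avg
  rw [Finset.sum_add_distrib, mul_add]

theorem avg_sub (f g : Ω → ℝ) : avg (fun ω => f ω - g ω) = avg f - avg g := by
  unfold avg
  rw [Finset.sum_sub_distrib, mul_sub]

theorem avg_const_mul (c : ℝ) (f : Ω → ℝ) : avg (fun ω => c * f ω) = c * avg f := by
  unfold avg
  rw [← Finset.mul_sum]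
  ring

theorem avg_mul_const (c : ℝ) (f : Ω → ℝ) : avg (fun ω => f ω * c) = avg f * c := by
  unfold avg
  rw [← Finset.sum_mul]
  ring

theorem avg_sum {κ : Type*} (s : Finset κ) (f : κ → Ω → ℝ) :
    avg (fun ω => ∑ a ∈ s, f a ω) = ∑ a ∈ s, avg (f a) := by
  unfold avg
  rw [Finset.sum_comm, Finset.mul_sum]

theorem avg_const [Nonempty Ω] (c : ℝ) : avg (fun _ : Ω => c) = c := by
  unfold avg
  have : (Fintype.card Ω : ℝ) ≠ 0 := by exact_mod_cast Fintype.card_ne_zero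
  rw [Finset.sum_const, Finset.card_univ, nsmul_eq_mul]
  field_simp

theorem avg_le_of_sq [Nonempty Ω] {f : Ω → ℝ} {C : ℝ} (hC : 0 < C)
    (h : avg (fun ω => f ω ^ 2) ≤ C ^ 2) : avg f ≤ C := by
  have h1 : avg f ≤ avg (fun ω => (1 / (2 * C)) * f ω ^ 2 + C / 2) := by
    refine avg_mono (fun ω => ?_)
    have h2 : 0 ≤ (f ω - C) ^ 2 / (2 * C) := by positivity
    have h3 : (f ω - C) ^ 2 / (2 * C) = (1 / (2 * C)) * f ω ^ 2 + C / 2 - f ω := by
      field_simp; ring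
    linarith
  rw [avg_add, avg_const_mul, avg_const] at h1
  have h4 : (1 / (2 * C)) * avg (fun ω => f ω ^ 2) ≤ (1 / (2 * C)) * C ^ 2 :=
    mul_le_mul_of_nonneg_left h (by positivity)
  have h5 : (1 / (2 * C)) * C ^ 2 = C / 2 := by field_simp
  linarith

theorem exists_le_of_avg [Nonempty Ω] {f : Ω → ℝ} {C : ℝ} (h : C ≤ avg f) : ∃ ω, C ≤ f ω := by
  by_contra hcon
  push Not at hcon
  unfold avg at h
  have h1 : ∑ ω, f ω < ∑ _ω : Ω, C :=
    Finset.sum_lt_sum_of_nonempty Finset.univ_nonempty (fun ω _ => hcon ω)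
  rw [Finset.sum_const, Finset.card_univ, nsmul_eq_mul] at h1
  have hc : (0 : ℝ) < Fintype.card Ω := by exact_mod_cast Fintype.card_pos
  have h2 : (Fintype.card Ω : ℝ)⁻¹ * ∑ ω, f ω < (Fintype.card Ω : ℝ)⁻¹ * (Fintype.card Ω * C) :=
    mul_lt_mul_of_pos_left h1 (by positivity)
  rw [← mul_assoc, inv_mul_cancel₀ hc.ne', one_mul] at h2
  linarith

theorem avg_single {κ : Type} [Fintype κ] [DecidableEq κ] (a : κ) (g : ZMod 4 → ℝ) :
    avg (fun ω : κ → ZMod 4 => g (ω a)) = (1 / 4) * ∑ x, g x := by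
  unfold avg
  let e := Equiv.funSplitAt a (ZMod 4)
  have h1 : ∑ ω : κ → ZMod 4, g (ω a) = ∑ x : ZMod 4 × ({j // j ≠ a} → ZMod 4), g x.1 := by
    refine Fintype.sum_equiv e _ _ (fun ω => ?_)
    rfl
  have h2 : Fintype.card (κ → ZMod 4) = Fintype.card (ZMod 4 × ({j // j ≠ a} → ZMod 4)) :=
    Fintype.card_congr e
  rw [h1, h2, Fintype.sum_prod_type, Fintype.card_prod, ZMod.card]
  simp only [Finset.sum_const, Finset.card_univ, nsmul_eq_mul]
  rw [← Finset.mul_sum]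
  have h3 : (Fintype.card ({j // j ≠ a} → ZMod 4) : ℝ) ≠ 0 := by
    exact_mod_cast Fintype.card_ne_zero
  push_cast
  field_simp

end avg

end Crest.Agent.R95.Cor
end

-- ▼ part R95/CoreOne
section

/-!
# R95 CoreOne (helper795): the estimate for one constraint.
-/

set_option autoImplicit false
set_option linter.unusedSectionVars false

namespace Crest.Agent.R95.Cor

open Complex

variable {A : Type*} [CStarAlgebra A] (T : TracialState A)
variable {ι κ : Type} [Fintype ι] [DecidableEq ι] [Fintype κ] [DecidableEq κ] (F : PauliSys A ι)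
  {d k : ℕ} (L : Lines ι κ d k)

/-- the truncated test element -/
noncomputable def gma (y0 : A) (σ : ℝ) (ζ : ι → Bool) (a : κ) : A :=
  gam ((σ : ℂ) • eta F L y0 ζ a)

/-- scaled coordinates along the constraint `a` -/
noncomputable def xs (X : A) (t : ℝ) (a : κ) (l : ℕ) : A := (t : ℂ) • xh F X (L.p l a)

/-- `V_a` -/
noncomputable def Va (X : A) (t : ℝ) (a : κ) : A := pr (fun j => cay (xs F L X t a j)) d

/-- the move -/
noncomputable def be (X y0 : A) (t s σ : ℝ) (ζ : ι → Bool) (a : κ) (x : ZMod 4) : A :=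
  beta s (Va F L X t a) (gma F L y0 σ ζ a) x

/-- the modification of the coordinates -/
noncomputable def nn (X y0 : A) (t s σ : ℝ) (ζ : ι → Bool) (a : κ) (l : ℕ) (x : ZMod 4) : A :=
  ((1 / (2 * t * d) : ℝ) : ℂ) • conjW (xs F L X t a) l (be F L X y0 t s σ ζ a x)

/-- the new element -/
noncomputable def Zz (X y0 : A) (t s σ : ℝ) (ζ : ι → Bool) (ω : κ → ZMod 4) : A :=
  modi F L X (fun a l => nn F L X y0 t s σ ζ a l (ω a))

/-- the word -/
noncomputable def Pw (X : A) (t : ℝ) (Z : A) (a : κ) : A :=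
  pr (fun l => cay ((t : ℂ) • xh F Z (L.p l a))) d

variable {X y0 : A} {t s σ : ℝ} {ζ : ι → Bool}

theorem eta_sa (hy : IsSelfAdjoint y0) (ζ : ι → Bool) (a : κ) :
    IsSelfAdjoint (eta F L y0 ζ a) := by
  unfold eta
  exact isSelfAdjoint_sum _ (fun i _ => isSelfAdjoint_real_smul
    (isSelfAdjoint_real_smul (F.E_sa hy i) _) _)

theorem eta_inQ (y0 : A) (ζ : ι → Bool) (a : κ) : F.InQ (eta F L y0 ζ a) := by
  unfold eta
  exact PauliSys.InQ.sum F _ _ (fun i _ => PauliSys.InQ.smul F _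
    (PauliSys.InQ.smul F _ (F.E_inQ _)))

theorem gma_sa (hy : IsSelfAdjoint y0) (σ : ℝ) (ζ : ι → Bool) (a : κ) :
    IsSelfAdjoint (gma F L y0 σ ζ a) :=
  gam_sa (isSelfAdjoint_real_smul (eta_sa F L hy ζ a) σ)

theorem norm_gma_le (hy : IsSelfAdjoint y0) (σ : ℝ) (ζ : ι → Bool) (a : κ) :
    ‖gma F L y0 σ ζ a‖ ≤ 1 :=
  norm_gam_le (isSelfAdjoint_real_smul (eta_sa F L hy ζ a) σ)

theorem gma_inQ (hy : IsSelfAdjoint y0) (σ : ℝ) (ζ : ι → Bool) (a : κ) :
    F.InQ (gma F L y0 σ ζ a) := by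
  intro i
  refine commute_gam (isSelfAdjoint_real_smul (eta_sa F L hy ζ a) σ) ?_
  exact PauliSys.InQ.smul F _ (eta_inQ F L y0 ζ a) i

theorem xs_sa (hX : IsSelfAdjoint X) (t : ℝ) (a : κ) (l : ℕ) : IsSelfAdjoint (xs F L X t a l) :=
  isSelfAdjoint_real_smul (xh_sa F hX _) t

theorem xs_inQ (X : A) (t : ℝ) (a : κ) (l : ℕ) : F.InQ (xs F L X t a l) :=
  PauliSys.InQ.smul F _ (xh_inQ F X _)

theorem W_inQ (hX : IsSelfAdjoint X) (t : ℝ) (a : κ) (l : ℕ) :
    F.InQ (pr (fun j => cay (xs F L X t a j)) l) :=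
  pr_inQ F _ _ (fun j _ => PauliSys.InQ.cay F (xs_sa F L hX t a j) (xs_inQ F L X t a j))

theorem norm_Va_le (hX : IsSelfAdjoint X) (t : ℝ) (a : κ) : ‖Va F L X t a‖ ≤ 1 :=
  norm_pr_le _ (fun j => norm_cay_le (xs_sa F L hX t a j)) d norm_one_le'

theorem star_Va_mul (hX : IsSelfAdjoint X) (t : ℝ) (a : κ) :
    star (Va F L X t a) * Va F L X t a = 1 :=
  star_pr_mul _ _ (fun j _ => star_cay_mul (xs_sa F L hX t a j))

theorem be_sa (a : κ) (x : ZMod 4) : IsSelfAdjoint (be F L X y0 t s σ ζ a x) :=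
  beta_sa _ _ _ _

theorem beta_inQ {V γ : A} (hV : F.InQ V) (hγ : F.InQ γ) (s : ℝ) (x : ZMod 4) :
    F.InQ (beta s V γ x) := by
  unfold beta
  have h1 : F.InQ ((I * ph x) • (V * γ)) := PauliSys.InQ.smul F _ (PauliSys.InQ.mul F hV hγ)
  exact PauliSys.InQ.smul F _ (PauliSys.InQ.add F h1 (PauliSys.InQ.star F h1))

theorem be_inQ (hX : IsSelfAdjoint X) (hy : IsSelfAdjoint y0) (a : κ) (x : ZMod 4) :
    F.InQ (be F L X y0 t s σ ζ a x) :=
  beta_inQ F (W_inQ F L hX t a d) (gma_inQ F L hy σ ζ a) s x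

theorem norm_be_le (hX : IsSelfAdjoint X) (hy : IsSelfAdjoint y0) (hs : 0 ≤ s) (a : κ)
    (x : ZMod 4) : ‖be F L X y0 t s σ ζ a x‖ ≤ s :=
  norm_beta_le hs (norm_Va_le F L hX t a) (norm_gma_le F L hy σ ζ a) x

theorem nn_sa (a : κ) (l : ℕ) (x : ZMod 4) : IsSelfAdjoint (nn F L X y0 t s σ ζ a l x) :=
  isSelfAdjoint_real_smul (conjW_sa _ _ (be_sa F L a x)) _

theorem conjW_inQ (x : ℕ → A) (l : ℕ) (hx : F.InQ (pr (fun j => cay (x j)) l)) {b : A}
    (hb : F.InQ b) : F.InQ (conjW x l b) :=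
  PauliSys.InQ.mul F (PauliSys.InQ.mul F (PauliSys.InQ.star F hx) hb) hx

theorem nn_inQ (hX : IsSelfAdjoint X) (hy : IsSelfAdjoint y0) (a : κ) (l : ℕ) (x : ZMod 4) :
    F.InQ (nn F L X y0 t s σ ζ a l x) :=
  PauliSys.InQ.smul F _ (conjW_inQ F _ _ (W_inQ F L hX t a l) (be_inQ F L hX hy a x))

theorem sum_nn (a : κ) (l : ℕ) : ∑ x, nn F L X y0 t s σ ζ a l x = 0 := by
  unfold nn be
  rw [← Finset.smul_sum, ← conjW_sum, sum_beta, conjW_zero, smul_zero]

theorem norm_nn_le (hX : IsSelfAdjoint X) (hy : IsSelfAdjoint y0) (hs : 0 ≤ s) (ht : 0 < t)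
    (a : κ) (l : ℕ) (x : ZMod 4) : ‖nn F L X y0 t s σ ζ a l x‖ ≤ s / (2 * t * d) := by
  unfold nn
  rw [norm_smul, Complex.norm_real, Real.norm_of_nonneg (by positivity)]
  calc 1 / (2 * t * d) * ‖conjW (xs F L X t a) l (be F L X y0 t s σ ζ a x)‖
      ≤ 1 / (2 * t * d) * s := by
        refine mul_le_mul_of_nonneg_left ?_ (by positivity)
        exact (norm_conjW_le _ (fun l => xs_sa F L hX t a l) l _).trans (norm_be_le F L hX hy hs a x)
    _ = s / (2 * t * d) := by ring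

theorem t_nn (ht : 0 < t) (a : κ) (l : ℕ) (x : ZMod 4) :
    (t : ℂ) • nn F L X y0 t s σ ζ a l x =
      ((1 / (2 * d) : ℝ) : ℂ) • conjW (xs F L X t a) l (be F L X y0 t s σ ζ a x) := by
  unfold nn
  rw [smul_smul]
  congr 1
  rw [← Complex.ofReal_mul]
  congr 1
  field_simp

theorem Zz_sa (hX : IsSelfAdjoint X) (hy : IsSelfAdjoint y0) (ω : κ → ZMod 4) :
    IsSelfAdjoint (Zz F L X y0 t s σ ζ ω) :=
  modi_sa F L hX _ (fun a l => nn_inQ F L hX hy a l _) (fun a l => nn_sa F L a l _)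

/-- coordinates of the new element along a constraint -/
theorem t_xh_Zz (hX : IsSelfAdjoint X) (hy : IsSelfAdjoint y0) (ω : κ → ZMod 4)
    (a : κ) (l : ℕ) (hl : l < d) :
    (t : ℂ) • xh F (Zz F L X y0 t s σ ζ ω) (L.p l a) =
      (xs F L X t a l + (t : ℂ) • nn F L X y0 t s σ ζ a l (ω a)) +
        ∑ b ∈ Bset L a l, (t : ℂ) • nn F L X y0 t s σ ζ b l (ω b) := by
  unfold Zz
  rw [xh_modi F L X _ (fun a l => nn_inQ F L hX hy a l _), coll_eq L _ a l hl, smul_add, smul_add,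
    Finset.smul_sum, ← add_assoc]
  rfl

/-- foreign noise -/
theorem avg_foreign (hX : IsSelfAdjoint X) (hy : IsSelfAdjoint y0) (hs : 0 ≤ s) (ht : 0 < t)
    (hd : 1 ≤ d) (a : κ) :
    avg (fun ω : κ → ZMod 4 => T.nrm2 (Pw F L X t (Zz F L X y0 t s σ ζ ω) a -
      pr (fun l => cay (xs F L X t a l + ((1 / (2 * d) : ℝ) : ℂ) •
        conjW (xs F L X t a) l (be F L X y0 t s σ ζ a (ω a)))) d) ^ 2) ≤ s ^ 2 * (k / d) := by
  have hd0 : (0 : ℝ) < d := by exact_mod_cast hd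
  have e1 : ∀ ω : κ → ZMod 4, Pw F L X t (Zz F L X y0 t s σ ζ ω) a =
      pr (fun l => cay ((xs F L X t a l + (t : ℂ) • nn F L X y0 t s σ ζ a l (ω a)) +
        ∑ b ∈ Bset L a l, (fun l b x => (t : ℂ) • nn F L X y0 t s σ ζ b l x) l b (ω b))) d := by
    intro ω
    unfold Pw
    refine pr_congr (fun l hl => ?_)
    rw [t_xh_Zz F L hX hy ω a l hl]
  have e2 : ∀ ω : κ → ZMod 4, pr (fun l => cay (xs F L X t a l + ((1 / (2 * d) : ℝ) : ℂ) •
        conjW (xs F L X t a) l (be F L X y0 t s σ ζ a (ω a)))) d =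
      pr (fun l => cay ((fun l (ω : κ → ZMod 4) =>
        xs F L X t a l + (t : ℂ) • nn F L X y0 t s σ ζ a l (ω a)) l ω)) d := by
    intro ω
    refine pr_congr (fun l _ => ?_)
    simp only [t_nn F L ht]
  simp_rw [e1, e2]
  refine (noise T d (Bset L a) (Bset_disjoint L a)
    (fun l (ω : κ → ZMod 4) => xs F L X t a l + (t : ℂ) • nn F L X y0 t s σ ζ a l (ω a))
    (fun l ω => (xs_sa F L hX t a l).add (isSelfAdjoint_real_smul (nn_sa F L a l _) t)) ?_
    (fun l b x => (t : ℂ) • nn F L X y0 t s σ ζ b l x)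
    (fun l b x => isSelfAdjoint_real_smul (nn_sa F L b l x) t) ?_).trans ?_
  · intro l _ j _ b hb ω x
    have hba : b ≠ a := ((mem_Bset L).mp hb).1
    simp only [Function.update_of_ne hba.symm]
  · intro l _ b _
    rw [← Finset.smul_sum, sum_nn, smul_zero]
  · have h1 : ∀ l b x, T.nrm2 ((t : ℂ) • nn F L X y0 t s σ ζ b l x) ^ 2 ≤ (s / (2 * d)) ^ 2 := by
      intro l b x
      have h2 : T.nrm2 ((t : ℂ) • nn F L X y0 t s σ ζ b l x) ≤ s / (2 * d) := by
        refine (T.nrm2_le_norm _).trans ?_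
        rw [norm_smul, Complex.norm_real, Real.norm_of_nonneg ht.le]
        calc t * ‖nn F L X y0 t s σ ζ b l x‖ ≤ t * (s / (2 * t * d)) :=
              mul_le_mul_of_nonneg_left (norm_nn_le F L hX hy hs ht b l x) ht.le
          _ = s / (2 * d) := by field_simp
      have h3 := T.nrm2_nonneg ((t : ℂ) • nn F L X y0 t s σ ζ b l x)
      gcongr
    calc 4 * ∑ l ∈ Finset.range d, ∑ b ∈ Bset L a l, (1 / 4) *
          ∑ x, T.nrm2 ((t : ℂ) • nn F L X y0 t s σ ζ b l x) ^ 2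
        ≤ 4 * ∑ l ∈ Finset.range d, ∑ b ∈ Bset L a l, (1 / 4) *
          ∑ _x : ZMod 4, (s / (2 * d)) ^ 2 := by
          refine mul_le_mul_of_nonneg_left (Finset.sum_le_sum (fun l _ =>
            Finset.sum_le_sum (fun b _ => mul_le_mul_of_nonneg_left
              (Finset.sum_le_sum (fun x _ => h1 l b x)) (by norm_num)))) (by norm_num)
      _ = 4 * ∑ l ∈ Finset.range d, ((Bset L a l).card : ℝ) * (s / (2 * d)) ^ 2 := by
          congr 1
          refine Finset.sum_congr rfl (fun l _ => ?_)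
          rw [Finset.sum_const, Finset.sum_const, Finset.card_univ, ZMod.card]
          simp only [nsmul_eq_mul]
          push_cast
          ring
      _ ≤ 4 * ∑ l ∈ Finset.range d, (k : ℝ) * (s / (2 * d)) ^ 2 := by
          refine mul_le_mul_of_nonneg_left (Finset.sum_le_sum (fun l hl =>
            mul_le_mul_of_nonneg_right ?_ (by positivity))) (by norm_num)
          exact_mod_cast Bset_card_le L a l (Finset.mem_range.mp hl)
      _ = s ^ 2 * (k / d) := by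
          rw [Finset.sum_const, Finset.card_range, nsmul_eq_mul]
          field_simp
          ring

/-- (F4) the gain of one constraint -/
theorem gain_one (hX : IsSelfAdjoint X) (hy : IsSelfAdjoint y0) (hs : 0 < s) (ht : 0 < t)
    (hd : 1 ≤ d) (M : ℝ) (hM : 0 < M) (hMd : (k : ℝ) / d ≤ (1 / M) ^ 2) (a : κ) :
    s / 2 * (T.τ (gma F L y0 σ ζ a * eta F L y0 ζ a)).re -
      (s / M + (3 * (s / d) * ∑ l ∈ Finset.range d, T.nrm2 (xs F L X t a l) + 2 * s ^ 2)) *
        T.nrm2 (eta F L y0 ζ a) ≤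
    avg (fun ω : κ → ZMod 4 =>
      (T.τ ((ph (ω a) • Pw F L X t (Zz F L X y0 t s σ ζ ω) a) * eta F L y0 ζ a)).re) := by
  set η := eta F L y0 ζ a with hη
  set own : ZMod 4 → A := fun x => pr (fun l => cay (xs F L X t a l + ((1 / (2 * d) : ℝ) : ℂ) •
        conjW (xs F L X t a) l (be F L X y0 t s σ ζ a x))) d with hown
  set own' : ZMod 4 → A := fun x => (1 + I • be F L X y0 t s σ ζ a x) * Va F L X t a with hown'
  set K := 3 * (s / d) * ∑ l ∈ Finset.range d, T.nrm2 (xs F L X t a l) + 2 * s ^ 2 with hK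
  have hη0 := T.nrm2_nonneg η
  -- pointwise
  have h1 : ∀ ω : κ → ZMod 4,
      (T.τ ((ph (ω a) • own' (ω a)) * η)).re -
        (T.nrm2 (Pw F L X t (Zz F L X y0 t s σ ζ ω) a - own (ω a)) + K) * T.nrm2 η ≤
      (T.τ ((ph (ω a) • Pw F L X t (Zz F L X y0 t s σ ζ ω) a) * η)).re := by
    intro ω
    set P := Pw F L X t (Zz F L X y0 t s σ ζ ω) a
    have e : (ph (ω a) • P) * η = (ph (ω a) • own' (ω a)) * η +
        ((ph (ω a) • (P - own (ω a))) * η + (ph (ω a) • (own (ω a) - own' (ω a))) * η) := by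
      rw [← add_mul, ← add_mul, ← smul_add, ← smul_add]
      congr 2
      abel
    have b1 : ‖T.τ ((ph (ω a) • (P - own (ω a))) * η)‖ ≤ T.nrm2 (P - own (ω a)) * T.nrm2 η := by
      refine (T.norm_tau_mul_le _ _).trans ?_
      rw [T.nrm2_smul, norm_ph, one_mul]
    have b2 : ‖T.τ ((ph (ω a) • (own (ω a) - own' (ω a))) * η)‖ ≤ K * T.nrm2 η := by
      refine (T.norm_tau_mul_le _ _).trans ?_
      rw [T.nrm2_smul, norm_ph, one_mul]
      refine mul_le_mul_of_nonneg_right ?_ hη0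
      exact own_pr' T d hd _ (fun l => xs_sa F L hX t a l) _ (be_sa F L a _) s
        (norm_be_le F L hX hy hs.le a _)
    have c1 := (Complex.abs_re_le_norm _).trans b1
    have c2 := (Complex.abs_re_le_norm _).trans b2
    have d1 := (abs_le.mp c1).1
    have d2 := (abs_le.mp c2).1
    rw [e, map_add, map_add, Complex.add_re, Complex.add_re]
    linarith
  refine le_trans ?_ (avg_mono h1)
  rw [avg_sub, avg_mul_const, avg_add, avg_const]
  have h2 : avg (fun ω : κ → ZMod 4 => (T.τ ((ph (ω a) • own' (ω a)) * η)).re) =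
      s / 2 * (T.τ (gma F L y0 σ ζ a * η)).re := by
    rw [avg_single a (fun x => (T.τ ((ph x • own' x) * η)).re)]
    exact own_gain T s η (star_Va_mul F L hX t a) (gma_sa F L hy σ ζ a)
  rw [h2]
  have h3 : avg (fun ω : κ → ZMod 4 =>
      T.nrm2 (Pw F L X t (Zz F L X y0 t s σ ζ ω) a - own (ω a))) ≤ s / M := by
    refine avg_le_of_sq (by positivity) ?_
    refine (avg_foreign T F L hX hy hs.le ht hd a).trans ?_
    calc s ^ 2 * (k / d) ≤ s ^ 2 * (1 / M) ^ 2 := mul_le_mul_of_nonneg_left hMd (by positivity)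
      _ = (s / M) ^ 2 := by ring
  have h4 := mul_le_mul_of_nonneg_right (add_le_add_left h3 K) hη0
  linarith

end Crest.Agent.R95.Cor
end

-- ▼ part R95/Core
section

/-!
# R95 Core (helper795): the core lemma.
-/

set_option autoImplicit false
set_option linter.unusedSectionVars false

namespace Crest.Agent.R95.Cor

open Complex

variable {A : Type*} [CStarAlgebra A] (T : TracialState A)
variable {ι κ : Type} [Fintype ι] [DecidableEq ι] [Fintype κ] [DecidableEq κ] (F : PauliSys A ι)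
  {d k : ℕ} (L : Lines ι κ d k)

variable {X y0 : A} {t s σ : ℝ} {ζ : ι → Bool}

theorem gain_zeta (hy : IsSelfAdjoint y0) {R : ℝ} (hR : ‖y0‖ ≤ R) (hσ : 0 ≤ σ) (a : κ) :
    σ * T.nrm2 y0 ^ 2 - 3 * σ ^ 3 * R ^ 4 ≤
      avg (fun ζ : ι → Bool => (T.τ (gma F L y0 σ ζ a * eta F L y0 ζ a)).re) := by
  have hw : ∀ i, IsSelfAdjoint ((F.c i (L.ai a) : ℂ) • F.E (F.f i * y0)) :=
    fun i => isSelfAdjoint_real_smul (F.E_sa hy i) _
  have h1 := T.avg_gam_corr (fun i => (F.c i (L.ai a) : ℂ) • F.E (F.f i * y0)) hw hσ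
  have hc : ∀ i, F.c i (L.ai a) * F.c i (L.ai a) = 1 := fun i => F.c_mul_self i _
  have e1 : ∑ i, T.nrm2 ((F.c i (L.ai a) : ℂ) • F.E (F.f i * y0)) ^ 2 = T.nrm2 y0 ^ 2 := by
    rw [F.nrm2_sq_eq_sum T y0]
    refine Finset.sum_congr rfl (fun i _ => ?_)
    rw [T.nrm2_smul, mul_pow, Complex.norm_real, Real.norm_eq_abs, sq_abs, sq, hc i, one_mul]
  have e2 : ∑ i, ((F.c i (L.ai a) : ℂ) • F.E (F.f i * y0)) *
      ((F.c i (L.ai a) : ℂ) • F.E (F.f i * y0)) = F.E (y0 * y0) := by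
    rw [← F.sum_sq hy]
    refine Finset.sum_congr rfl (fun i _ => ?_)
    rw [smul_mul_smul_comm, ← Complex.ofReal_mul, hc i, Complex.ofReal_one, one_smul]
  simp only [e1, e2] at h1
  refine le_trans ?_ h1
  have h2 : (T.τ (F.E (y0 * y0) ^ 2)).re ≤ R ^ 4 := by
    have h3 := (Complex.re_le_norm _).trans (T.norm_tau_le (F.E (y0 * y0) ^ 2))
    refine h3.trans ?_
    have hR0 : 0 ≤ R := (norm_nonneg _).trans hR
    have h4 : ‖F.E (y0 * y0)‖ ≤ R ^ 2 := by
      refine (F.norm_E_le _).trans ((norm_mul_le _ _).trans ?_)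
      rw [sq]
      exact mul_le_mul hR hR (norm_nonneg _) hR0
    calc ‖F.E (y0 * y0) ^ 2‖ = ‖F.E (y0 * y0) * F.E (y0 * y0)‖ := by rw [sq]
      _ ≤ ‖F.E (y0 * y0)‖ * ‖F.E (y0 * y0)‖ := norm_mul_le _ _
      _ ≤ R ^ 2 * R ^ 2 := mul_le_mul h4 h4 (norm_nonneg _) (by positivity)
      _ = R ^ 4 := by ring
  have h5 : 0 ≤ 3 * σ ^ 3 := by positivity
  nlinarith [mul_le_mul_of_nonneg_left h2 h5]

theorem avg_eta (y0 : A) {R : ℝ} (hR : T.nrm2 y0 ≤ R) (hR0 : 0 < R) (a : κ) :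
    avg (fun ζ : ι → Bool => T.nrm2 (eta F L y0 ζ a)) ≤ R := by
  refine avg_le_of_sq hR0 ?_
  have h1 := T.avg_nrm2_signs (fun i => (F.c i (L.ai a) : ℂ) • F.E (F.f i * y0))
  have hc : ∀ i, F.c i (L.ai a) * F.c i (L.ai a) = 1 := fun i => F.c_mul_self i _
  have e1 : ∑ i, T.nrm2 ((F.c i (L.ai a) : ℂ) • F.E (F.f i * y0)) ^ 2 = T.nrm2 y0 ^ 2 := by
    rw [F.nrm2_sq_eq_sum T y0]
    refine Finset.sum_congr rfl (fun i _ => ?_)
    rw [T.nrm2_smul, mul_pow, Complex.norm_real, Real.norm_eq_abs, sq_abs, sq, hc i, one_mul]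
  simp only [e1] at h1
  unfold eta
  rw [h1]
  have := T.nrm2_nonneg y0
  gcongr

/-- counting incidences -/
theorem sum_lines_le (h : ι → ℝ) (hh : ∀ i, 0 ≤ h i) :
    ∑ a : κ, ∑ l ∈ Finset.range d, h (L.p l a) ≤ k * ∑ i, h i := by
  have e : ∑ a : κ, ∑ l ∈ Finset.range d, h (L.p l a) =
      ∑ i, ∑ l ∈ Finset.range d, ∑ a : κ, if L.p l a = i then h i else 0 := by
    symm
    rw [Finset.sum_comm]
    rw [Finset.sum_comm (s := (Finset.univ : Finset κ))]
    refine Finset.sum_congr rfl (fun l _ => ?_)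
    rw [Finset.sum_comm]
    refine Finset.sum_congr rfl (fun a _ => ?_)
    simp
  rw [e, Finset.mul_sum]
  refine Finset.sum_le_sum (fun i _ => ?_)
  by_cases hex : ∃ l ∈ Finset.range d, ∃ a : κ, L.p l a = i
  · obtain ⟨l, hl, a, hla⟩ := hex
    rw [Finset.sum_eq_single_of_mem l hl]
    · rw [← Finset.sum_filter, Finset.sum_const, nsmul_eq_mul]
      refine mul_le_mul_of_nonneg_right ?_ (hh i)
      have := L.deg l (Finset.mem_range.mp hl) i (Finset.univ.filter (fun a => L.p l a = i))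
        (fun a ha => (Finset.mem_filter.mp ha).2)
      exact_mod_cast this
    · intro l' hl' hne
      refine Finset.sum_eq_zero (fun a' _ => if_neg (fun h' => hne ?_))
      exact L.level l' (Finset.mem_range.mp hl') l (Finset.mem_range.mp hl) a' a
        (h'.trans hla.symm)
  · push Not at hex
    have : ∑ l ∈ Finset.range d, ∑ a : κ, (if L.p l a = i then h i else 0) = 0 :=
      Finset.sum_eq_zero (fun l hl => Finset.sum_eq_zero (fun a _ => if_neg (hex l hl a)))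
    rw [this]
    exact mul_nonneg (by positivity) (hh i)

theorem sum_xs_le (X : A) (ht : 0 < t) (m : ℕ) (hd : d = m * k)
    (hN : Fintype.card ι ≤ 2 * m * Fintype.card κ) :
    ∑ a : κ, ∑ l ∈ Finset.range d, T.nrm2 (xs F L X t a l) ≤
      t * (Fintype.card κ * d * (1 + T.nrm2 X ^ 2)) := by
  have h1 : ∀ a l, T.nrm2 (xs F L X t a l) = t * T.nrm2 (xh F X (L.p l a)) := by
    intro a l
    unfold xs
    rw [T.nrm2_smul, Complex.norm_real, Real.norm_of_nonneg ht.le]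
  simp_rw [h1, ← Finset.mul_sum]
  refine mul_le_mul_of_nonneg_left ?_ ht.le
  have hx : ∀ i, T.nrm2 (xh F X i) ≤ 1 / 2 + (1 / 2) * T.nrm2 (xh F X i) ^ 2 := by
    intro i
    nlinarith [sq_nonneg (T.nrm2 (xh F X i) - 1)]
  have hN0 : (0 : ℝ) < Fintype.card ι := by exact_mod_cast card_pos F
  have e2 : ∑ i, T.nrm2 (xh F X i) ^ 2 = Fintype.card ι * T.nrm2 X ^ 2 := by
    rw [F.nrm2_sq_eq_sum T X, Finset.mul_sum]
    refine Finset.sum_congr rfl (fun i _ => ?_)
    unfold xh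
    rw [T.nrm2_smul, mul_pow, Complex.norm_real, Real.norm_of_nonneg (Real.sqrt_nonneg _),
      Real.sq_sqrt hN0.le]
  calc ∑ a : κ, ∑ l ∈ Finset.range d, T.nrm2 (xh F X (L.p l a))
      ≤ ∑ a : κ, ∑ l ∈ Finset.range d, (1 / 2 + (1 / 2) * T.nrm2 (xh F X (L.p l a)) ^ 2) :=
        Finset.sum_le_sum (fun a _ => Finset.sum_le_sum (fun l _ => hx _))
    _ = (1 / 2) * (Fintype.card κ * d) +
        (1 / 2) * ∑ a : κ, ∑ l ∈ Finset.range d, T.nrm2 (xh F X (L.p l a)) ^ 2 := by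
        simp_rw [Finset.sum_add_distrib, ← Finset.mul_sum]
        simp only [Finset.sum_const, Finset.card_univ, Finset.card_range, nsmul_eq_mul]
        ring
    _ ≤ (1 / 2) * (Fintype.card κ * d) +
        (1 / 2) * (k * ∑ i, T.nrm2 (xh F X i) ^ 2) := by
        have := sum_lines_le L (fun i => T.nrm2 (xh F X i) ^ 2) (fun i => by positivity)
        linarith
    _ = (1 / 2) * (Fintype.card κ * d) +
        (1 / 2) * ((k * Fintype.card ι) * T.nrm2 X ^ 2) := by rw [e2]; ring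
    _ ≤ (1 / 2) * (Fintype.card κ * d) +
        (1 / 2) * ((2 * (Fintype.card κ * d)) * T.nrm2 X ^ 2) := by
        have h3 : (k : ℝ) * Fintype.card ι ≤ 2 * (Fintype.card κ * d) := by
          have h4 : k * Fintype.card ι ≤ k * (2 * m * Fintype.card κ) := Nat.mul_le_mul_left _ hN
          have h5 : k * (2 * m * Fintype.card κ) = 2 * (Fintype.card κ * d) := by
            rw [hd]; ring
          rw [h5] at h4
          exact_mod_cast h4
        have h6 : 0 ≤ T.nrm2 X ^ 2 := by positivity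
        have := mul_le_mul_of_nonneg_right h3 h6
        linarith
    _ ≤ Fintype.card κ * d * (1 + T.nrm2 X ^ 2) := by
        have : (0 : ℝ) ≤ Fintype.card κ * d := by positivity
        nlinarith

/-- the dual unitaries in the constraints -/
noncomputable def Dd (X y0 : A) (t s σ : ℝ) (ζ : ι → Bool) (ω : κ → ZMod 4) (a : κ) : A :=
  ph (ω a) • Pw F L X t (Zz F L X y0 t s σ ζ ω) a

theorem Pw_inQ {Z : A} (hZ : IsSelfAdjoint Z) (a : κ) : F.InQ (Pw F L X t Z a) :=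
  pr_inQ F _ _ (fun _ _ => PauliSys.InQ.cay F (isSelfAdjoint_real_smul (xh_sa F hZ _) t)
    (PauliSys.InQ.smul F _ (xh_inQ F Z _)))

theorem norm_Pw_le {Z : A} (hZ : IsSelfAdjoint Z) (a : κ) : ‖Pw F L X t Z a‖ ≤ 1 :=
  norm_pr_le _ (fun _ => norm_cay_le (isSelfAdjoint_real_smul (xh_sa F hZ _) t)) d norm_one_le'

theorem Dd_inQ (hX : IsSelfAdjoint X) (hy : IsSelfAdjoint y0) (ω : κ → ZMod 4) (a : κ) :
    F.InQ (Dd F L X y0 t s σ ζ ω a) :=
  PauliSys.InQ.smul F _ (Pw_inQ F L (Zz_sa F L hX hy ω) a)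

theorem nrm2_Dd_le (hX : IsSelfAdjoint X) (hy : IsSelfAdjoint y0) (ω : κ → ZMod 4) (a : κ) :
    T.nrm2 (Dd F L X y0 t s σ ζ ω a) ≤ 1 := by
  unfold Dd
  rw [T.nrm2_smul, norm_ph, one_mul]
  exact (T.nrm2_le_norm _).trans (norm_Pw_le F L (Zz_sa F L hX hy ω) a)

theorem nrm2_Y_le (hX : IsSelfAdjoint X) (hy : IsSelfAdjoint y0)
    (hκ : Fintype.card κ ≤ Fintype.card ι) (ω : κ → ZMod 4) :
    T.nrm2 (outY F L ζ (Dd F L X y0 t s σ ζ ω)) ≤ 1 := by
  have h1 := nrm2_outY_sq T F L ζ _ (Dd_inQ F L (t := t) (s := s) (σ := σ) (ζ := ζ) hX hy ω)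
  have hN0 : (0 : ℝ) < Fintype.card ι := by exact_mod_cast card_pos F
  have h2 : T.nrm2 (outY F L ζ (Dd F L X y0 t s σ ζ ω)) ^ 2 ≤ 1 := by
    rw [h1, inv_mul_le_iff₀ hN0, mul_one]
    calc ∑ a, T.nrm2 (Dd F L X y0 t s σ ζ ω a) ^ 2 ≤ ∑ _a : κ, (1 : ℝ) := by
          refine Finset.sum_le_sum (fun a _ => ?_)
          have h3 := nrm2_Dd_le T F L (t := t) (s := s) (σ := σ) (ζ := ζ) hX hy ω a
          have h4 := T.nrm2_nonneg (Dd F L X y0 t s σ ζ ω a)
          nlinarith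
      _ = Fintype.card κ := by simp
      _ ≤ Fintype.card ι := by exact_mod_cast hκ
  have h5 := T.nrm2_nonneg (outY F L ζ (Dd F L X y0 t s σ ζ ω))
  nlinarith

theorem main_avg (hX : IsSelfAdjoint X) (hy : IsSelfAdjoint y0) (hs : 0 < s) (ht : 0 < t)
    (hσ : 0 ≤ σ) (m : ℕ) (hd1 : 1 ≤ d) (hd : d = m * k) (M : ℝ) (hM : 0 < M)
    (hMd : (k : ℝ) / d ≤ (1 / M) ^ 2) (hκ : Fintype.card κ ≤ Fintype.card ι)
    (hN : Fintype.card ι ≤ 2 * m * Fintype.card κ) {R : ℝ} (hR0 : 0 < R) (hR : ‖y0‖ ≤ R)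
    (lam : ℝ) (hlam : 0 ≤ lam) :
    (Fintype.card κ / Fintype.card ι) * (s / 2 * (σ * T.nrm2 y0 ^ 2 - 3 * σ ^ 3 * R ^ 4) -
      (s / M + 2 * s ^ 2 + 3 * s * t * (1 + T.nrm2 X ^ 2)) * R) -
        lam * (d * (s / (2 * t * d)) ^ 2) ≤
    avg (fun ζ : ι → Bool => avg (fun ω : κ → ZMod 4 =>
      (T.τ (outY F L ζ (Dd F L X y0 t s σ ζ ω) * y0)).re -
        lam * T.nrm2 (Zz F L X y0 t s σ ζ ω - X) ^ 2)) := by
  have hN0 : (0 : ℝ) < Fintype.card ι := by exact_mod_cast card_pos F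
  have hd0 : (0 : ℝ) < d := by exact_mod_cast hd1
  set K : κ → ℝ := fun a =>
    s / M + (3 * (s / d) * ∑ l ∈ Finset.range d, T.nrm2 (xs F L X t a l) + 2 * s ^ 2) with hK
  -- fixed ζ
  have h1 : ∀ ζ : ι → Bool,
      (Fintype.card ι : ℝ)⁻¹ * ∑ a : κ,
        (s / 2 * (T.τ (gma F L y0 σ ζ a * eta F L y0 ζ a)).re - K a * T.nrm2 (eta F L y0 ζ a)) -
        lam * (d * (s / (2 * t * d)) ^ 2) ≤
      avg (fun ω : κ → ZMod 4 =>
        (T.τ (outY F L ζ (Dd F L X y0 t s σ ζ ω) * y0)).re -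
          lam * T.nrm2 (Zz F L X y0 t s σ ζ ω - X) ^ 2) := by
    intro ζ
    rw [avg_sub, avg_const_mul]
    refine sub_le_sub ?_ (mul_le_mul_of_nonneg_left ?_ hlam)
    · have e : ∀ ω : κ → ZMod 4, (T.τ (outY F L ζ (Dd F L X y0 t s σ ζ ω) * y0)).re =
          (Fintype.card ι : ℝ)⁻¹ * ∑ a : κ,
            (T.τ (Dd F L X y0 t s σ ζ ω a * eta F L y0 ζ a)).re :=
        fun ω => tau_outY T F L ζ _ (Dd_inQ F L hX hy ω) hy
      simp_rw [e]
      rw [avg_const_mul, avg_sum]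
      refine mul_le_mul_of_nonneg_left (Finset.sum_le_sum (fun a _ => ?_)) (by positivity)
      exact gain_one T F L hX hy hs ht hd1 M hM hMd a
    · refine avg_dist T F L X (nn F L X y0 t s σ ζ) (fun a l x => nn_inQ F L hX hy a l x)
        (fun a l => sum_nn F L a l) _ (by positivity) (fun a l x => ?_) hκ
      have h2 : T.nrm2 (nn F L X y0 t s σ ζ a l x) ≤ s / (2 * t * d) :=
        (T.nrm2_le_norm _).trans (norm_nn_le F L hX hy hs.le ht a l x)
      have h3 := T.nrm2_nonneg (nn F L X y0 t s σ ζ a l x)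
      gcongr
  refine le_trans ?_ (avg_mono h1)
  rw [avg_sub, avg_const, avg_const_mul, avg_sum]
  refine sub_le_sub_right ?_ _
  -- each constraint
  have hK0 : ∀ a, 0 ≤ K a := by
    intro a
    have : 0 ≤ ∑ l ∈ Finset.range d, T.nrm2 (xs F L X t a l) :=
      Finset.sum_nonneg (fun l _ => T.nrm2_nonneg _)
    positivity
  have hy2 : T.nrm2 y0 ≤ R := (T.nrm2_le_norm _).trans hR
  have h2 : ∀ a : κ, s / 2 * (σ * T.nrm2 y0 ^ 2 - 3 * σ ^ 3 * R ^ 4) - K a * R ≤
      avg (fun ζ : ι → Bool => s / 2 * (T.τ (gma F L y0 σ ζ a * eta F L y0 ζ a)).re -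
        K a * T.nrm2 (eta F L y0 ζ a)) := by
    intro a
    rw [avg_sub, avg_const_mul, avg_const_mul]
    refine sub_le_sub (mul_le_mul_of_nonneg_left (gain_zeta T F L hy hR hσ a) (by positivity))
      (mul_le_mul_of_nonneg_left (avg_eta T F L y0 hy2 hR0 a) (hK0 a))
  have h3 : ∑ a : κ, K a ≤
      Fintype.card κ * (s / M + 2 * s ^ 2 + 3 * s * t * (1 + T.nrm2 X ^ 2)) := by
    have h4 := sum_xs_le T F L X ht m hd hN
    have e4 : ∑ a : κ, K a = Fintype.card κ * (s / M + 2 * s ^ 2) +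
        3 * (s / d) * ∑ a : κ, ∑ l ∈ Finset.range d, T.nrm2 (xs F L X t a l) := by
      simp only [hK]
      rw [Finset.sum_add_distrib, Finset.sum_add_distrib, ← Finset.mul_sum]
      simp only [Finset.sum_const, Finset.card_univ, nsmul_eq_mul]
      ring
    rw [e4]
    have h5 : 3 * (s / d) * ∑ a : κ, ∑ l ∈ Finset.range d, T.nrm2 (xs F L X t a l) ≤
        3 * (s / d) * (t * (Fintype.card κ * d * (1 + T.nrm2 X ^ 2))) :=
      mul_le_mul_of_nonneg_left h4 (by positivity)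
    have e5 : 3 * (s / d) * (t * (Fintype.card κ * d * (1 + T.nrm2 X ^ 2))) =
        Fintype.card κ * (3 * s * t * (1 + T.nrm2 X ^ 2)) := by
      field_simp
    rw [e5] at h5
    linarith
  calc (Fintype.card κ / Fintype.card ι) * (s / 2 * (σ * T.nrm2 y0 ^ 2 - 3 * σ ^ 3 * R ^ 4) -
      (s / M + 2 * s ^ 2 + 3 * s * t * (1 + T.nrm2 X ^ 2)) * R)
      = (Fintype.card ι : ℝ)⁻¹ * (Fintype.card κ *
        (s / 2 * (σ * T.nrm2 y0 ^ 2 - 3 * σ ^ 3 * R ^ 4)) -
        (Fintype.card κ * (s / M + 2 * s ^ 2 + 3 * s * t * (1 + T.nrm2 X ^ 2))) * R) := by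
        field_simp
    _ ≤ (Fintype.card ι : ℝ)⁻¹ * (Fintype.card κ *
        (s / 2 * (σ * T.nrm2 y0 ^ 2 - 3 * σ ^ 3 * R ^ 4)) - (∑ a : κ, K a) * R) := by
        refine mul_le_mul_of_nonneg_left ?_ (by positivity)
        have := mul_le_mul_of_nonneg_right h3 hR0.le
        linarith
    _ = (Fintype.card ι : ℝ)⁻¹ * ∑ a : κ,
        (s / 2 * (σ * T.nrm2 y0 ^ 2 - 3 * σ ^ 3 * R ^ 4) - K a * R) := by
        rw [Finset.sum_sub_distrib, Finset.sum_mul, Finset.sum_const, Finset.card_univ,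
          nsmul_eq_mul]
    _ ≤ _ := mul_le_mul_of_nonneg_left (Finset.sum_le_sum (fun a _ => h2 a)) (by positivity)

/-! ### membership -/

theorem xh_mem (S : StarSubalgebra ℂ A) (hF : ∀ i, F.f i ∈ S) {Z : A} (hZ : Z ∈ S) (i : ι) :
    xh F Z i ∈ S :=
  S.smul_mem (F.E_mem hF (mul_mem (hF i) hZ)) _

theorem outY_mem (S : StarSubalgebra ℂ A) (hS : IsClosed (S : Set A)) (hF : ∀ i, F.f i ∈ S)
    (hX : IsSelfAdjoint X) (hy : IsSelfAdjoint y0) (ω : κ → ZMod 4)
    (hZ : Zz F L X y0 t s σ ζ ω ∈ S) : outY F L ζ (Dd F L X y0 t s σ ζ ω) ∈ S := by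
  unfold outY
  refine S.smul_mem (sum_mem (fun a _ => sum_mem (fun i _ => S.smul_mem (mul_mem (hF i) ?_) _))) _
  unfold Dd Pw
  refine S.smul_mem (pr_mem S _ _ (fun l _ => ?_)) _
  exact cay_mem (isSelfAdjoint_real_smul (xh_sa F (Zz_sa F L hX hy ω) _) t) S hS
    (S.smul_mem (xh_mem F S hF hZ _) _)

end Crest.Agent.R95.Cor

namespace Crest.Agent.R95

open Complex Cor

/-- **The core lemma.** -/
theorem core {A : Type*} [CStarAlgebra A] (T : TracialState A) (u v : ℕ → A)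
    (h1 : ∀ j, IsSelfAdjoint (u j) ∧ IsSelfAdjoint (v j) ∧ u j * u j = 1 ∧ v j * v j = 1 ∧
      u j * v j = -(v j * u j))
    (h2 : ∀ j k, j ≠ k → u j * u k = u k * u j ∧ u j * v k = v k * u j ∧ v j * v k = v k * v j)
    (R s0 : ℝ) (hs0 : 0 < s0) :
    ∃ κ : ℝ, 0 < κ ∧ ∀ y0 : A, IsSelfAdjoint y0 → ‖y0‖ ≤ R → s0 ≤ T.nrm2 y0 →
      ∀ X : A, IsSelfAdjoint X → ∀ ε : ℝ, 0 < ε →
        ∃ Z Y : A, IsSelfAdjoint Z ∧ T.nrm2 (Z - X) < ε ∧ T.nrm2 Y ≤ 1 ∧
          κ ≤ (T.τ (Y * y0)).re ∧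
          ∀ S : StarSubalgebra ℂ A, IsClosed (S : Set A) → (∀ j, u j ∈ S ∧ v j ∈ S) → Z ∈ S →
            Y ∈ S := by
  by_cases hR : R < s0
  · refine ⟨1, one_pos, fun y0 _ hy0 hs => ?_⟩
    have := T.nrm2_le_norm y0
    linarith
  push Not at hR
  have hR0 : 0 < R := hs0.trans_le hR
  -- parameters
  obtain ⟨G, hG⟩ : ∃ G : ℝ, G = s0 ^ 3 / (3 * R ^ 2) := ⟨_, rfl⟩
  have hG0 : 0 < G := by rw [hG]; positivity
  obtain ⟨σ, hσ⟩ : ∃ σ : ℝ, σ = s0 / (3 * R ^ 2) := ⟨_, rfl⟩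
  have hσ0 : 0 < σ := by rw [hσ]; positivity
  obtain ⟨s, hs⟩ : ∃ s : ℝ, s = G / (48 * R) := ⟨_, rfl⟩
  have hs' : 0 < s := by rw [hs]; positivity
  obtain ⟨M, hM⟩ := exists_nat_ge (24 * R / G + 1)
  have hM1 : 24 * R / G ≤ (M : ℝ) := by linarith
  have hM0 : (0 : ℝ) < M := by
    have : 0 < 24 * R / G := by positivity
    linarith
  have hMn : 1 ≤ M := by
    have : 0 < M := by exact_mod_cast hM0
    omega
  obtain ⟨κ0, hκ0⟩ : ∃ κ0 : ℝ, κ0 = s * G / (24 * M ^ 2) := ⟨_, rfl⟩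
  have hκ00 : 0 < κ0 := by rw [hκ0]; positivity
  refine ⟨κ0, hκ00, fun y0 hy hyR hys X hX ε hε => ?_⟩
  obtain ⟨t, ht⟩ : ∃ t : ℝ, t = G / (72 * R * (1 + T.nrm2 X ^ 2)) := ⟨_, rfl⟩
  have hX0 : 0 < 1 + T.nrm2 X ^ 2 := by positivity
  have ht0 : 0 < t := by rw [ht]; positivity
  obtain ⟨lam, hlam⟩ : ∃ lam : ℝ, lam = 2 * R / ε ^ 2 := ⟨_, rfl⟩
  have hlam0 : 0 < lam := by rw [hlam]; positivity
  obtain ⟨k, hk⟩ := exists_nat_ge (lam * s ^ 2 / (4 * t ^ 2 * M ^ 2 * κ0) + 1)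
  have hk0 : (0 : ℝ) < k := by
    have : 0 < lam * s ^ 2 / (4 * t ^ 2 * M ^ 2 * κ0) := by positivity
    linarith
  have hkn : 1 ≤ k := by
    have : 0 < k := by exact_mod_cast hk0
    omega
  obtain ⟨ι, _, _, F, hcard, hF⟩ := exists_pauliSys u v h1 h2
    (2 * ((M ^ 2) * k) * (1 + ((M ^ 2) * k) * k))
  obtain ⟨q, hq1, hqk, hNq, ⟨L⟩⟩ := exists_lines (M ^ 2) k (Nat.one_le_pow _ _ hMn) hkn ι hcard
  have hcκ : Fintype.card (Fin q × Fin k) = q * k := by
    rw [Fintype.card_prod, Fintype.card_fin, Fintype.card_fin]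
  have hd1 : 1 ≤ M ^ 2 * k := Nat.mul_pos (Nat.one_le_pow _ _ hMn) hkn
  have hMd : (k : ℝ) / ((M ^ 2 * k : ℕ) : ℝ) ≤ (1 / (M : ℝ)) ^ 2 := by
    refine le_of_eq ?_
    push_cast
    field_simp
  have hmain := main_avg T F L (X := X) (y0 := y0) (t := t) (s := s) (σ := σ) hX hy hs' ht0
    hσ0.le (M ^ 2) hd1 rfl (M : ℝ) hM0 hMd (by rw [hcκ]; exact hqk) (by rw [hcκ]; exact hNq)
    hR0 hyR lam hlam0.le
  have hN0 : (0 : ℝ) < Fintype.card ι := by exact_mod_cast card_pos F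
  -- evaluate the gain
  have g1 : 2 / 3 * G ≤ σ * T.nrm2 y0 ^ 2 - 3 * σ ^ 3 * R ^ 4 := by
    have e1 : 3 * σ ^ 3 * R ^ 4 = G / 3 := by rw [hσ, hG]; field_simp
    have e2 : σ * s0 ^ 2 = G := by rw [hσ, hG]; field_simp
    have e3 : s0 ^ 2 ≤ T.nrm2 y0 ^ 2 := by gcongr
    have e4 := mul_le_mul_of_nonneg_left e3 hσ0.le
    linarith
  have g2 : s / M * R ≤ s * G / 24 := by
    have : 24 * R ≤ M * G := by
      rw [div_le_iff₀ hG0] at hM1; exact hM1
    rw [div_mul_eq_mul_div, div_le_iff₀ hM0]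
    nlinarith [mul_le_mul_of_nonneg_left this hs'.le]
  have g3 : 2 * s ^ 2 * R = s * G / 24 := by
    rw [sq, hs]; field_simp; ring
  have g4 : 3 * s * t * (1 + T.nrm2 X ^ 2) * R = s * G / 24 := by
    rw [ht]; field_simp; ring
  have g5 : s * G / 6 ≤ s / 2 * (σ * T.nrm2 y0 ^ 2 - 3 * σ ^ 3 * R ^ 4) -
      (s / M + 2 * s ^ 2 + 3 * s * t * (1 + T.nrm2 X ^ 2)) * R := by
    have e5 := mul_le_mul_of_nonneg_left g1 (show 0 ≤ s / 2 by positivity)
    have e6 : (s / M + 2 * s ^ 2 + 3 * s * t * (1 + T.nrm2 X ^ 2)) * R =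
      s / M * R + 2 * s ^ 2 * R + 3 * s * t * (1 + T.nrm2 X ^ 2) * R := by ring
    have e7 : 0 < s * G := by positivity
    rw [e6, g3, g4]
    linarith
  have g6 : 1 / (2 * (M : ℝ) ^ 2) ≤
      (Fintype.card (Fin q × Fin k) : ℝ) / Fintype.card ι := by
    rw [div_le_div_iff₀ (by positivity) hN0, one_mul, hcκ]
    have : ((Fintype.card ι : ℕ) : ℝ) ≤ ((2 * M ^ 2 * (q * k) : ℕ) : ℝ) := by exact_mod_cast hNq
    push_cast at this ⊢
    linarith
  have g7 : 2 * κ0 ≤ (Fintype.card (Fin q × Fin k) : ℝ) / Fintype.card ι *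
      (s / 2 * (σ * T.nrm2 y0 ^ 2 - 3 * σ ^ 3 * R ^ 4) -
      (s / M + 2 * s ^ 2 + 3 * s * t * (1 + T.nrm2 X ^ 2)) * R) := by
    calc 2 * κ0 = 1 / (2 * (M : ℝ) ^ 2) * (s * G / 6) := by rw [hκ0]; field_simp; ring
      _ ≤ _ := mul_le_mul g6 g5 (by positivity) (by positivity)
  have g8 : lam * (((M ^ 2 * k : ℕ) : ℝ) * (s / (2 * t * ((M ^ 2 * k : ℕ) : ℝ))) ^ 2) ≤ κ0 := by
    have e8 : lam * s ^ 2 / (4 * t ^ 2 * M ^ 2 * κ0) ≤ k := by linarith
    rw [div_le_iff₀ (by positivity)] at e8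
    have e9 : lam * (((M ^ 2 * k : ℕ) : ℝ) * (s / (2 * t * ((M ^ 2 * k : ℕ) : ℝ))) ^ 2) =
        lam * s ^ 2 / (4 * t ^ 2 * (M ^ 2 * k)) := by
      push_cast
      field_simp
      ring
    rw [e9, div_le_iff₀ (by positivity)]
    linarith
  have g9 : κ0 ≤ avg (fun ζ : ι → Bool => avg (fun ω : Fin q × Fin k → ZMod 4 =>
      (T.τ (outY F L ζ (Dd F L X y0 t s σ ζ ω) * y0)).re -
        lam * T.nrm2 (Zz F L X y0 t s σ ζ ω - X) ^ 2)) := by
    refine le_trans ?_ hmain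
    linarith
  obtain ⟨ζ, hζ⟩ := exists_le_of_avg g9
  obtain ⟨ω, hω⟩ := exists_le_of_avg hζ
  have hY1 := nrm2_Y_le T F L (t := t) (s := s) (σ := σ) (ζ := ζ) hX hy
    (by rw [hcκ]; exact hqk) ω
  have hcorr : (T.τ (outY F L ζ (Dd F L X y0 t s σ ζ ω) * y0)).re ≤ R := by
    refine (Complex.re_le_norm _).trans ((T.norm_tau_mul_le _ _).trans ?_)
    calc _ ≤ 1 * R := mul_le_mul hY1 ((T.nrm2_le_norm _).trans hyR) (T.nrm2_nonneg _) zero_le_one
      _ = R := one_mul R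
  refine ⟨Zz F L X y0 t s σ ζ ω, outY F L ζ (Dd F L X y0 t s σ ζ ω), Zz_sa F L hX hy ω, ?_, hY1,
    ?_, ?_⟩
  · have e10 : lam * T.nrm2 (Zz F L X y0 t s σ ζ ω - X) ^ 2 < R := by linarith
    have e11 : T.nrm2 (Zz F L X y0 t s σ ζ ω - X) ^ 2 < ε ^ 2 := by
      by_contra hcon
      push Not at hcon
      have e12 := mul_le_mul_of_nonneg_left hcon hlam0.le
      have e13 : lam * ε ^ 2 = 2 * R := by rw [hlam]; field_simp
      linarith
    exact lt_of_pow_lt_pow_left₀ 2 hε.le e11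
  · have e14 : 0 ≤ lam * T.nrm2 (Zz F L X y0 t s σ ζ ω - X) ^ 2 := by positivity
    linarith
  · intro S hS hS1 hZ
    exact outY_mem F L S hS (hF S hS1) hX hy ω hZ

end Crest.Agent.R95
end

-- ▼ part R95/Unitary
section

/-!
R95 (helper364): (i) unitaries of the form `z • cay X` are 2-norm dense in the unitaries;
(ii) clamping a self-adjoint element does not increase the 2-distance to bounded elements.
-/

set_option autoImplicit false

open scoped InnerProductSpace ENNReal ComplexConjugate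
open Filter Topology Complex

namespace Crest.Agent.R95

open Crest.OpAlg

section scalar

/-- the scalar function -/
noncomputable def Fs (z : ℂ) (δ : ℝ) (w : ℂ) : ℝ :=
  (conj z * w).im / (max 0 (1 + (conj z * w).re) + δ)

theorem continuous_Fs (z : ℂ) {δ : ℝ} (hδ : 0 < δ) : Continuous (Fs z δ) := by
  unfold Fs
  refine Continuous.div (by fun_prop) (by fun_prop) fun w => ?_
  have : 0 ≤ max 0 (1 + (conj z * w).re) := le_max_left _ _
  positivity

/-- the error function -/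
noncomputable def hs (z : ℂ) (δ : ℝ) (w : ℂ) : ℂ :=
  z * ((1 + I * (Fs z δ w : ℂ)) / (1 - I * (Fs z δ w : ℂ))) - w

theorem one_sub_ne (F : ℝ) : (1 - I * (F : ℂ)) ≠ 0 := by
  intro h
  have := congrArg Complex.re h
  simp at this

theorem continuous_hs (z : ℂ) {δ : ℝ} (hδ : 0 < δ) : Continuous (hs z δ) := by
  unfold hs
  have h := continuous_Fs z hδ
  have h2 : Continuous fun w => (Fs z δ w : ℂ) := Complex.continuous_ofReal.comp h
  refine (continuous_const.mul (Continuous.div (by fun_prop) (by fun_prop) fun w => ?_)).sub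
    continuous_id
  exact one_sub_ne _

theorem norm_hs_le {z w : ℂ} (hz : ‖z‖ = 1) (hw : ‖w‖ = 1) {δ : ℝ} (hδ : 0 < δ) :
    ‖hs z δ w‖ ≤ 2 * (δ / (‖z + w‖ ^ 2 / 2 + δ)) := by
  set v := conj z * w with hv
  have hzz : z * conj z = 1 := by rw [Complex.mul_conj, Complex.normSq_eq_norm_sq, hz]; simp
  have hzv : z * v = w := by rw [hv, ← mul_assoc, hzz, one_mul]
  have hvn : ‖v‖ = 1 := by rw [hv, norm_mul, Complex.norm_conj, hz, hw, one_mul]
  have hvsq : v.re ^ 2 + v.im ^ 2 = 1 := by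
    have := Complex.normSq_eq_norm_sq v
    rw [hvn, Complex.normSq_apply] at this
    nlinarith
  have hc0 : 0 ≤ 1 + v.re := by nlinarith [sq_nonneg (v.re + 1), sq_nonneg v.im]
  have hc : ‖z + w‖ ^ 2 / 2 = 1 + v.re := by
    have h1 : z + w = z * (1 + v) := by rw [mul_add, mul_one, hzv]
    rw [h1, norm_mul, hz, one_mul, ← Complex.normSq_eq_norm_sq, Complex.normSq_apply]
    simp only [add_re, one_re, add_im, one_im, zero_add]
    nlinarith
  have hF : Fs z δ w = v.im / (1 + v.re + δ) := by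
    rw [Fs, ← hv, max_eq_right hc0]
  have hcδ : (0 : ℝ) < 1 + v.re + δ := by linarith
  have hident : (1 + I * (Fs z δ w : ℂ)) - v * (1 - I * (Fs z δ w : ℂ)) =
      (1 - v) * ((δ / (1 + v.re + δ) : ℝ) : ℂ) := by
    rw [hF]
    have hFm : v.im / (1 + v.re + δ) * (1 + v.re + δ) = v.im := div_mul_cancel₀ _ hcδ.ne'
    have hDm : δ / (1 + v.re + δ) * (1 + v.re + δ) = δ := div_mul_cancel₀ _ hcδ.ne'
    generalize v.im / (1 + v.re + δ) = F at *
    generalize δ / (1 + v.re + δ) = D at *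
    apply Complex.ext
    · simp
      refine mul_right_cancel₀ hcδ.ne' ?_
      linear_combination (-v.im) * hFm - (1 - v.re) * hDm - hvsq
    · simp
      refine mul_right_cancel₀ hcδ.ne' ?_
      linear_combination (1 + v.re) * hFm + v.im * hDm
  have hh : hs z δ w = z * (((1 - v) * ((δ / (1 + v.re + δ) : ℝ) : ℂ)) /
      (1 - I * (Fs z δ w : ℂ))) := by
    rw [← hident, hs]
    have := one_sub_ne (Fs z δ w)
    generalize (Fs z δ w : ℂ) = F at *
    rw [sub_div, mul_div_cancel_right₀ _ this, mul_sub, hzv]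
  rw [hh, norm_mul, hz, one_mul, norm_div, norm_mul, hc, Complex.norm_real,
    Real.norm_of_nonneg (by positivity)]
  have h1 : ‖1 - v‖ ≤ 2 := by
    calc ‖1 - v‖ ≤ ‖(1 : ℂ)‖ + ‖v‖ := norm_sub_le _ _
      _ = 2 := by rw [hvn]; norm_num
  have h2 : 1 ≤ ‖1 - I * (Fs z δ w : ℂ)‖ := by
    have : |(1 - I * (Fs z δ w : ℂ)).re| ≤ ‖1 - I * (Fs z δ w : ℂ)‖ := Complex.abs_re_le_norm _
    simpa using this
  have h3 : 0 ≤ δ / (1 + v.re + δ) := by positivity
  calc ‖1 - v‖ * (δ / (1 + v.re + δ)) / ‖1 - I * (Fs z δ w : ℂ)‖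
      ≤ ‖1 - v‖ * (δ / (1 + v.re + δ)) := div_le_self (by positivity) h2
    _ ≤ _ := by gcongr

end scalar

section cfc

variable {A : Type*} [CStarAlgebra A]

theorem res_eq_of_mul_both {a b : A} (h1 : (1 - I • a) * b = 1) (h2 : b * (1 - I • a) = 1) :
    res a = b := by
  have := Ring.inverse_unit (⟨1 - I • a, b, h1, h2⟩ : Aˣ)
  exact this

theorem isSelfAdjoint_cfc_ofReal (f : ℂ → ℝ) (u : A) :
    IsSelfAdjoint (cfc (fun w => (f w : ℂ)) u) := by
  rw [IsSelfAdjoint, ← cfc_star]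
  simp

theorem res_cfc {f : ℂ → ℝ} (hf : Continuous f) (u : A) [hu : IsStarNormal u] :
    res (cfc (fun w => (f w : ℂ)) u) = cfc (fun w => (1 - I * (f w : ℂ))⁻¹) u := by
  have hf' : Continuous fun w => (f w : ℂ) := Complex.continuous_ofReal.comp hf
  have hinv : Continuous fun w => (1 - I * (f w : ℂ))⁻¹ :=
    Continuous.inv₀ (by fun_prop) fun w => one_sub_ne _
  have h1 : 1 - I • cfc (fun w => (f w : ℂ)) u = cfc (fun w => 1 - I * (f w : ℂ)) u := by
    rw [cfc_sub (fun _ => 1) (fun w => I * (f w : ℂ)) u, cfc_const_one ℂ u,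
      cfc_const_mul I (fun w => (f w : ℂ)) u]
  apply res_eq_of_mul_both
  · rw [h1, ← cfc_mul _ _ u (by fun_prop) hinv.continuousOn]
    rw [← cfc_const_one ℂ u]
    congr 1
    ext w
    exact mul_inv_cancel₀ (one_sub_ne _)
  · rw [h1, ← cfc_mul _ _ u hinv.continuousOn (by fun_prop)]
    rw [← cfc_const_one ℂ u]
    congr 1
    ext w
    exact inv_mul_cancel₀ (one_sub_ne _)

theorem cay_cfc {f : ℂ → ℝ} (hf : Continuous f) (u : A) [hu : IsStarNormal u] :
    cay (cfc (fun w => (f w : ℂ)) u) =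
      cfc (fun w => (1 + I * (f w : ℂ)) / (1 - I * (f w : ℂ))) u := by
  have hf' : Continuous fun w => (f w : ℂ) := Complex.continuous_ofReal.comp hf
  have hinv : Continuous fun w => (1 - I * (f w : ℂ))⁻¹ :=
    Continuous.inv₀ (by fun_prop) fun w => one_sub_ne _
  have h1 : 1 + I • cfc (fun w => (f w : ℂ)) u = cfc (fun w => 1 + I * (f w : ℂ)) u := by
    rw [cfc_add u (fun _ => 1) (fun w => I * (f w : ℂ)), cfc_const_one ℂ u,
      cfc_const_mul I (fun w => (f w : ℂ)) u]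
  change (1 + I • cfc (fun w => (f w : ℂ)) u) * res (cfc (fun w => (f w : ℂ)) u) = _
  rw [res_cfc hf, h1, ← cfc_mul _ _ u (by fun_prop) hinv.continuousOn]
  rfl

end cfc

section unitary

variable {H : Type*} [NormedAddCommGroup H] [InnerProductSpace ℂ H] [CompleteSpace H]

omit [CompleteSpace H] in
theorem norm_tr_le {ξ : ℕ → H} (hξ : SqSum ξ) (x : H →L[ℂ] H) :
    ‖tr ξ x‖ ≤ ‖x‖ * N2 ξ (1 : H →L[ℂ] H) ^ 2 := by
  rw [tr_eq_inner hξ]
  refine (norm_inner_le_norm _ _).trans ?_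
  rw [norm_io, norm_io]
  have := N2_mul_left hξ x 1
  rw [mul_one] at this
  nlinarith [N2_nonneg (ξ := ξ) (1 : H →L[ℂ] H)]

/-- distinct points on the circle -/
theorem exists_circle_points (m : ℕ) : ∃ (z : Fin m → ℂ) (η : ℝ), 0 < η ∧ (∀ j, ‖z j‖ = 1) ∧
    ∀ j k, j ≠ k → η ≤ ‖z j - z k‖ := by
  let z : Fin m → ℂ := fun j => Complex.exp (((1 / ((j : ℕ) + 1 : ℝ) : ℝ) : ℂ) * I)
  have hz : ∀ j, ‖z j‖ = 1 := fun j => Complex.norm_exp_ofReal_mul_I _
  have hpos : ∀ j : Fin m, (0 : ℝ) < 1 / ((j : ℕ) + 1 : ℝ) := fun j => by positivity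
  have hle : ∀ j : Fin m, 1 / ((j : ℕ) + 1 : ℝ) ≤ 1 := fun j => by
    rw [div_le_one (by positivity)]; simp
  have hinj : ∀ j k : Fin m, j ≠ k → z j ≠ z k := by
    intro j k hjk h
    apply hjk
    have hpi := Real.pi_gt_three
    have h1 := Complex.exp_inj_of_neg_pi_lt_of_le_pi (x := ((1 / ((j : ℕ) + 1 : ℝ) : ℝ) : ℂ) * I)
      (y := ((1 / ((k : ℕ) + 1 : ℝ) : ℝ) : ℂ) * I)
      (by simp only [mul_im, ofReal_re, I_im, mul_one, ofReal_im, I_re, mul_zero, add_zero]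
          linarith [hpos j])
      (by simp only [mul_im, ofReal_re, I_im, mul_one, ofReal_im, I_re, mul_zero, add_zero]
          linarith [hle j])
      (by simp only [mul_im, ofReal_re, I_im, mul_one, ofReal_im, I_re, mul_zero, add_zero]
          linarith [hpos k])
      (by simp only [mul_im, ofReal_re, I_im, mul_one, ofReal_im, I_re, mul_zero, add_zero]
          linarith [hle k]) h
    have h2 := mul_right_cancel₀ I_ne_zero h1
    have h3 : (1 / ((j : ℕ) + 1 : ℝ) : ℝ) = 1 / ((k : ℕ) + 1 : ℝ) := by exact_mod_cast h2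
    rw [div_eq_div_iff (by positivity) (by positivity)] at h3
    have h4 : ((j : ℕ) : ℝ) = (k : ℕ) := by linarith
    exact Fin.ext (by exact_mod_cast h4)
  have h5 : ∀ᶠ η : ℝ in 𝓝[>] 0, ∀ j k : Fin m, j ≠ k → η ≤ ‖z j - z k‖ := by
    rw [eventually_all]
    intro j
    rw [eventually_all]
    intro k
    by_cases hjk : j = k
    · exact Eventually.of_forall fun _ h => absurd hjk h
    · have : 0 < ‖z j - z k‖ := norm_pos_iff.2 (sub_ne_zero.2 (hinj j k hjk))
      filter_upwards [Ioo_mem_nhdsGT this] with η hη _ using hη.2.le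
  obtain ⟨η, h6, h7⟩ := (h5.and self_mem_nhdsWithin).exists
  exact ⟨z, η, h7, hz, h6⟩

/-- **(i)** unitaries of the form `z • cay X` are dense in the unitaries in the 2-norm; `X` lies in
every closed star subalgebra containing `u`. -/
theorem exists_cay_near {ξ : ℕ → H} (hξ : SqSum ξ) {u : H →L[ℂ] H}
    (hu : u ∈ unitary (H →L[ℂ] H)) {ε : ℝ} (hε : 0 < ε) :
    ∃ (z : ℂ) (X : H →L[ℂ] H), ‖z‖ = 1 ∧ IsSelfAdjoint X ∧ N2 ξ (z • cay X - u) < ε ∧
      ∀ S : StarSubalgebra ℂ (H →L[ℂ] H), IsClosed (S : Set (H →L[ℂ] H)) → u ∈ S → X ∈ S := by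
  have hnorm : IsStarNormal u := ⟨by
    have h := Unitary.mem_iff.1 hu
    exact h.1.trans h.2.symm⟩
  set K := N2 ξ (1 : H →L[ℂ] H) ^ 2 with hK
  have hK0 : 0 ≤ K := by positivity
  obtain ⟨m, hm⟩ := exists_nat_gt (5 * K / ε ^ 2)
  have hm0 : 0 < m := by
    have : (0 : ℝ) < m := lt_of_le_of_lt (by positivity) hm
    exact_mod_cast this
  obtain ⟨z, η, hη, hz, hsep⟩ := exists_circle_points m
  -- choose δ
  obtain ⟨δ, hδ, hδm⟩ : ∃ δ : ℝ, 0 < δ ∧ m * (2 * (δ / (η ^ 2 / 8))) ^ 2 ≤ 1 := by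
    have h1 : Tendsto (fun δ : ℝ => m * (2 * (δ / (η ^ 2 / 8))) ^ 2) (𝓝 0)
        (𝓝 (m * (2 * (0 / (η ^ 2 / 8))) ^ 2)) := by
      apply Continuous.tendsto
      fun_prop
    rw [zero_div, mul_zero, zero_pow two_ne_zero, mul_zero] at h1
    have h2 : ∀ᶠ δ : ℝ in 𝓝[>] 0, m * (2 * (δ / (η ^ 2 / 8))) ^ 2 ≤ 1 :=
      (h1.eventually (eventually_le_nhds one_pos)).filter_mono nhdsWithin_le_nhds
    obtain ⟨δ, h3, h4⟩ := (h2.and self_mem_nhdsWithin).exists
    exact ⟨δ, h4, h3⟩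
  let X : Fin m → H →L[ℂ] H := fun j => cfc (fun w => (Fs (z j) δ w : ℂ)) u
  let Y : Fin m → H →L[ℂ] H := fun j => cfc (hs (z j) δ) u
  have hY : ∀ j, z j • cay (X j) - u = Y j := by
    intro j
    have h1 := continuous_Fs (z j) hδ
    have h2 : Continuous fun w => (Fs (z j) δ w : ℂ) := Complex.continuous_ofReal.comp h1
    have h3 : Continuous fun w => (1 + I * (Fs (z j) δ w : ℂ)) / (1 - I * (Fs (z j) δ w : ℂ)) :=
      Continuous.div (by fun_prop) (by fun_prop) fun w => one_sub_ne _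
    change z j • cay (cfc (fun w => (Fs (z j) δ w : ℂ)) u) - u = cfc (hs (z j) δ) u
    rw [cay_cfc h1, ← cfc_const_mul (z j) _ u h3.continuousOn]
    rw [show hs (z j) δ = fun w => z j * ((1 + I * (Fs (z j) δ w : ℂ)) /
      (1 - I * (Fs (z j) δ w : ℂ))) - id w from rfl]
    have h4 : Continuous fun w => z j * ((1 + I * (Fs (z j) δ w : ℂ)) /
      (1 - I * (Fs (z j) δ w : ℂ))) := continuous_const.mul h3
    rw [cfc_sub (fun w => z j * ((1 + I * (Fs (z j) δ w : ℂ)) /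
      (1 - I * (Fs (z j) δ w : ℂ)))) id u h4.continuousOn continuousOn_id, cfc_id ℂ u]
  -- sum of squares
  have hsum : ∑ j, N2 ξ (Y j) ^ 2 ≤ 5 * K := by
    have h1 : ((∑ j, N2 ξ (Y j) ^ 2 : ℝ) : ℂ) =
        tr ξ (cfc (∑ j, fun w => star (hs (z j) δ w) * hs (z j) δ w) u) := by
      rw [cfc_sum_univ _ _ fun j => by
        have := continuous_hs (z j) hδ
        fun_prop, tr_sum hξ]
      push_cast
      refine Finset.sum_congr rfl fun j _ => ?_
      have h := continuous_hs (z j) hδ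
      rw [cfc_mul _ _ u (by fun_prop) (by fun_prop), cfc_star]
      rw [tr_star_mul_self hξ]
      push_cast; rfl
    have h2 : ‖cfc (∑ j, fun w => star (hs (z j) δ w) * hs (z j) δ w) u‖ ≤ 5 := by
      refine norm_cfc_le (by norm_num) fun w hw => ?_
      have hw1 : ‖w‖ = 1 := spectrum.norm_eq_one_of_unitary hu hw
      rw [Finset.sum_apply]
      refine (norm_sum_le _ _).trans ?_
      have h3 : ∀ j, ‖star (hs (z j) δ w) * hs (z j) δ w‖ = ‖hs (z j) δ w‖ ^ 2 := by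
        intro j
        rw [norm_mul, norm_star]; ring
      simp only [h3]
      -- at most one `j` is near `-w`
      have h4 : ∀ j, ‖hs (z j) δ w‖ ≤ 2 := by
        intro j
        refine (norm_hs_le (hz j) hw1 hδ).trans ?_
        have : δ / (‖z j + w‖ ^ 2 / 2 + δ) ≤ 1 := by
          rw [div_le_one (by positivity)]
          have : 0 ≤ ‖z j + w‖ ^ 2 / 2 := by positivity
          linarith
        linarith
      have h5 : ∀ j, η / 2 ≤ ‖z j + w‖ → ‖hs (z j) δ w‖ ^ 2 ≤ (2 * (δ / (η ^ 2 / 8))) ^ 2 := by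
        intro j hj
        refine pow_le_pow_left₀ (norm_nonneg _) ((norm_hs_le (hz j) hw1 hδ).trans ?_) 2
        gcongr
        have : (η / 2) ^ 2 ≤ ‖z j + w‖ ^ 2 := pow_le_pow_left₀ (by positivity) hj 2
        nlinarith
      by_cases hex : ∃ j₀, ‖z j₀ + w‖ < η / 2
      · obtain ⟨j₀, hj₀⟩ := hex
        have h6 : ∀ j ≠ j₀, η / 2 ≤ ‖z j + w‖ := by
          intro j hj
          by_contra hcon
          push Not at hcon
          have h7 := hsep j j₀ hj
          have h8 : ‖z j - z j₀‖ ≤ ‖z j + w‖ + ‖z j₀ + w‖ := by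
            have : z j - z j₀ = (z j + w) - (z j₀ + w) := by ring
            rw [this]; exact norm_sub_le _ _
          linarith
        rw [← Finset.add_sum_erase _ _ (Finset.mem_univ j₀)]
        have h9 : ∑ j ∈ Finset.univ.erase j₀, ‖hs (z j) δ w‖ ^ 2 ≤
            ∑ j ∈ Finset.univ.erase j₀, (2 * (δ / (η ^ 2 / 8))) ^ 2 :=
          Finset.sum_le_sum fun j hj => h5 j (h6 j (Finset.ne_of_mem_erase hj))
        have h10 : ∑ j ∈ (Finset.univ : Finset (Fin m)).erase j₀, (2 * (δ / (η ^ 2 / 8))) ^ 2 ≤ 1 := by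
          rw [Finset.sum_const, nsmul_eq_mul]
          refine le_trans ?_ hδm
          gcongr
          refine (Finset.card_le_univ _).trans ?_
          simp
        have h11 : ‖hs (z j₀) δ w‖ ^ 2 ≤ 4 := by
          have := pow_le_pow_left₀ (norm_nonneg _) (h4 j₀) 2
          linarith
        linarith
      · push Not at hex
        have h9 : ∑ j, ‖hs (z j) δ w‖ ^ 2 ≤ ∑ j : Fin m, (2 * (δ / (η ^ 2 / 8))) ^ 2 :=
          Finset.sum_le_sum fun j _ => h5 j (hex j)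
        have h10 : ∑ j : Fin m, (2 * (δ / (η ^ 2 / 8))) ^ 2 ≤ 1 := by
          rw [Finset.sum_const, nsmul_eq_mul]
          simpa using hδm
        linarith
    have h3 := norm_tr_le hξ (cfc (∑ j, fun w => star (hs (z j) δ w) * hs (z j) δ w) u)
    rw [← h1, Complex.norm_real, Real.norm_eq_abs] at h3
    calc ∑ j, N2 ξ (Y j) ^ 2 ≤ |∑ j, N2 ξ (Y j) ^ 2| := le_abs_self _
      _ ≤ _ := h3
      _ ≤ 5 * K := by rw [← hK]; gcongr
  -- pick the best
  obtain ⟨j, hj⟩ : ∃ j, N2 ξ (Y j) ^ 2 < ε ^ 2 := by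
    by_contra hcon
    push Not at hcon
    have h1 : ∑ j : Fin m, ε ^ 2 ≤ ∑ j, N2 ξ (Y j) ^ 2 := Finset.sum_le_sum fun j _ => hcon j
    rw [Finset.sum_const, Finset.card_univ, Fintype.card_fin, nsmul_eq_mul] at h1
    rw [div_lt_iff₀ (by positivity)] at hm
    linarith
  refine ⟨z j, X j, hz j, isSelfAdjoint_cfc_ofReal _ _, ?_, ?_⟩
  · rw [hY j]
    exact lt_of_pow_lt_pow_left₀ 2 hε.le hj
  · intro S hS huS
    exact cfc_mem (𝕜' := ℂ) (hs := hS) _ huS

end unitary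

end Crest.Agent.R95
end

-- ▼ part R95/Clamp
section

/-!
R95 (helper364): (ii) clamping a self-adjoint element does not increase the 2-distance to bounded
elements; positivity of the trace on products of positive elements.
-/

set_option autoImplicit false

open scoped InnerProductSpace ENNReal ComplexConjugate
open Filter Topology Complex

namespace Crest.Agent.R95

open Crest.OpAlg

variable {H : Type*} [NormedAddCommGroup H] [InnerProductSpace ℂ H] [CompleteSpace H]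
variable {M : VonNeumannAlgebra H} {ξ : ℕ → H}

theorem cfc_real_mem (M : VonNeumannAlgebra H) (f : ℝ → ℝ) {a : H →L[ℂ] H} (ha : a ∈ M) :
    cfc f a ∈ M := by
  have h := cfc_mem (𝕜' := ℂ) (s := M.toStarSubalgebra) (hs := isClosed_vn M) f (a := a) ha
  exact h


/-- square root inside `M` -/
theorem exists_sqrt_mem {a : H →L[ℂ] H} (ha : a ∈ M) (h0 : 0 ≤ a) :
    ∃ s ∈ M, IsSelfAdjoint s ∧ s * s = a := by
  have hsa : IsSelfAdjoint a := IsSelfAdjoint.of_nonneg h0
  refine ⟨cfc Real.sqrt a, cfc_real_mem M _ ha, cfc_predicate _ _, ?_⟩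
  rw [← cfc_mul Real.sqrt Real.sqrt a Real.continuous_sqrt.continuousOn
    Real.continuous_sqrt.continuousOn]
  conv_rhs => rw [← cfc_id ℝ a]
  refine cfc_congr fun t ht => ?_
  exact Real.mul_self_sqrt (spectrum_nonneg_of_nonneg h0 ht)

/-- the trace of a product of two positive elements is nonnegative -/
theorem tr_mul_nonneg (hξ : IsFaithfulTracialVectorState M ξ) {a b : H →L[ℂ] H} (ha : a ∈ M)
    (hb : b ∈ M) (h0a : 0 ≤ a) (h0b : 0 ≤ b) : 0 ≤ (tr ξ (a * b)).re := by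
  obtain ⟨s, hs, hss, rfl⟩ := exists_sqrt_mem ha h0a
  obtain ⟨r, hr, hrs, rfl⟩ := exists_sqrt_mem hb h0b
  have h1 : tr ξ (s * s * (r * r)) = tr ξ (star (s * r) * (s * r)) := by
    rw [star_mul, hss.star_eq, hrs.star_eq]
    have : s * s * (r * r) = (s * s * r) * r := by simp only [mul_assoc]
    rw [this, tr_mul_comm hξ (mul_mem (mul_mem hs hs) hr) hr]
    simp only [mul_assoc]
  rw [h1, tr_star_mul_self (sqSum hξ), Complex.ofReal_re]
  positivity


/-- clamp a self-adjoint operator to norm at most `R` -/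
noncomputable def cl (R : ℝ) (y : H →L[ℂ] H) : H →L[ℂ] H := cfc (fun t : ℝ => max (-R) (min R t)) y

theorem cl_mem {R : ℝ} {y : H →L[ℂ] H} (hy : y ∈ M) : cl R y ∈ M := cfc_real_mem M _ hy


theorem isSelfAdjoint_cl (R : ℝ) (y : H →L[ℂ] H) : IsSelfAdjoint (cl R y) := cfc_predicate _ _

theorem norm_cl_le {R : ℝ} (hR : 0 ≤ R) (y : H →L[ℂ] H) : ‖cl R y‖ ≤ R := by
  refine norm_cfc_le hR fun t _ => ?_
  rw [Real.norm_eq_abs, abs_le]
  constructor
  · exact le_max_left _ _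
  · exact max_le (by linarith) (min_le_left _ _)

/-- **(ii)** clamping decreases the 2-distance to bounded self-adjoint elements. -/
theorem N2_sub_cl_le (hξ : IsFaithfulTracialVectorState M ξ) {x y : H →L[ℂ] H} (hx : x ∈ M)
    (hy : y ∈ M) (hxs : IsSelfAdjoint x) (hys : IsSelfAdjoint y) {R : ℝ} (hxR : ‖x‖ ≤ R) :
    N2 ξ (x - cl R y) ≤ N2 ξ (x - y) := by
  have hR : 0 ≤ R := (norm_nonneg _).trans hxR
  have hS := sqSum hξ
  set f := cl R y with hf
  set p := cfc (fun t : ℝ => max (t - R) 0) y with hp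
  set n := cfc (fun t : ℝ => max (-t - R) 0) y with hn
  have hfM : f ∈ M := cl_mem hy
  have hpM : p ∈ M := cfc_real_mem M _ hy
  have hnM : n ∈ M := cfc_real_mem M _ hy
  have hp0 : 0 ≤ p := cfc_nonneg fun t _ => le_max_right _ _
  have hn0 : 0 ≤ n := cfc_nonneg fun t _ => le_max_right _ _
  have hps : IsSelfAdjoint p := cfc_predicate _ _
  have hns : IsSelfAdjoint n := cfc_predicate _ _
  have hfs : IsSelfAdjoint f := isSelfAdjoint_cl _ _
  have hyid : cfc (fun t : ℝ => t) y = y := cfc_id' ℝ y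
  have hcc : Continuous fun t : ℝ => max (-R) (min R t) := by fun_prop
  have hcp : Continuous fun t : ℝ => max (t - R) 0 := by fun_prop
  have hcn : Continuous fun t : ℝ => max (-t - R) 0 := by fun_prop
  have e1 : y - f = p - n := by
    have h1 : y - f = cfc (fun t : ℝ => t - max (-R) (min R t)) y := by
      rw [cfc_sub (fun t : ℝ => t) (fun t : ℝ => max (-R) (min R t)) y continuousOn_id
        hcc.continuousOn, hyid]
      rfl
    have h2 : p - n = cfc (fun t : ℝ => max (t - R) 0 - max (-t - R) 0) y := by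
      rw [cfc_sub (fun t : ℝ => max (t - R) 0) (fun t : ℝ => max (-t - R) 0) y hcp.continuousOn
        hcn.continuousOn]
    rw [h1, h2]
    congr 1
    ext t
    rcases le_total t R with h | h
    · rcases le_total (-R) t with h' | h'
      · rw [min_eq_right h, max_eq_right h', max_eq_right (by linarith), max_eq_right (by linarith)]
        ring
      · rw [min_eq_right h, max_eq_left h', max_eq_right (by linarith), max_eq_left (by linarith)]
        ring
    · rw [min_eq_left h, max_eq_right (by linarith), max_eq_left (by linarith),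
        max_eq_right (by linarith)]
      ring
  have hadd : y + f = cfc (fun t : ℝ => t + max (-R) (min R t)) y := by
    rw [cfc_add y (fun t : ℝ => t) (fun t : ℝ => max (-R) (min R t)) continuousOn_id
      hcc.continuousOn, hyid]
    rfl
  have e2 : p * (y + f) = (2 * R : ℝ) • p + p * p := by
    rw [hadd, hp, ← cfc_mul _ _ y hcp.continuousOn (by fun_prop),
      ← cfc_mul _ _ y hcp.continuousOn hcp.continuousOn,
      ← cfc_smul (2 * R : ℝ) (fun t : ℝ => max (t - R) 0) y hcp.continuousOn,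
      ← cfc_add y (fun t : ℝ => (2 * R : ℝ) • max (t - R) 0)
        (fun t : ℝ => max (t - R) 0 * max (t - R) 0) (by fun_prop) (by fun_prop)]
    congr 1
    ext t
    rcases le_total t R with h | h
    · rw [max_eq_right (by linarith : t - R ≤ 0)]; simp
    · rw [max_eq_left (by linarith : 0 ≤ t - R), min_eq_left h, max_eq_right (by linarith)]
      simp only [smul_eq_mul]
      ring
  have e3 : n * (y + f) = -((2 * R : ℝ) • n) - n * n := by
    rw [hadd, hn, ← cfc_mul _ _ y hcn.continuousOn (by fun_prop),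
      ← cfc_mul _ _ y hcn.continuousOn hcn.continuousOn,
      ← cfc_smul (2 * R : ℝ) (fun t : ℝ => max (-t - R) 0) y hcn.continuousOn,
      ← cfc_neg, ← cfc_sub (fun t : ℝ => -((2 * R : ℝ) • max (-t - R) 0))
        (fun t : ℝ => max (-t - R) 0 * max (-t - R) 0) y (by fun_prop) (by fun_prop)]
    congr 1
    ext t
    rcases le_total (-R) t with h | h
    · rw [max_eq_right (by linarith : -t - R ≤ 0)]; simp
    · rw [max_eq_left (by linarith : 0 ≤ -t - R), min_eq_right (by linarith), max_eq_left h]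
      simp only [smul_eq_mul]
      ring
  have hxle : x ≤ algebraMap ℝ (H →L[ℂ] H) ‖x‖ := hxs.le_algebraMap_norm_self
  have hxge : -x ≤ algebraMap ℝ (H →L[ℂ] H) ‖x‖ := by
    have := (IsSelfAdjoint.neg hxs).le_algebraMap_norm_self
    rwa [norm_neg] at this
  have hRle : algebraMap ℝ (H →L[ℂ] H) ‖x‖ ≤ algebraMap ℝ (H →L[ℂ] H) R :=
    algebraMap_mono _ hxR
  have hRx : 0 ≤ algebraMap ℝ (H →L[ℂ] H) R - x := sub_nonneg.2 (hxle.trans hRle)
  have hRx' : 0 ≤ algebraMap ℝ (H →L[ℂ] H) R + x := by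
    have := sub_nonneg.2 (hxge.trans hRle)
    rwa [sub_neg_eq_add] at this
  have hRM : algebraMap ℝ (H →L[ℂ] H) R ∈ M := by
    have : algebraMap ℝ (H →L[ℂ] H) R = algebraMap ℂ (H →L[ℂ] H) (R : ℂ) := by
      rw [Algebra.algebraMap_eq_smul_one, Algebra.algebraMap_eq_smul_one]
      rfl
    rw [this]
    exact M.toStarSubalgebra.algebraMap_mem _
  have hmulR : ∀ a : H →L[ℂ] H, a * algebraMap ℝ (H →L[ℂ] H) R = (R : ℂ) • a := by
    intro a
    rw [Algebra.algebraMap_eq_smul_one, mul_smul_comm, mul_one]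
    rfl
  have t1 := tr_mul_nonneg hξ hpM (sub_mem hRM hx) hp0 hRx
  have t2 := tr_mul_nonneg hξ hnM (add_mem hRM hx) hn0 hRx'
  rw [mul_sub, hmulR, tr_sub hS, tr_smul hS, Complex.sub_re, Complex.re_ofReal_mul] at t1
  rw [mul_add, hmulR, tr_add hS, tr_smul hS, Complex.add_re, Complex.re_ofReal_mul] at t2
  have t3 : 0 ≤ (tr ξ (p * p)).re := by
    have := tr_star_mul_self hS p
    rw [hps.star_eq] at this
    rw [this, Complex.ofReal_re]; positivity
  have t4 : 0 ≤ (tr ξ (n * n)).re := by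
    have := tr_star_mul_self hS n
    rw [hns.star_eq] at this
    rw [this, Complex.ofReal_re]; positivity
  have hsmul : ∀ a : H →L[ℂ] H, (2 * R : ℝ) • a = ((2 * R : ℝ) : ℂ) • a := fun a => rfl
  have k1 : (tr ξ (p * (y + f))).re = 2 * R * (tr ξ p).re + (tr ξ (p * p)).re := by
    rw [e2, hsmul, tr_add hS, tr_smul hS, Complex.add_re, Complex.re_ofReal_mul]
  have k2 : (tr ξ (n * (y + f))).re = -(2 * R * (tr ξ n).re) - (tr ξ (n * n)).re := by
    rw [e3, hsmul, tr_sub hS, tr_neg hS, tr_smul hS, Complex.sub_re, Complex.neg_re,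
      Complex.re_ofReal_mul]
  have k3 : (tr ξ ((y - f) * (y + f))).re = (tr ξ (p * (y + f))).re - (tr ξ (n * (y + f))).re := by
    rw [e1, sub_mul, tr_sub hS, Complex.sub_re]
  have k4 : (tr ξ ((y - f) * x)).re = (tr ξ (p * x)).re - (tr ξ (n * x)).re := by
    rw [e1, sub_mul, tr_sub hS, Complex.sub_re]
  -- norms
  have n1 : N2 ξ (x - y) ^ 2 = (tr ξ (x * x)).re - 2 * (tr ξ (x * y)).re + (tr ξ (y * y)).re := by
    have h1 := tr_star_mul_self hS (x - y)
    rw [star_sub, hxs.star_eq, hys.star_eq] at h1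
    have h2 : (x - y) * (x - y) = x * x - x * y - y * x + y * y := by
      rw [sub_mul, mul_sub, mul_sub]; abel
    rw [h2, tr_add hS, tr_sub hS, tr_sub hS, tr_mul_comm hξ hy hx] at h1
    have h3 := congrArg Complex.re h1
    rw [Complex.ofReal_re] at h3
    rw [← h3]
    simp only [Complex.add_re, Complex.sub_re]
    ring
  have n2 : N2 ξ (x - f) ^ 2 = (tr ξ (x * x)).re - 2 * (tr ξ (x * f)).re + (tr ξ (f * f)).re := by
    have h1 := tr_star_mul_self hS (x - f)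
    rw [star_sub, hxs.star_eq, hfs.star_eq] at h1
    have h2 : (x - f) * (x - f) = x * x - x * f - f * x + f * f := by
      rw [sub_mul, mul_sub, mul_sub]; abel
    rw [h2, tr_add hS, tr_sub hS, tr_sub hS, tr_mul_comm hξ hfM hx] at h1
    have h3 := congrArg Complex.re h1
    rw [Complex.ofReal_re] at h3
    rw [← h3]
    simp only [Complex.add_re, Complex.sub_re]
    ring
  have n3 : (tr ξ ((y - f) * (y + f))).re = (tr ξ (y * y)).re - (tr ξ (f * f)).re := by
    have h2 : (y - f) * (y + f) = y * y + y * f - f * y - f * f := by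
      rw [sub_mul, mul_add, mul_add]; abel
    rw [h2, tr_sub hS, tr_sub hS, tr_add hS, tr_mul_comm hξ hfM hy]
    simp only [Complex.add_re, Complex.sub_re]
    ring
  have n4 : (tr ξ ((y - f) * x)).re = (tr ξ (x * y)).re - (tr ξ (x * f)).re := by
    rw [sub_mul, tr_sub hS, tr_mul_comm hξ hy hx, tr_mul_comm hξ hfM hx, Complex.sub_re]
  have hfinal : N2 ξ (x - f) ^ 2 ≤ N2 ξ (x - y) ^ 2 := by
    rw [n1, n2]
    nlinarith [k1, k2, k3, k4, n3, n4, t1, t2, t3, t4]
  exact (sq_le_sq₀ (N2_nonneg _) (N2_nonneg _)).1 hfinal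

end Crest.Agent.R95
end

-- ▼ part R95/CoreBase
section

/-!
# R095 core, part 1: tracial states on a C*-algebra, the 2-norm, resolvents and Cayley transforms
-/

set_option autoImplicit false

open Complex

namespace Crest.Agent.R95.CB

open Crest.Agent.R95 (TracialState res cay pr)

/-- A tracial state, with exactly the properties used in the core argument. -/
structure Tr (A : Type*) [CStarAlgebra A] where
  τ : A →ₗ[ℂ] ℂ
  star_τ : ∀ a, τ (star a) = star (τ a)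
  comm : ∀ a b, τ (a * b) = τ (b * a)
  one_le : (τ 1).re ≤ 1
  nonneg : ∀ a, 0 ≤ (τ (star a * a)).re
  le : ∀ a x, (τ (star (a * x) * (a * x))).re ≤ ‖a‖ ^ 2 * (τ (star x * x)).re


namespace Tr

variable {A : Type*} [CStarAlgebra A] (T : Tr A)

/-- squared 2-norm -/
noncomputable def N (x : A) : ℝ := (T.τ (star x * x)).re

/-- 2-norm -/
noncomputable def n (x : A) : ℝ := √(T.N x)













/-- `⟨x, y⟩` real part -/
noncomputable def ip (x y : A) : ℝ := (T.τ (star x * y)).re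



















end Tr

section Cayley

variable {A : Type*} [CStarAlgebra A]

theorem isUnit_one_sub {Y : A} (hY : IsSelfAdjoint Y) : IsUnit (1 - I • Y) := by
  have h1 : (-I) ∉ spectrum ℂ Y := by
    intro h
    have := hY.mem_spectrum_eq_re h
    have h2 := congrArg Complex.im this
    simp at h2
  rw [spectrum.notMem_iff] at h1
  have h2 : 1 - I • Y = (algebraMap ℂ A I) * (algebraMap ℂ A (-I) - Y) := by
    rw [mul_sub, ← map_mul, Algebra.smul_def]
    simp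
  rw [h2]
  exact IsUnit.mul ((isUnit_iff_ne_zero.2 I_ne_zero).map _) h1


theorem res_mul {Y : A} (hY : IsSelfAdjoint Y) : res Y * (1 - I • Y) = 1 :=
  Ring.inverse_mul_cancel _ (isUnit_one_sub hY)

theorem mul_res {Y : A} (hY : IsSelfAdjoint Y) : (1 - I • Y) * res Y = 1 :=
  Ring.mul_inverse_cancel _ (isUnit_one_sub hY)



theorem res_sub_one {Y : A} (hY : IsSelfAdjoint Y) : res Y - 1 = I • (Y * res Y) := by
  have := mul_res hY
  rw [sub_mul, one_mul, smul_mul_assoc] at this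
  rw [← this]; abel

theorem res_sub_one' {Y : A} (hY : IsSelfAdjoint Y) : res Y - 1 = I • (res Y * Y) := by
  have := res_mul hY
  rw [mul_sub, mul_one, mul_smul_comm] at this
  rw [← this]; abel


theorem star_res {Y : A} (hY : IsSelfAdjoint Y) : star (res Y) = res (-Y) := by
  have h1 : star (res Y) * (1 + I • Y) = 1 := by
    have := congrArg star (mul_res hY)
    rw [star_mul, star_sub, star_one, star_smul, hY.star_eq] at this
    simpa using this
  have h2 := mul_res hY.neg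
  rw [smul_neg, sub_neg_eq_add] at h2
  calc star (res Y) = star (res Y) * ((1 + I • Y) * res (-Y)) := by rw [h2, mul_one]
    _ = (star (res Y) * (1 + I • Y)) * res (-Y) := by rw [mul_assoc]
    _ = res (-Y) := by rw [h1, one_mul]

theorem cay_eq (Y : A) : cay Y = (1 + I • Y) * res Y := rfl

theorem cay_def {Y : A} (hY : IsSelfAdjoint Y) : cay Y = (2 : ℂ) • res Y - 1 := by
  unfold cay
  have h := res_sub_one hY
  rw [add_mul, one_mul, smul_mul_assoc, ← h, two_smul]; abel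

theorem cay_eq' {Y : A} (hY : IsSelfAdjoint Y) : cay Y = res Y * (1 + I • Y) := by
  rw [cay_def hY]
  have h := res_sub_one' hY
  rw [mul_add, mul_one, mul_smul_comm, ← h, two_smul]; abel

theorem star_cay {Y : A} (hY : IsSelfAdjoint Y) : star (cay Y) = cay (-Y) := by
  rw [cay_def hY, cay_def hY.neg]
  rw [star_sub, star_smul, star_res hY, star_one]
  simp

theorem cay_neg_mul_cay {Y : A} (hY : IsSelfAdjoint Y) : cay (-Y) * cay Y = 1 := by
  rw [cay_eq' hY.neg, cay_eq Y, smul_neg, ← sub_eq_add_neg]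
  have h1 : (1 - I • Y) * (1 + I • Y) = (1 + I • Y) * (1 - I • Y) := by
    rw [mul_add, add_mul, mul_one, one_mul, sub_mul, mul_sub]; simp
  have h2 : res (-Y) * (1 + I • Y) = 1 := by
    have := res_mul hY.neg
    rwa [smul_neg, sub_neg_eq_add] at this
  calc res (-Y) * (1 - I • Y) * ((1 + I • Y) * res Y)
      = res (-Y) * ((1 - I • Y) * (1 + I • Y)) * res Y := by noncomm_ring
    _ = (res (-Y) * (1 + I • Y)) * ((1 - I • Y) * res Y) := by rw [h1]; noncomm_ring
    _ = 1 := by rw [h2, mul_res hY, one_mul]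

theorem star_cay_mul_cay {Y : A} (hY : IsSelfAdjoint Y) : star (cay Y) * cay Y = 1 := by
  rw [star_cay hY, cay_neg_mul_cay hY]

theorem cay_mul_star_cay {Y : A} (hY : IsSelfAdjoint Y) : cay Y * star (cay Y) = 1 := by
  have := cay_neg_mul_cay hY.neg
  rwa [neg_neg, ← star_cay hY] at this

theorem norm_le_one_of_star_mul {u : A} (h : star u * u = 1) : ‖u‖ ≤ 1 := by
  by_cases hA : Nontrivial A
  · have h1 : ‖u‖ * ‖u‖ = 1 := by rw [← CStarRing.norm_star_mul_self, h, norm_one]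
    nlinarith [norm_nonneg u]
  · have : Subsingleton A := not_nontrivial_iff_subsingleton.1 hA
    rw [Subsingleton.elim u 0]; simp

theorem norm_cay_le {Y : A} (hY : IsSelfAdjoint Y) : ‖cay Y‖ ≤ 1 :=
  norm_le_one_of_star_mul (star_cay_mul_cay hY)

theorem norm_one_le : ‖(1 : A)‖ ≤ 1 := norm_le_one_of_star_mul (by simp)

theorem norm_res_le {Y : A} (hY : IsSelfAdjoint Y) : ‖res Y‖ ≤ 1 := by
  have h : res Y = (2⁻¹ : ℂ) • (cay Y + 1) := by
    rw [cay_def hY, sub_add_cancel, smul_smul]; norm_num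
  rw [h, norm_smul]
  have h1 := norm_cay_le hY
  have h2 : ‖(1 : A)‖ ≤ 1 := norm_one_le
  have h3 := norm_add_le (cay Y) (1 : A)
  have h4 : ‖(2⁻¹ : ℂ)‖ = 2⁻¹ := by simp
  rw [h4]; linarith

/-- resolvent identity -/
theorem res_add_sub {Y h : A} (hY : IsSelfAdjoint Y) (hh : IsSelfAdjoint h) :
    res (Y + h) - res Y = I • (res (Y + h) * h * res Y) := by
  have h1 := res_mul (hY.add hh)
  have h2 := mul_res hY
  have h3 : res (Y + h) * (1 - I • Y) = 1 + I • (res (Y + h) * h) := by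
    have : (1 - I • Y) = (1 - I • (Y + h)) + I • h := by rw [smul_add]; abel
    rw [this, mul_add, h1, mul_smul_comm]
  calc res (Y + h) - res Y = res (Y + h) * ((1 - I • Y) * res Y) - res Y := by rw [h2, mul_one]
    _ = (res (Y + h) * (1 - I • Y)) * res Y - res Y := by rw [mul_assoc]
    _ = I • (res (Y + h) * h * res Y) := by rw [h3, add_mul, one_mul, smul_mul_assoc]; abel

theorem cay_add_sub {Y h : A} (hY : IsSelfAdjoint Y) (hh : IsSelfAdjoint h) :
    cay (Y + h) - cay Y = (2 * I) • (res (Y + h) * h * res Y) := by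
  rw [cay_def hY, cay_def (hY.add hh)]
  rw [mul_smul, ← res_add_sub hY hh, smul_sub]; abel



end Cayley

end Crest.Agent.R95.CB
end

-- ▼ part R95/Red2
section

/-!
R95 reduction module Red2 (helper400): from the key lemma (`core_concrete`), the unitary
approximation, the truncation lemma, density and closure lemmas, derive the generic generation
statement for unitaries (dense `G_δ`).
-/

set_option autoImplicit false

open scoped InnerProductSpace ENNReal
open Filter Topology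

namespace Crest.Agent.R95

open Crest.OpAlg

variable {H : Type*} [NormedAddCommGroup H] [InnerProductSpace ℂ H] [CompleteSpace H]

/-! ### Separability -/

omit [CompleteSpace H] in
theorem separableSpace_L2 [TopologicalSpace.SeparableSpace H] :
    TopologicalSpace.SeparableSpace (L2 H) := by
  have hs : ∀ i : ℕ, TopologicalSpace.IsSeparable
      (Set.range (fun x : H => (lp.single 2 i x : L2 H))) := by
    intro i
    have hc : Continuous (fun x : H => (lp.single 2 i x : L2 H)) :=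
      (lp.isometry_single (E := fun _ : ℕ => H) (p := 2) i).continuous
    exact TopologicalSpace.isSeparable_range hc
  have h1 : TopologicalSpace.IsSeparable
      (⋃ i : ℕ, Set.range (fun x : H => (lp.single 2 i x : L2 H))) :=
    TopologicalSpace.IsSeparable.iUnion hs
  have h2 := h1.span (R := ℂ)
  have h3 := h2.closure
  have h4 : closure ((Submodule.span ℂ (⋃ i : ℕ,
      Set.range (fun x : H => (lp.single 2 i x : L2 H))) : Submodule ℂ (L2 H)) : Set (L2 H))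
      = Set.univ := by
    refine Set.eq_univ_of_forall fun f => ?_
    have hf := lp.hasSum_single (E := fun _ : ℕ => H) (p := 2) (by norm_num) f
    refine mem_closure_of_tendsto hf (Filter.Eventually.of_forall fun s => ?_)
    refine Submodule.sum_mem _ fun i _ => Submodule.subset_span ?_
    exact Set.mem_iUnion.2 ⟨i, ⟨_, rfl⟩⟩
  rw [h4] at h3
  exact TopologicalSpace.isSeparable_univ_iff.1 h3

omit [CompleteSpace H] in
theorem exists_dense_seq_N2 [TopologicalSpace.SeparableSpace H] {ξ : ℕ → H} (hξ : SqSum ξ)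
    (S : Set (H →L[ℂ] H)) (hS : S.Nonempty) :
    ∃ y : ℕ → (H →L[ℂ] H), (∀ k, y k ∈ S) ∧ ∀ x ∈ S, ∀ ε : ℝ, 0 < ε → ∃ k, N2 ξ (y k - x) < ε := by
  have : TopologicalSpace.SeparableSpace (L2 H) := separableSpace_L2
  have : SecondCountableTopology (L2 H) := UniformSpace.secondCountable_of_separable _
  have : Nonempty (io hξ '' S) := (hS.image _).to_subtype
  obtain ⟨z, hz⟩ := TopologicalSpace.exists_dense_seq (io hξ '' S)
  choose y hyS hy using fun k => (z k).2
  refine ⟨y, hyS, fun x hx ε hε => ?_⟩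
  obtain ⟨k, hk⟩ := Metric.denseRange_iff.1 hz ⟨io hξ x, x, hx, rfl⟩ ε hε
  refine ⟨k, ?_⟩
  rw [Subtype.dist_eq, dist_eq_norm] at hk
  rw [← norm_io hξ, map_sub, hy k, norm_sub_rev]
  exact hk

/-! ### Lipschitz dependence of noncommutative polynomials -/

/-- the star algebra generated by `P` and `w` -/
noncomputable def Adj (P : VonNeumannAlgebra H) (w : H →L[ℂ] H) :
    StarSubalgebra ℂ (H →L[ℂ] H) :=
  StarAlgebra.adjoin ℂ ((P : Set (H →L[ℂ] H)) ∪ {w})

theorem Adj_le {P : VonNeumannAlgebra H} {w : H →L[ℂ] H} {V : VonNeumannAlgebra H}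
    (hP : P ≤ V) (hw : w ∈ V) : Adj P w ≤ V.toStarSubalgebra := by
  refine StarAlgebra.adjoin_le ?_
  rintro x (hx | hx)
  · exact hP hx
  · rw [Set.mem_singleton_iff.1 hx]; exact hw

theorem mem_Adj_of_mem {P : VonNeumannAlgebra H} {w x : H →L[ℂ] H} (hx : x ∈ P) :
    x ∈ Adj P w := StarAlgebra.subset_adjoin _ _ (Or.inl hx)

theorem self_mem_Adj {P : VonNeumannAlgebra H} {w : H →L[ℂ] H} :
    w ∈ Adj P w := StarAlgebra.subset_adjoin _ _ (Or.inr rfl)

theorem smul_mem_vn {V : VonNeumannAlgebra H} {x : H →L[ℂ] H} (c : ℂ) (hx : x ∈ V) :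
    c • x ∈ V := V.toStarSubalgebra.smul_mem hx c

theorem algebraMap_mem_vn {V : VonNeumannAlgebra H} (c : ℂ) :
    algebraMap ℂ (H →L[ℂ] H) c ∈ V := V.toStarSubalgebra.algebraMap_mem c

theorem Adj_lip {M P : VonNeumannAlgebra H} (hPM : P ≤ M) {ξ : ℕ → H}
    (hξ : IsFaithfulTracialVectorState M ξ) {w : H →L[ℂ] H} (hw : w ∈ M)
    (hwu : w ∈ unitary (H →L[ℂ] H)) {x : H →L[ℂ] H} (hx : x ∈ Adj P w) :
    ∃ B C : ℝ, 0 ≤ B ∧ 0 ≤ C ∧ ‖x‖ ≤ B ∧ x ∈ M ∧ ∀ w' ∈ M, w' ∈ unitary (H →L[ℂ] H) →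
      ∃ x' ∈ Adj P w', ‖x'‖ ≤ B ∧ x' ∈ M ∧ N2 ξ (x' - x) ≤ C * N2 ξ (w' - w) := by
  have hss := sqSum hξ
  induction hx using StarAlgebra.adjoin_induction with
  | mem x hx =>
    rcases hx with hx | hx
    · refine ⟨‖x‖, 0, norm_nonneg _, le_refl _, le_refl _, hPM hx, fun w' _ _ => ?_⟩
      refine ⟨x, mem_Adj_of_mem hx, le_refl _, hPM hx, ?_⟩
      simp
    · rw [Set.mem_singleton_iff] at hx
      subst hx
      have hn : ∀ z ∈ unitary (H →L[ℂ] H), ‖z‖ ≤ 1 := by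
        intro z hz
        rcases subsingleton_or_nontrivial (H →L[ℂ] H) with h | h
        · rw [Subsingleton.elim z 0]; simp
        · exact (CStarRing.norm_of_mem_unitary hz).le
      refine ⟨1, 1, zero_le_one, zero_le_one, hn _ hwu, hw, fun w' hw' hwu' => ?_⟩
      exact ⟨w', self_mem_Adj, hn _ hwu', hw', by simp⟩
  | algebraMap r =>
    refine ⟨‖algebraMap ℂ (H →L[ℂ] H) r‖, 0, norm_nonneg _, le_refl _, le_refl _,
      algebraMap_mem_vn r, fun w' _ _ => ?_⟩
    refine ⟨_, (Adj P w').algebraMap_mem r, le_refl _, algebraMap_mem_vn r, ?_⟩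
    simp
  | add x y _ _ ihx ihy =>
    obtain ⟨B1, C1, hB1, hC1, hx1, hxM, h1⟩ := ihx
    obtain ⟨B2, C2, hB2, hC2, hy2, hyM, h2⟩ := ihy
    refine ⟨B1 + B2, C1 + C2, by positivity, by positivity,
      (norm_add_le _ _).trans (by gcongr), add_mem hxM hyM, fun w' hw' hwu' => ?_⟩
    obtain ⟨x', hx', hxB, hxM', hxx⟩ := h1 w' hw' hwu'
    obtain ⟨y', hy', hyB, hyM', hyy⟩ := h2 w' hw' hwu'
    refine ⟨x' + y', add_mem hx' hy', (norm_add_le _ _).trans (by gcongr), add_mem hxM' hyM', ?_⟩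
    have e : x' + y' - (x + y) = (x' - x) + (y' - y) := by abel
    rw [e]
    refine (N2_add_le hss _ _).trans ?_
    rw [add_mul]; gcongr
  | mul x y _ _ ihx ihy =>
    obtain ⟨B1, C1, hB1, hC1, hx1, hxM, h1⟩ := ihx
    obtain ⟨B2, C2, hB2, hC2, hy2, hyM, h2⟩ := ihy
    refine ⟨B1 * B2, C1 * B2 + B1 * C2, by positivity, by positivity,
      (norm_mul_le _ _).trans (by gcongr), mul_mem hxM hyM, fun w' hw' hwu' => ?_⟩
    obtain ⟨x', hx', hxB, hxM', hxx⟩ := h1 w' hw' hwu'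
    obtain ⟨y', hy', hyB, hyM', hyy⟩ := h2 w' hw' hwu'
    refine ⟨x' * y', mul_mem hx' hy', (norm_mul_le _ _).trans (by gcongr), mul_mem hxM' hyM', ?_⟩
    have e : x' * y' - x * y = (x' - x) * y' + x * (y' - y) := by
      rw [sub_mul, mul_sub]; abel
    rw [e]
    refine (N2_add_le hss _ _).trans ?_
    have h3 : N2 ξ ((x' - x) * y') ≤ (C1 * N2 ξ (w' - w)) * B2 := by
      refine (N2_mul_right hξ (sub_mem hxM' hxM) hyM').trans ?_
      have : 0 ≤ N2 ξ (w' - w) := N2_nonneg _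
      gcongr
    have h4 : N2 ξ (x * (y' - y)) ≤ B1 * (C2 * N2 ξ (w' - w)) := by
      refine (N2_mul_left hss _ _).trans ?_
      have : 0 ≤ N2 ξ (w' - w) := N2_nonneg _
      gcongr
      exact N2_nonneg _
    calc _ ≤ (C1 * N2 ξ (w' - w)) * B2 + B1 * (C2 * N2 ξ (w' - w)) := add_le_add h3 h4
      _ = _ := by ring
  | star x _ ihx =>
    obtain ⟨B1, C1, hB1, hC1, hx1, hxM, h1⟩ := ihx
    refine ⟨B1, C1, hB1, hC1, by rwa [norm_star], star_mem hxM, fun w' hw' hwu' => ?_⟩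
    obtain ⟨x', hx', hxB, hxM', hxx⟩ := h1 w' hw' hwu'
    refine ⟨star x', star_mem hx', by rwa [norm_star], star_mem hxM', ?_⟩
    rw [← star_sub, N2_star hξ (sub_mem hxM' hxM)]
    exact hxx

/-! ### The von Neumann algebra generated by `P` and `w` -/

/-- `W*(P, w)` -/
noncomputable def Vw (P : VonNeumannAlgebra H) (w : H →L[ℂ] H) : VonNeumannAlgebra H :=
  vnGen ((P : Set (H →L[ℂ] H)) ∪ {w})

theorem P_le_Vw (P : VonNeumannAlgebra H) (w : H →L[ℂ] H) : P ≤ Vw P w :=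
  fun _ hx => subset_vnGen _ _ (Or.inl hx)

theorem self_mem_Vw (P : VonNeumannAlgebra H) (w : H →L[ℂ] H) : w ∈ Vw P w :=
  subset_vnGen _ _ (Or.inr rfl)

theorem Vw_le {P V : VonNeumannAlgebra H} {w : H →L[ℂ] H} (hP : P ≤ V) (hw : w ∈ V) :
    Vw P w ≤ V := by
  refine vnGen_le ?_
  rintro x (hx | hx)
  · exact hP hx
  · rw [Set.mem_singleton_iff.1 hx]; exact hw

theorem Vw_centralizer {P : VonNeumannAlgebra H} {w x : H →L[ℂ] H} (hx : x ∈ Vw P w) :
    x ∈ Set.centralizer (Set.centralizer (Adj P w : Set (H →L[ℂ] H))) := by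
  rw [Vw, ← SetLike.mem_coe, coe_vnGen] at hx
  refine Set.centralizer_subset (Set.centralizer_subset ?_) hx
  rintro y (hy | hy)
  · exact StarAlgebra.subset_adjoin _ _ hy
  · have := star_mem (s := Adj P w) (StarAlgebra.subset_adjoin ℂ _ hy)
    rwa [star_star] at this

theorem Adj_le_Vw {P : VonNeumannAlgebra H} {w x : H →L[ℂ] H} (hx : x ∈ Adj P w) :
    x ∈ Vw P w := Adj_le (P_le_Vw P w) (self_mem_Vw P w) hx

/-! ### Facts on the Cayley transform in von Neumann algebras -/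

theorem mem_vn_of_commute {V : VonNeumannAlgebra H} {x : H →L[ℂ] H}
    (h : ∀ z ∈ V.commutant, z * x = x * z) : x ∈ V := by
  rw [← VonNeumannAlgebra.commutant_commutant V, VonNeumannAlgebra.mem_commutant_iff]
  exact h

theorem res_mem_vn_iff {V : VonNeumannAlgebra H} {X : H →L[ℂ] H} (hX : IsSelfAdjoint X) :
    res X ∈ V ↔ X ∈ V := by
  have h1 := CB.res_mul hX
  have h2 := CB.mul_res hX
  constructor
  · intro h
    have key : (1 - Complex.I • X) ∈ V := by
      refine mem_vn_of_commute fun z hz => ?_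
      have hc : res X * z = z * res X := (VonNeumannAlgebra.mem_commutant_iff.1 hz) _ h
      calc z * (1 - Complex.I • X) = ((1 - Complex.I • X) * res X) * z * (1 - Complex.I • X) := by
            rw [h2, one_mul]
        _ = (1 - Complex.I • X) * z * (res X * (1 - Complex.I • X)) := by
            rw [mul_assoc (1 - Complex.I • X), hc]; simp only [mul_assoc]
        _ = (1 - Complex.I • X) * z := by rw [h1, mul_one]
    have e : X = (-Complex.I) • (1 - (1 - Complex.I • X)) := by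
      rw [sub_sub_cancel, smul_smul]; simp
    rw [e]
    exact smul_mem_vn _ (sub_mem (one_mem _) key)
  · intro h
    refine mem_vn_of_commute fun z hz => ?_
    have hc : X * z = z * X := (VonNeumannAlgebra.mem_commutant_iff.1 hz) _ h
    have hc' : z * (1 - Complex.I • X) = (1 - Complex.I • X) * z := by
      rw [mul_sub, sub_mul, mul_one, one_mul, mul_smul_comm, smul_mul_assoc, hc]
    calc z * res X = (res X * (1 - Complex.I • X)) * z * res X := by rw [h1, one_mul]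
      _ = res X * z * ((1 - Complex.I • X) * res X) := by
          rw [mul_assoc (res X), ← hc']; simp only [mul_assoc]
      _ = res X * z := by rw [h2, mul_one]

theorem cay_mem_vn_iff {V : VonNeumannAlgebra H} {X : H →L[ℂ] H} (hX : IsSelfAdjoint X) :
    cay X ∈ V ↔ X ∈ V := by
  rw [← res_mem_vn_iff hX, CB.cay_def hX]
  constructor
  · intro h
    have e : res X = (2⁻¹ : ℂ) • (((2 : ℂ) • res X - 1) + 1) := by
      rw [sub_add_cancel, smul_smul]; norm_num
    rw [e]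
    exact smul_mem_vn _ (add_mem h (one_mem _))
  · intro h
    exact sub_mem (smul_mem_vn _ h) (one_mem _)

theorem cay_mem_unitary_r2 {X : H →L[ℂ] H} (hX : IsSelfAdjoint X) :
    cay X ∈ unitary (H →L[ℂ] H) :=
  Unitary.mem_iff.2 ⟨CB.star_cay_mul_cay hX, CB.cay_mul_star_cay hX⟩

theorem N2_cay_sub_le {M : VonNeumannAlgebra H} {ξ : ℕ → H}
    (hξ : IsFaithfulTracialVectorState M ξ) {X Z : H →L[ℂ] H} (hX : X ∈ M) (hZ : Z ∈ M)
    (hXsa : IsSelfAdjoint X) (hZsa : IsSelfAdjoint Z) :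
    N2 ξ (cay Z - cay X) ≤ 2 * N2 ξ (Z - X) := by
  have hss := sqSum hξ
  have h1 := CB.cay_add_sub hXsa (hZsa.sub hXsa)
  rw [add_sub_cancel] at h1
  rw [h1, N2_smul hss]
  have hrX : res X ∈ M := (res_mem_vn_iff hXsa).2 hX
  have hrZ : res Z ∈ M := (res_mem_vn_iff hZsa).2 hZ
  have h2 := N2_mul_mul hξ (a := res Z) (sub_mem hZ hX) hrX
  have h3 : ‖(2 * Complex.I : ℂ)‖ = 2 := by simp
  rw [h3]
  have h4 : 0 ≤ N2 ξ (Z - X) := N2_nonneg _
  have h5 : N2 ξ (res Z * (Z - X) * res X) ≤ N2 ξ (Z - X) := by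
    refine h2.trans ?_
    calc ‖res Z‖ * N2 ξ (Z - X) * ‖res X‖ ≤ 1 * N2 ξ (Z - X) * 1 := by
          gcongr
          · exact CB.norm_res_le hZsa
          · exact CB.norm_res_le hXsa
      _ = N2 ξ (Z - X) := by ring
  linarith

/-! ### Inputs -/

/-- Inputs for the reduction, supplied by the other modules. -/
structure Red2Hyp (M P : VonNeumannAlgebra H) (ξ : ℕ → H) : Prop where
  unitary_approx : ∀ w ∈ M, w ∈ unitary (H →L[ℂ] H) → ∀ ε : ℝ, 0 < ε →
    ∃ z : ℂ, ‖z‖ = 1 ∧ ∃ X ∈ M, IsSelfAdjoint X ∧ N2 ξ (z • cay X - w) < ε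
  trunc : ∀ N : VonNeumannAlgebra H, N ≤ M → ∀ R : ℝ, 0 ≤ R → ∀ x ∈ M, IsSelfAdjoint x →
    ‖x‖ ≤ R → ∀ y ∈ N, IsSelfAdjoint y →
    ∃ y' ∈ N, IsSelfAdjoint y' ∧ ‖y'‖ ≤ R ∧ N2 ξ (y' - x) ≤ N2 ξ (y - x)
  core : ∀ R s0 : ℝ, 0 < s0 → ∃ κ : ℝ, 0 < κ ∧ ∀ y0 ∈ M, IsSelfAdjoint y0 → ‖y0‖ ≤ R →
    s0 ≤ N2 ξ y0 → ∀ X ∈ M, IsSelfAdjoint X → ∀ ε : ℝ, 0 < ε → ∃ Z ∈ M, ∃ Y ∈ M,
      IsSelfAdjoint Z ∧ N2 ξ (Z - X) < ε ∧ N2 ξ Y ≤ 1 ∧ κ ≤ (vectorState ξ (Y * y0)).re ∧
      ∀ N : VonNeumannAlgebra H, P ≤ N → Z ∈ N → Y ∈ N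

/-! ### The infimum argument -/

theorem smul_unitary {z : ℂ} (hz : ‖z‖ = 1) {w : H →L[ℂ] H} (hw : w ∈ unitary (H →L[ℂ] H)) :
    z • w ∈ unitary (H →L[ℂ] H) := by
  rw [Unitary.mem_iff] at hw ⊢
  have hzz : starRingEnd ℂ z * z = 1 := by
    rw [← Complex.normSq_eq_conj_mul_self, Complex.normSq_eq_norm_sq, hz]; simp
  have hzz' : z * starRingEnd ℂ z = 1 := by rw [mul_comm]; exact hzz
  constructor
  · rw [star_smul, smul_mul_smul_comm, hw.1]
    simp only [RCLike.star_def]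
    rw [hzz, one_smul]
  · rw [star_smul, smul_mul_smul_comm, hw.2]
    simp only [RCLike.star_def]
    rw [hzz', one_smul]

theorem smul_mem_iff {V : VonNeumannAlgebra H} {z : ℂ} (hz : z ≠ 0) {x : H →L[ℂ] H} :
    z • x ∈ V ↔ x ∈ V := by
  refine ⟨fun h => ?_, fun h => smul_mem_vn z h⟩
  have := smul_mem_vn (V := V) z⁻¹ h
  rwa [smul_smul, inv_mul_cancel₀ hz, one_smul] at this

/-- one improvement step -/
theorem improve {M P : VonNeumannAlgebra H} {ξ : ℕ → H} (hPM : P ≤ M)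
    (hξ : IsFaithfulTracialVectorState M ξ) (h : Red2Hyp M P ξ)
    {y : H →L[ℂ] H} (hy : y ∈ M) (hysa : IsSelfAdjoint y)
    {R : ℝ} (hR : ‖y‖ ≤ R) {κ s0 : ℝ} (hκ : 0 < κ)
    (hcore : ∀ y0 ∈ M, IsSelfAdjoint y0 → ‖y0‖ ≤ 2 * R →
      s0 ≤ N2 ξ y0 → ∀ X ∈ M, IsSelfAdjoint X → ∀ ε : ℝ, 0 < ε → ∃ Z ∈ M, ∃ Y ∈ M,
      IsSelfAdjoint Z ∧ N2 ξ (Z - X) < ε ∧ N2 ξ Y ≤ 1 ∧ κ ≤ (vectorState ξ (Y * y0)).re ∧
      ∀ N : VonNeumannAlgebra H, P ≤ N → Z ∈ N → Y ∈ N)
    {w : H →L[ℂ] H} (hw : w ∈ M) (hwu : w ∈ unitary (H →L[ℂ] H)) {x : H →L[ℂ] H}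
    (hx : x ∈ Vw P w) (hxsa : IsSelfAdjoint x) (hxR : ‖x‖ ≤ R) (hs0 : s0 ≤ N2 ξ (y - x))
    {ε δ : ℝ} (hε : 0 < ε) (hδ : 0 < δ) :
    ∃ w' ∈ M, w' ∈ unitary (H →L[ℂ] H) ∧ N2 ξ (w' - w) < ε ∧ ∃ x' ∈ Vw P w',
      IsSelfAdjoint x' ∧ ‖x'‖ ≤ R ∧
      N2 ξ (y - x') ≤ Real.sqrt (N2 ξ (y - x) ^ 2 - κ ^ 2) + δ := by
  have hss := sqSum hξ
  have hxM : x ∈ M := Vw_le hPM hw hx
  -- approximate `x` by a polynomial
  obtain ⟨x1, hx1, hx1x⟩ := exists_near_of_centralizer hss (Adj P w) (Vw_centralizer hx)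
    (show 0 < δ / 2 by positivity)
  obtain ⟨B, C, hB, hC, hx1B, hx1M, hlip⟩ := Adj_lip hPM hξ hw hwu hx1
  set ε' : ℝ := min ε (δ / (2 * (C + 1))) with hε'
  have hC1 : 0 < C + 1 := by linarith
  have hε'0 : 0 < ε' := by rw [hε']; positivity
  obtain ⟨z, hz, X, hX, hXsa, hXw⟩ := h.unitary_approx w hw hwu (ε' / 2) (by positivity)
  have hz0 : z ≠ 0 := by
    intro h0; rw [h0] at hz; simp at hz
  obtain ⟨Z, hZ, Y, hY, hZsa, hZX, hY1, hYk, hYN⟩ := hcore (y - x) (sub_mem hy hxM)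
    (hysa.sub hxsa) ((norm_sub_le _ _).trans (by linarith)) hs0 X hX hXsa (ε' / 4)
    (by positivity)
  set w' := z • cay Z with hw'
  have hcZ : cay Z ∈ M := (cay_mem_vn_iff hZsa).2 hZ
  have hcX : cay X ∈ M := (cay_mem_vn_iff hXsa).2 hX
  have hw'M : w' ∈ M := smul_mem_vn z hcZ
  have hw'u : w' ∈ unitary (H →L[ℂ] H) := smul_unitary hz (cay_mem_unitary_r2 hZsa)
  have hww : N2 ξ (w' - w) < ε' := by
    have h1 : N2 ξ (w' - z • cay X) ≤ 2 * N2 ξ (Z - X) := by
      rw [hw', ← smul_sub, N2_smul hss, hz, one_mul]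
      exact N2_cay_sub_le hξ hX hZ hXsa hZsa
    have h2 := N2_triangle hss w' (z • cay X) w
    linarith
  refine ⟨w', hw'M, hw'u, lt_of_lt_of_le hww (min_le_left _ _), ?_⟩
  have hZV : Z ∈ Vw P w' := by
    have h1 := self_mem_Vw P w'
    have h2 : cay Z ∈ Vw P w' := (smul_mem_iff hz0).1 h1
    exact (cay_mem_vn_iff hZsa).1 h2
  have hYV : Y ∈ Vw P w' := hYN _ (P_le_Vw P w') hZV
  obtain ⟨x2, hx2, _, hx2M, hx21⟩ := hlip w' hw'M hw'u
  have hx2V : x2 ∈ Vw P w' := Adj_le_Vw hx2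
  have hx2x : N2 ξ (x2 - x) ≤ δ := by
    have h1 := N2_triangle hss x2 x1 x
    have h2 : C * N2 ξ (w' - w) ≤ δ / 2 := by
      have h3 : N2 ξ (w' - w) ≤ δ / (2 * (C + 1)) := (hww.le).trans (min_le_right _ _)
      have h4 : 0 ≤ N2 ξ (w' - w) := N2_nonneg _
      calc C * N2 ξ (w' - w) ≤ (C + 1) * (δ / (2 * (C + 1))) := by gcongr; linarith
        _ = δ / 2 := by field_simp
    linarith
  -- the candidate
  set a := x2 + (κ : ℂ) • star Y with ha
  have haV : a ∈ Vw P w' := add_mem hx2V (smul_mem_vn _ (star_mem hYV))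
  have haM : a ∈ M := Vw_le hPM hw'M haV
  have hya : N2 ξ (y - a) ≤ Real.sqrt (N2 ξ (y - x) ^ 2 - κ ^ 2) + δ := by
    have e : y - a = ((y - x) - (κ : ℂ) • star Y) - (x2 - x) := by rw [ha]; abel
    rw [e]
    refine (N2_sub_le hss _ _).trans ?_
    gcongr
    apply Real.le_sqrt_of_sq_le
    have h1 := N2_sub_sq hss ((κ : ℂ) • star Y) (y - x)
    rw [N2_sub_comm] at h1
    rw [h1, N2_smul hss, N2_star hξ hY, star_smul, star_star, smul_mul_assoc, tr_smul hss]
    simp only [RCLike.star_def, Complex.conj_ofReal, Complex.norm_real, Real.norm_eq_abs]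
    have h2 : ((κ : ℂ) * tr ξ (Y * (y - x))).re = κ * (tr ξ (Y * (y - x))).re := by
      simp
    rw [h2, abs_of_pos hκ]
    have h3 : κ ≤ (tr ξ (Y * (y - x))).re := hYk
    have h4 : 0 ≤ N2 ξ Y := N2_nonneg _
    nlinarith [mul_le_mul_of_nonneg_left hY1 hκ.le, mul_nonneg hκ.le h4,
      mul_le_mul_of_nonneg_left h3 hκ.le]
  -- symmetrise
  set b := (2⁻¹ : ℂ) • (a + star a) with hb
  have hbsa : IsSelfAdjoint b := by
    rw [hb]
    have h1 : IsSelfAdjoint (a + star a) := IsSelfAdjoint.add_star_self a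
    have h2 : IsSelfAdjoint (2⁻¹ : ℂ) := by
      rw [isSelfAdjoint_iff]; simp
    exact h2.smul h1
  have hbV : b ∈ Vw P w' := smul_mem_vn _ (add_mem haV (star_mem haV))
  have hyb : N2 ξ (y - b) ≤ N2 ξ (y - a) := by
    have e : y - b = (2⁻¹ : ℂ) • ((y - a) + star (y - a)) := by
      rw [star_sub, hysa.star_eq, hb]
      module
    rw [e, N2_smul hss]
    have h1 := N2_add_le hss (y - a) (star (y - a))
    rw [N2_star hξ (sub_mem hy haM)] at h1
    have h2 : ‖(2⁻¹ : ℂ)‖ = 2⁻¹ := by simp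
    rw [h2]
    linarith
  obtain ⟨x', hx', hx'sa, hx'R, hx'y⟩ := h.trunc (Vw P w') (Vw_le hPM hw'M) R
    ((norm_nonneg _).trans hR) y hy hysa hR b hbV hbsa
  refine ⟨x', hx', hx'sa, hx'R, ?_⟩
  rw [N2_sub_comm]
  refine hx'y.trans ?_
  rw [N2_sub_comm]
  exact hyb.trans hya

/-- infimum argument: near any unitary `w0` there is a unitary `w` with `W*(P, w)` close to `y` -/
theorem exists_near {M P : VonNeumannAlgebra H} {ξ : ℕ → H} (hPM : P ≤ M)
    (hξ : IsFaithfulTracialVectorState M ξ) (h : Red2Hyp M P ξ)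
    {y : H →L[ℂ] H} (hy : y ∈ M) (hysa : IsSelfAdjoint y)
    {w0 : H →L[ℂ] H} (hw0 : w0 ∈ M) (hw0u : w0 ∈ unitary (H →L[ℂ] H))
    {ε η : ℝ} (hε : 0 < ε) (hη : 0 < η) :
    ∃ w ∈ M, w ∈ unitary (H →L[ℂ] H) ∧ N2 ξ (w - w0) < ε ∧ ∃ x ∈ Vw P w, N2 ξ (x - y) < η := by
  have hss := sqSum hξ
  by_contra hcon
  push Not at hcon
  set R := ‖y‖ with hR
  let 𝒯 : Set ℝ := {t | ∃ w ∈ M, w ∈ unitary (H →L[ℂ] H) ∧ N2 ξ (w - w0) < ε ∧
    ∃ x ∈ Vw P w, IsSelfAdjoint x ∧ ‖x‖ ≤ R ∧ N2 ξ (y - x) = t}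
  have hne : 𝒯.Nonempty := by
    refine ⟨N2 ξ (y - 0), w0, hw0, hw0u, by simpa using hε, 0, zero_mem _, IsSelfAdjoint.zero _,
      by simp [hR], rfl⟩
  have hlb : ∀ t ∈ 𝒯, η ≤ t := by
    rintro t ⟨w, hw, hwu, hwε, x, hx, _, _, rfl⟩
    rw [N2_sub_comm]
    exact hcon w hw hwu hwε x hx
  have hbdd : BddBelow 𝒯 := ⟨η, fun t ht => hlb t ht⟩
  set s := sInf 𝒯 with hs
  have hηs : η ≤ s := le_csInf hne hlb
  have hs0 : 0 < s := lt_of_lt_of_le hη hηs
  obtain ⟨κ, hκ, hcore⟩ := h.core (2 * R) η hη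
  have hlt : s < Real.sqrt (s ^ 2 + κ ^ 2 / 2) := by
    apply Real.lt_sqrt_of_sq_lt
    have : 0 < κ ^ 2 := by positivity
    linarith
  obtain ⟨t, ⟨w, hw, hwu, hwε, x, hx, hxsa, hxR, hxt⟩, hts⟩ := exists_lt_of_csInf_lt hne hlt
  have ht0 : 0 ≤ t := by rw [← hxt]; exact N2_nonneg _
  have ht2 : t ^ 2 < s ^ 2 + κ ^ 2 / 2 := by
    have := Real.sq_sqrt (show (0 : ℝ) ≤ s ^ 2 + κ ^ 2 / 2 by positivity)
    rw [← this]
    gcongr
  have hlt2 : Real.sqrt (t ^ 2 - κ ^ 2) < s := by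
    rw [Real.sqrt_lt' hs0]
    have : 0 < κ ^ 2 := by positivity
    linarith
  set δ := (s - Real.sqrt (t ^ 2 - κ ^ 2)) / 2 with hδ
  have hδ0 : 0 < δ := by rw [hδ]; linarith
  have hηx : η ≤ N2 ξ (y - x) := by
    rw [N2_sub_comm]; exact hcon w hw hwu hwε x hx
  obtain ⟨w', hw', hwu', hww', x', hx', hxsa', hxR', hyx'⟩ := improve hPM hξ h hy hysa
    (le_refl R) hκ hcore hw hwu hx hxsa hxR hηx (sub_pos.2 hwε) hδ0
  have hmem : N2 ξ (y - x') ∈ 𝒯 := by
    refine ⟨w', hw', hwu', ?_, x', hx', hxsa', hxR', rfl⟩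
    have := N2_triangle hss w' w w0
    linarith
  have h1 := csInf_le hbdd hmem
  rw [← hs] at h1
  rw [hxt] at hyx'
  linarith

/-! ### Completeness of the unitary group in the 2-norm -/

theorem norm_unitary_le {z : H →L[ℂ] H} (hz : z ∈ unitary (H →L[ℂ] H)) : ‖z‖ ≤ 1 := by
  rcases subsingleton_or_nontrivial (H →L[ℂ] H) with h | h
  · rw [Subsingleton.elim z 0]; simp
  · exact (CStarRing.norm_of_mem_unitary hz).le

theorem isClosed_io_unitary {M : VonNeumannAlgebra H} {ξ : ℕ → H}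
    (hξ : IsFaithfulTracialVectorState M ξ) :
    IsClosed (io (sqSum hξ) '' {w | w ∈ M ∧ w ∈ unitary (H →L[ℂ] H)}) := by
  have hss := sqSum hξ
  refine IsSeqClosed.isClosed ?_
  intro z η hz hzη
  choose w hw hwz using hz
  have hcau : CauchySeq z := hzη.cauchySeq
  have h1 : ∀ ε : ℝ, 0 < ε → ∃ n₀ : ℕ, ∀ m ≥ n₀, ∀ n ≥ n₀, N2 ξ (w m - w n) < ε := by
    intro ε hε
    obtain ⟨n₀, hn⟩ := Metric.cauchySeq_iff.1 hcau ε hε
    refine ⟨n₀, fun m hm n hn' => ?_⟩
    rw [← norm_io hss, map_sub, hwz, hwz, ← dist_eq_norm]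
    exact hn m hm n hn'
  obtain ⟨y, hyM, _, hty, _⟩ := exists_lim_of_cauchy hξ (fun k => (hw k).1)
    (fun k => norm_unitary_le (hw k).2) h1
  have hst := tendsto_N2_star hξ (fun k => (hw k).1) hyM hty
  have e1 := tendsto_N2_mul hξ (C := 1) (fun k => by rw [norm_star]; exact norm_unitary_le (hw k).2)
    (fun k => star_mem (hw k).1) (star_mem hyM) hyM hst hty
  have e2 := tendsto_N2_mul hξ (C := 1) (fun k => norm_unitary_le (hw k).2)
    (fun k => (hw k).1) hyM (star_mem hyM) hty hst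
  have e1' : Tendsto (fun _ : ℕ => N2 ξ (1 - star y * y)) atTop (𝓝 0) := by
    refine e1.congr fun k => ?_
    rw [(Unitary.mem_iff.1 (hw k).2).1]
  have e2' : Tendsto (fun _ : ℕ => N2 ξ (1 - y * star y)) atTop (𝓝 0) := by
    refine e2.congr fun k => ?_
    rw [(Unitary.mem_iff.1 (hw k).2).2]
  have f1 : N2 ξ (1 - star y * y) = 0 := tendsto_nhds_unique tendsto_const_nhds e1'
  have f2 : N2 ξ (1 - y * star y) = 0 := tendsto_nhds_unique tendsto_const_nhds e2'
  have g1 : 1 = star y * y := eq_of_N2 hξ (one_mem _) (mul_mem (star_mem hyM) hyM) f1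
  have g2 : 1 = y * star y := eq_of_N2 hξ (one_mem _) (mul_mem hyM (star_mem hyM)) f2
  refine ⟨y, ⟨hyM, Unitary.mem_iff.2 ⟨g1.symm, g2.symm⟩⟩, ?_⟩
  have h3 : Tendsto z atTop (𝓝 (io hss y)) := by
    rw [tendsto_iff_norm_sub_tendsto_zero]
    refine hty.congr fun k => ?_
    rw [← norm_io hss, map_sub, hwz]
  exact tendsto_nhds_unique h3 hzη

/-! ### The main reduction -/

/-- the open sets -/
def OO (P : VonNeumannAlgebra H) (ξ : ℕ → H) (y : ℕ → (H →L[ℂ] H)) (j : ℕ) :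
    Set (H →L[ℂ] H) :=
  {w | ∃ x ∈ Adj P w, N2 ξ (x - y (Nat.unpair j).1) < 1 / ((Nat.unpair j).2 + 1)}

theorem OO_open {M P : VonNeumannAlgebra H} {ξ : ℕ → H} (hPM : P ≤ M)
    (hξ : IsFaithfulTracialVectorState M ξ) (y : ℕ → (H →L[ℂ] H)) (j : ℕ)
    {w : H →L[ℂ] H} (hw : w ∈ M) (hwu : w ∈ unitary (H →L[ℂ] H)) (hwO : w ∈ OO P ξ y j) :
    ∃ δ : ℝ, 0 < δ ∧ ∀ v ∈ M, v ∈ unitary (H →L[ℂ] H) → N2 ξ (v - w) < δ → v ∈ OO P ξ y j := by
  obtain ⟨x, hx, hxy⟩ := hwO
  obtain ⟨B, C, hB, hC, hxB, hxM, hlip⟩ := Adj_lip hPM hξ hw hwu hx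
  set r := 1 / (((Nat.unpair j).2 : ℝ) + 1) - N2 ξ (x - y (Nat.unpair j).1) with hr
  have hr0 : 0 < r := by rw [hr]; linarith
  have hC1 : 0 < C + 1 := by linarith
  refine ⟨r / (C + 1), by positivity, fun v hv hvu hvw => ?_⟩
  obtain ⟨x', hx', _, _, hxx⟩ := hlip v hv hvu
  refine ⟨x', hx', ?_⟩
  have h1 := N2_triangle (sqSum hξ) x' x (y (Nat.unpair j).1)
  have h2 : C * N2 ξ (v - w) < r := by
    have h4 : 0 ≤ N2 ξ (v - w) := N2_nonneg _
    calc C * N2 ξ (v - w) ≤ (C + 1) * N2 ξ (v - w) := by gcongr; linarith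
      _ < (C + 1) * (r / (C + 1)) := by gcongr
      _ = r := by field_simp
  linarith

theorem gen_iff {M P : VonNeumannAlgebra H} {ξ : ℕ → H} (hPM : P ≤ M)
    (hξ : IsFaithfulTracialVectorState M ξ) {y : ℕ → (H →L[ℂ] H)}
    (hy : ∀ k, y k ∈ M)
    (hyd : ∀ x ∈ M, IsSelfAdjoint x → ∀ ε : ℝ, 0 < ε → ∃ k, N2 ξ (y k - x) < ε)
    {w : H →L[ℂ] H} (hw : w ∈ M) :
    (∀ N : VonNeumannAlgebra H, P ≤ N → w ∈ N → M ≤ N) ↔ ∀ j, w ∈ OO P ξ y j := by
  constructor
  · intro hN j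
    have h1 : M ≤ Vw P w := hN _ (P_le_Vw P w) (self_mem_Vw P w)
    exact exists_near_of_centralizer (sqSum hξ) (Adj P w) (Vw_centralizer (h1 (hy _)))
      (by positivity)
  · intro hO N hPN hwN
    have hVN : Vw P w ≤ N := Vw_le hPN hwN
    have hVM : Vw P w ≤ M := Vw_le hPM hw
    have hsa : ∀ x ∈ M, IsSelfAdjoint x → x ∈ Vw P w := by
      intro x hx hxsa
      refine mem_of_forall_N2_lt hξ hVM hx fun ε hε => ?_
      obtain ⟨k, hk⟩ := hyd x hx hxsa (ε / 2) (by positivity)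
      obtain ⟨m, hm⟩ := exists_nat_one_div_lt (show (0 : ℝ) < ε / 2 by positivity)
      obtain ⟨a, ha, hak⟩ := hO (Nat.pair k m)
      rw [Nat.unpair_pair] at hak
      refine ⟨a, Adj_le_Vw ha, ?_⟩
      have := N2_triangle (sqSum hξ) a (y k) x
      simp only at hak
      linarith
    intro x hx
    apply hVN
    -- real and imaginary parts
    have hre : (2⁻¹ : ℂ) • (x + star x) ∈ Vw P w := by
      refine hsa _ (smul_mem_vn _ (add_mem hx (star_mem hx))) ?_
      have h2 : IsSelfAdjoint (2⁻¹ : ℂ) := by rw [isSelfAdjoint_iff]; simp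
      exact h2.smul (IsSelfAdjoint.add_star_self x)
    have him : (Complex.I * 2⁻¹ : ℂ) • (star x - x) ∈ Vw P w := by
      refine hsa _ (smul_mem_vn _ (sub_mem (star_mem hx) hx)) ?_
      rw [isSelfAdjoint_iff, star_smul, star_sub, star_star]
      simp only [RCLike.star_def, map_mul, Complex.conj_I, map_inv₀, map_ofNat]
      rw [neg_mul, neg_smul, ← smul_neg, neg_sub]
    have e : x = (2⁻¹ : ℂ) • (x + star x) + Complex.I • ((Complex.I * 2⁻¹ : ℂ) • (star x - x)) := by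
      rw [smul_smul, ← mul_assoc, Complex.I_mul_I]
      module
    rw [e]
    exact add_mem hre (smul_mem_vn _ him)

/-- The main reduction: the generating unitaries are a relatively 2-norm dense `G_δ`. -/
theorem red2_main [TopologicalSpace.SeparableSpace H] {M P : VonNeumannAlgebra H} {ξ : ℕ → H}
    (hPM : P ≤ M) (hξ : IsFaithfulTracialVectorState M ξ) (h : Red2Hyp M P ξ) :
    (∃ O : ℕ → Set (H →L[ℂ] H),
      (∀ k : ℕ, ∀ u ∈ M, u ∈ unitary (H →L[ℂ] H) → u ∈ O k → ∃ δ : ℝ, 0 < δ ∧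
        ∀ v ∈ M, v ∈ unitary (H →L[ℂ] H) → Crest.OpAlg.traceNormSq ξ (v - u) < δ → v ∈ O k) ∧
      (∀ u ∈ M, u ∈ unitary (H →L[ℂ] H) →
        ((∀ N : VonNeumannAlgebra H, P ≤ N → u ∈ N → M ≤ N) ↔ ∀ k : ℕ, u ∈ O k))) ∧
    (∀ u ∈ M, u ∈ unitary (H →L[ℂ] H) → ∀ ε : ℝ, 0 < ε →
      ∃ v ∈ M, v ∈ unitary (H →L[ℂ] H) ∧ (∀ N : VonNeumannAlgebra H, P ≤ N → v ∈ N → M ≤ N) ∧
        Crest.OpAlg.traceNormSq ξ (v - u) < ε) := by
  have hss := sqSum hξ
  obtain ⟨y, hyS, hyd'⟩ := exists_dense_seq_N2 hss {x | x ∈ M ∧ IsSelfAdjoint x}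
    ⟨0, zero_mem _, IsSelfAdjoint.zero _⟩
  have hy : ∀ k, y k ∈ M := fun k => (hyS k).1
  have hysa : ∀ k, IsSelfAdjoint (y k) := fun k => (hyS k).2
  have hyd : ∀ x ∈ M, IsSelfAdjoint x → ∀ ε : ℝ, 0 < ε → ∃ k, N2 ξ (y k - x) < ε :=
    fun x hx hxsa => hyd' x ⟨hx, hxsa⟩
  refine ⟨⟨OO P ξ y, ?_, fun u hu _ => gen_iff hPM hξ hy hyd hu⟩, ?_⟩
  · intro k u hu huu huO
    obtain ⟨δ, hδ, hO⟩ := OO_open hPM hξ y k hu huu huO
    refine ⟨δ ^ 2, by positivity, fun v hv hvu hvuδ => hO v hv hvu ?_⟩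
    rw [N2, Real.sqrt_lt' hδ]
    exact hvuδ
  · -- Baire
    intro u hu huu ε hε
    let 𝒰 : Set (L2 H) := io hss '' {w | w ∈ M ∧ w ∈ unitary (H →L[ℂ] H)}
    have hcl : IsClosed 𝒰 := isClosed_io_unitary hξ
    have hcs : CompleteSpace 𝒰 := hcl.completeSpace_coe
    let G : ℕ → Set 𝒰 := fun j => {η | ∃ w ∈ M, w ∈ unitary (H →L[ℂ] H) ∧ io hss w = η ∧
      w ∈ OO P ξ y j}
    have hinj : ∀ w ∈ M, ∀ w' ∈ M, io hss w = io hss w' → w = w' := by
      intro w hw w' hw' he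
      refine eq_of_N2 hξ hw hw' ?_
      rw [← norm_io hss, map_sub, he, sub_self, norm_zero]
    have hGo : ∀ j, IsOpen (G j) := by
      intro j
      rw [Metric.isOpen_iff]
      rintro ⟨η, hη⟩ ⟨w, hw, hwu, hwη, hwO⟩
      obtain ⟨δ, hδ, hO⟩ := OO_open hPM hξ y j hw hwu hwO
      refine ⟨δ, hδ, ?_⟩
      rintro ⟨η', v, ⟨hv, hvu⟩, rfl⟩ hη'
      refine ⟨v, hv, hvu, rfl, hO v hv hvu ?_⟩
      rw [Metric.mem_ball, Subtype.dist_eq, dist_eq_norm] at hη'
      rw [← norm_io hss, map_sub, hwη]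
      exact hη'
    have hGd : ∀ j, Dense (G j) := by
      intro j
      rw [Metric.dense_iff]
      rintro ⟨η, w0, ⟨hw0, hw0u⟩, rfl⟩ r hr
      obtain ⟨w, hw, hwu, hwr, x, hx, hxy⟩ := exists_near hPM hξ h (hy (Nat.unpair j).1)
        (hysa _) hw0 hw0u hr (show (0 : ℝ) < 1 / ((Nat.unpair j).2 + 1) / 2 by positivity)
      obtain ⟨x1, hx1, hx1x⟩ := exists_near_of_centralizer hss (Adj P w) (Vw_centralizer hx)
        (show (0 : ℝ) < 1 / ((Nat.unpair j).2 + 1) / 2 by positivity)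
      refine ⟨⟨io hss w, w, ⟨hw, hwu⟩, rfl⟩, ?_, w, hw, hwu, rfl, x1, hx1, ?_⟩
      · rw [Metric.mem_ball, Subtype.dist_eq, dist_eq_norm]
        change ‖io hss w - io hss w0‖ < r
        rw [← map_sub, norm_io hss]
        exact hwr
      · have := N2_triangle hss x1 x (y (Nat.unpair j).1)
        linarith
    have hdense : Dense (⋂ j, G j) := dense_iInter_of_isOpen_nat hGo hGd
    rw [Metric.dense_iff] at hdense
    obtain ⟨⟨η, w, ⟨hw, hwu⟩, rfl⟩, hηb, hηG⟩ := hdense ⟨io hss u, u, ⟨hu, huu⟩, rfl⟩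
      (Real.sqrt ε) (Real.sqrt_pos.2 hε)
    refine ⟨w, hw, hwu, ?_, ?_⟩
    · refine (gen_iff hPM hξ hy hyd hw).2 fun j => ?_
      obtain ⟨w', hw', hwu', hww', hO⟩ := Set.mem_iInter.1 hηG j
      have : w' = w := hinj w' hw' w hw hww'
      rwa [this] at hO
    · rw [Metric.mem_ball, Subtype.dist_eq, dist_eq_norm] at hηb
      change ‖io hss w - io hss u‖ < _ at hηb
      rw [← map_sub, norm_io hss, N2, Real.sqrt_lt_sqrt_iff (traceNormSq_nonneg _)] at hηb
      exact hηb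

end Crest.Agent.R95
end

-- ▼ part R95/SingleGen

/-!
R95 (helper761): reduction of S0125 to the density statement for `Q = M ∩ {u 0, v 0}'`.
-/

set_option autoImplicit false

namespace Crest.Agent.R95

open scoped InnerProductSpace
open Filter Topology

variable {H : Type*} [NormedAddCommGroup H] [InnerProductSpace ℂ H] [CompleteSpace H]

/-- if `t` commutes with `z + r`, `z² = 1`, `z r = r z`, `‖r‖ < 1`, then `t` commutes with `z`. -/
theorem comm_of_comm_add {z r t : H →L[ℂ] H} (hz : z * z = 1) (hzr : z * r = r * z)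
    (hr : ‖r‖ < 1) (ht : t * (z + r) = (z + r) * t) : t * z = z * t := by
  have key : ∀ z' : H →L[ℂ] H, z' * z' = 1 → z' * r = r * z' →
      (t * (z' + r) = (z' + r) * t ∨ t * (-z' + r) = (-z' + r) * t) →
      (1 + z') * t * (1 - z') = 0 := by
    intro z' hz' hzr' ht'
    set s := (1 + z') * t * (1 - z') with hs
    have h1 : z' * s = s := by
      rw [hs]
      have : z' * (1 + z') = 1 + z' := by rw [mul_add, mul_one, hz', add_comm]
      rw [← mul_assoc, ← mul_assoc, this]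
    have h2 : s * z' = -s := by
      rw [hs, mul_assoc]
      have : (1 - z') * z' = -(1 - z') := by rw [sub_mul, one_mul, hz']; abel
      rw [this, mul_neg]
    have hr1 : (1 + z') * r = r * (1 + z') := by rw [add_mul, mul_add, one_mul, mul_one, hzr']
    have hr2 : (1 - z') * r = r * (1 - z') := by rw [sub_mul, mul_sub, one_mul, mul_one, hzr']
    have hz1 : (1 + z') * z' = z' * (1 + z') := by rw [add_mul, mul_add, one_mul, mul_one]
    have hz2 : (1 - z') * z' = z' * (1 - z') := by rw [sub_mul, mul_sub, one_mul, mul_one]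
    have h3 : (2 : ℂ) • s = s * r - r * s ∨ (2 : ℂ) • s = r * s - s * r := by
      rcases ht' with ht' | ht'
      · left
        have e : s * (z' + r) = (z' + r) * s := by
          calc s * (z' + r) = (1 + z') * t * ((1 - z') * (z' + r)) := by rw [hs, mul_assoc]
            _ = (1 + z') * t * ((z' + r) * (1 - z')) := by
                rw [mul_add (1 - z'), add_mul z' r, hz2, hr2]
            _ = (1 + z') * (t * (z' + r)) * (1 - z') := by simp only [mul_assoc]
            _ = (1 + z') * ((z' + r) * t) * (1 - z') := by rw [ht']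
            _ = ((1 + z') * (z' + r)) * t * (1 - z') := by simp only [mul_assoc]
            _ = ((z' + r) * (1 + z')) * t * (1 - z') := by
                rw [mul_add (1 + z'), add_mul z' r, hz1, hr1]
            _ = (z' + r) * s := by rw [hs]; simp only [mul_assoc]
        rw [mul_add, add_mul, h1, h2] at e
        rw [two_smul]
        have e' : s + s = (s + r * s) - r * s + s := by abel
        rw [e', ← e]; abel
      · right
        have e : s * (-z' + r) = (-z' + r) * s := by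
          calc s * (-z' + r) = (1 + z') * t * ((1 - z') * (-z' + r)) := by rw [hs, mul_assoc]
            _ = (1 + z') * t * ((-z' + r) * (1 - z')) := by
                rw [mul_add (1 - z'), add_mul (-z') r, mul_neg, neg_mul, hz2, hr2]
            _ = (1 + z') * (t * (-z' + r)) * (1 - z') := by simp only [mul_assoc]
            _ = (1 + z') * ((-z' + r) * t) * (1 - z') := by rw [ht']
            _ = ((1 + z') * (-z' + r)) * t * (1 - z') := by simp only [mul_assoc]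
            _ = ((-z' + r) * (1 + z')) * t * (1 - z') := by
                rw [mul_add (1 + z'), add_mul (-z') r, mul_neg, neg_mul, hz1, hr1]
            _ = (-z' + r) * s := by rw [hs]; simp only [mul_assoc]
        rw [mul_add, add_mul, mul_neg, neg_mul, h1, h2] at e
        rw [two_smul]
        have e' : s + s = (- -s + s * r) - s * r + s := by abel
        rw [e', e]; abel
    have h4 : 2 * ‖s‖ ≤ 2 * ‖r‖ * ‖s‖ := by
      have e1 : ‖(2 : ℂ) • s‖ = 2 * ‖s‖ := by rw [norm_smul]; norm_num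
      have e2 : ‖s * r‖ ≤ ‖r‖ * ‖s‖ := (norm_mul_le _ _).trans (by rw [mul_comm])
      have e3 : ‖r * s‖ ≤ ‖r‖ * ‖s‖ := norm_mul_le _ _
      rcases h3 with h3 | h3
      · rw [← e1, h3]
        exact (norm_sub_le _ _).trans (by linarith)
      · rw [← e1, h3]
        exact (norm_sub_le _ _).trans (by linarith)
    have h5 : ‖s‖ ≤ 0 := by
      by_contra h
      push Not at h
      nlinarith
    exact norm_le_zero_iff.1 h5
  have k1 := key z hz hzr (Or.inl ht)
  have k2 := key (-z) (by rw [neg_mul_neg, hz]) (by rw [neg_mul, mul_neg, hzr])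
    (Or.inr (by rw [neg_neg]; exact ht))
  have k3 : (2 : ℂ) • (t * z) = (2 : ℂ) • (z * t) := by
    rw [two_smul, two_smul]
    have e1 : (1 + z) * t * (1 - z) = t - t * z + z * t - z * t * z := by
      rw [add_mul, one_mul, add_mul, mul_sub, mul_sub, mul_one, mul_one]; abel
    have e2 : (1 + -z) * t * (1 - -z) = t + t * z - z * t - z * t * z := by
      rw [sub_neg_eq_add, add_mul, one_mul, add_mul, mul_add, mul_add, mul_one, mul_one, neg_mul,
        neg_mul]; abel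
    rw [e1] at k1
    rw [e2] at k2
    have e3 : t * z + t * z = (t + t * z - z * t - z * t * z) - (t - t * z + z * t - z * t * z)
        + (z * t + z * t) := by abel
    rw [e3, k1, k2]; abel
  exact smul_right_injective _ (two_ne_zero) k3

theorem vn_mem_of_comm {M : VonNeumannAlgebra H} {x : H →L[ℂ] H}
    (h : ∀ y ∈ M.commutant, y * x = x * y) : x ∈ M := by
  rw [← VonNeumannAlgebra.commutant_commutant M, VonNeumannAlgebra.mem_commutant_iff]
  exact h

theorem vn_comm_of_mem {M : VonNeumannAlgebra H} {x y : H →L[ℂ] H}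
    (hx : x ∈ M) (hy : y ∈ M.commutant) : x * y = y * x := by
  rw [VonNeumannAlgebra.mem_commutant_iff] at hy
  exact hy x hx

theorem vn_smul_mem {M : VonNeumannAlgebra H} {x : H →L[ℂ] H} (c : ℂ) (hx : x ∈ M) :
    c • x ∈ M := by
  apply vn_mem_of_comm
  intro y hy
  rw [smul_mul_assoc, mul_smul_comm, vn_comm_of_mem hx hy]

theorem vn_recover {N : VonNeumannAlgebra H} {z r : H →L[ℂ] H} (hz : z * z = 1)
    (hzr : z * r = r * z) (hr : ‖r‖ < 1) (h : z + r ∈ N) : z ∈ N ∧ r ∈ N := by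
  have h1 : z ∈ N := by
    apply vn_mem_of_comm
    intro y hy
    exact comm_of_comm_add hz hzr hr (vn_comm_of_mem h hy).symm
  refine ⟨h1, ?_⟩
  have := sub_mem h h1
  simpa using this

/-- norm of a selfadjoint unitary is at most one -/
theorem norm_le_one_of_sa_sq {z : H →L[ℂ] H} (hsa : IsSelfAdjoint z) (hz : z * z = 1) :
    ‖z‖ ≤ 1 := by
  have h1 : ‖z‖ * ‖z‖ = ‖z * z‖ := by
    have := CStarRing.norm_star_mul_self (x := z)
    rw [hsa.star_eq] at this
    exact this.symm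
  have h2 : ‖(1 : H →L[ℂ] H)‖ ≤ 1 := ContinuousLinearMap.norm_id_le
  rw [hz] at h1
  nlinarith [norm_nonneg z]

/-- the weighted tail sum -/
noncomputable def tailSum (u : ℕ → H →L[ℂ] H) (m : ℕ) : H →L[ℂ] H :=
  ∑' j : ℕ, ((1 / 3 : ℂ) ^ j) • u (m + j)

section tail

variable {u : ℕ → H →L[ℂ] H}

theorem tail_summable (hu : ∀ j, ‖u j‖ ≤ 1) (m : ℕ) :
    Summable fun j : ℕ => ((1 / 3 : ℂ) ^ j) • u (m + j) := by
  refine Summable.of_norm_bounded (g := fun j : ℕ => ((1 / 3 : ℝ)) ^ j)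
    (summable_geometric_of_lt_one (by norm_num) (by norm_num)) fun j => ?_
  rw [norm_smul, norm_pow]
  have : ‖(1 / 3 : ℂ)‖ = 1 / 3 := by norm_num
  rw [this]
  exact mul_le_of_le_one_right (by positivity) (hu _)

theorem norm_tailSum_le (hu : ∀ j, ‖u j‖ ≤ 1) (m : ℕ) : ‖tailSum u m‖ ≤ 3 / 2 := by
  have h : HasSum (fun j : ℕ => ((1 / 3 : ℝ)) ^ j) (3 / 2) := by
    have := hasSum_geometric_of_lt_one (r := (1 / 3 : ℝ)) (by norm_num) (by norm_num)
    convert this using 1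
    norm_num
  refine tsum_of_norm_bounded h fun j => ?_
  rw [norm_smul, norm_pow]
  have : ‖(1 / 3 : ℂ)‖ = 1 / 3 := by norm_num
  rw [this]
  exact mul_le_of_le_one_right (by positivity) (hu _)

theorem tailSum_succ (hu : ∀ j, ‖u j‖ ≤ 1) (m : ℕ) :
    tailSum u m = u m + (1 / 3 : ℂ) • tailSum u (m + 1) := by
  unfold tailSum
  rw [(tail_summable hu m).tsum_eq_zero_add, ← (tail_summable hu (m + 1)).tsum_const_smul]
  simp only [pow_zero, one_smul, add_zero]
  congr 1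
  refine tsum_congr fun j => ?_
  rw [smul_smul, pow_succ', show m + (j + 1) = m + 1 + j by ring]

theorem comm_tailSum (hu : ∀ j, ‖u j‖ ≤ 1) {m : ℕ} {y : H →L[ℂ] H}
    (h : ∀ j, m ≤ j → y * u j = u j * y) : y * tailSum u m = tailSum u m * y := by
  unfold tailSum
  rw [← (tail_summable hu m).tsum_mul_left, ← (tail_summable hu m).tsum_mul_right]
  refine tsum_congr fun j => ?_
  rw [mul_smul_comm, smul_mul_assoc, h _ (Nat.le_add_right _ _)]

theorem tailSum_mem (hu : ∀ j, ‖u j‖ ≤ 1) {M : VonNeumannAlgebra H} (m : ℕ)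
    (h : ∀ j, u j ∈ M) : tailSum u m ∈ M := by
  apply vn_mem_of_comm
  intro y hy
  exact comm_tailSum hu fun j _ => (vn_comm_of_mem (h j) hy).symm

theorem tailSum_sa (hsa : ∀ j, IsSelfAdjoint (u j)) (m : ℕ) :
    IsSelfAdjoint (tailSum u m) := by
  unfold tailSum
  rw [isSelfAdjoint_iff, tsum_star]
  refine tsum_congr fun j => ?_
  rw [star_smul, (hsa _).star_eq]
  congr 1
  simp

/-- a von Neumann algebra containing a tail sum contains all its terms -/
theorem mem_of_tailSum_mem (hsa : ∀ j, IsSelfAdjoint (u j)) (hsq : ∀ j, u j * u j = 1)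
    (hcomm : ∀ i j, i ≠ j → u i * u j = u j * u i) {N : VonNeumannAlgebra H} {m : ℕ}
    (h : tailSum u m ∈ N) : ∀ j, u (m + j) ∈ N := by
  have hu : ∀ j, ‖u j‖ ≤ 1 := fun j => norm_le_one_of_sa_sq (hsa j) (hsq j)
  have key : ∀ m, tailSum u m ∈ N → u m ∈ N ∧ tailSum u (m + 1) ∈ N := by
    intro m hm
    rw [tailSum_succ hu] at hm
    have hc : u m * ((1 / 3 : ℂ) • tailSum u (m + 1)) = ((1 / 3 : ℂ) • tailSum u (m + 1)) * u m := by
      rw [mul_smul_comm, smul_mul_assoc]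
      congr 1
      exact comm_tailSum hu fun j hj => hcomm m j (by omega)
    have hn : ‖(1 / 3 : ℂ) • tailSum u (m + 1)‖ < 1 := by
      rw [norm_smul]
      have h1 : ‖(1 / 3 : ℂ)‖ = 1 / 3 := by norm_num
      have h2 := norm_tailSum_le hu (m + 1)
      rw [h1]; linarith
    obtain ⟨h1, h2⟩ := vn_recover (hsq m) hc hn hm
    refine ⟨h1, ?_⟩
    have := vn_smul_mem (3 : ℂ) h2
    rw [smul_smul] at this
    norm_num at this
    exact this
  have all : ∀ j, tailSum u (m + j) ∈ N := by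
    intro j
    induction j with
    | zero => simpa using h
    | succ j ih => exact (key _ ih).2
  exact fun j => (key _ (all j)).1

end tail

/-- **RED3**: single generation of `M` from the density statement for `M ∩ {u 0, v 0}'`. -/
theorem single_gen_of_density {M : VonNeumannAlgebra H} {u v : ℕ → H →L[ℂ] H}
    (h : HasPauli M u v)
    (hd : ∃ w ∈ M, w ∈ unitary (H →L[ℂ] H) ∧ w * u 0 = u 0 * w ∧ w * v 0 = v 0 * w ∧
      ∀ N : VonNeumannAlgebra H, (∀ j, u (1 + j) ∈ N ∧ v (1 + j) ∈ N) → w ∈ N →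
        ∀ y ∈ M, y * u 0 = u 0 * y → y * v 0 = v 0 * y → y ∈ N) :
    ∃ x ∈ M, ∀ N : VonNeumannAlgebra H, x ∈ N → M ≤ N := by
  obtain ⟨w, hwM, hwU, hwZ, hwX, hgen⟩ := hd
  obtain ⟨h1, h2⟩ := h
  have husa : ∀ j, IsSelfAdjoint (u j) := fun j => (h1 j).2.2.1
  have hvsa : ∀ j, IsSelfAdjoint (v j) := fun j => (h1 j).2.2.2.1
  have husq : ∀ j, u j * u j = 1 := fun j => (h1 j).2.2.2.2.1
  have hvsq : ∀ j, v j * v j = 1 := fun j => (h1 j).2.2.2.2.2.1
  have hun : ∀ j, ‖u j‖ ≤ 1 := fun j => norm_le_one_of_sa_sq (husa j) (husq j)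
  have hvn : ∀ j, ‖v j‖ ≤ 1 := fun j => norm_le_one_of_sa_sq (hvsa j) (hvsq j)
  set Z := u 0 with hZdef
  set X := v 0 with hXdef
  have hZM : Z ∈ M := (h1 0).1
  have hXM : X ∈ M := (h1 0).2.1
  have hZX : Z * X = -(X * Z) := (h1 0).2.2.2.2.2.2
  have hXX : X * X = 1 := hvsq 0
  have hZsa : star Z = Z := (husa 0).star_eq
  have hXsa : star X = X := (hvsa 0).star_eq
  have hZZ : Z * Z = 1 := husq 0
  set e : H →L[ℂ] H := (1 / 2 : ℂ) • (1 + Z) with he
  set f : H →L[ℂ] H := (1 / 2 : ℂ) • (1 - Z) with hf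
  have hef1 : e + f = 1 := by
    rw [he, hf, ← smul_add]
    have : (1 + Z + (1 - Z)) = (2 : ℂ) • (1 : H →L[ℂ] H) := by rw [two_smul]; abel
    rw [this, smul_smul]; norm_num
  have hZef : Z = e - f := by
    rw [he, hf, ← smul_sub]
    have : (1 + Z - (1 - Z)) = (2 : ℂ) • Z := by rw [two_smul]; abel
    rw [this, smul_smul]; norm_num
  have hf' : f = 1 - e := eq_sub_of_add_eq' hef1
  have hee : e * e = e := by
    rw [he, smul_mul_smul_comm, add_mul, mul_add, mul_add]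
    simp only [one_mul, mul_one, hZZ]
    have : (1 + Z + (Z + 1)) = (2 : ℂ) • (1 + Z) := by rw [two_smul]; abel
    rw [this, smul_smul]; norm_num
  have hef : e * f = 0 := by rw [hf', mul_sub, mul_one, hee, sub_self]
  have hfe : f * e = 0 := by rw [hf', sub_mul, one_mul, hee, sub_self]
  have hff : f * f = f := by rw [hf', mul_sub, sub_mul, sub_mul, one_mul, hee]; simp
  have hXe : X * e = f * X := by
    rw [he, hf, mul_smul_comm, smul_mul_assoc, mul_add, sub_mul, hZX]; simp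
  have hXf : X * f = e * X := by
    rw [he, hf, mul_smul_comm, smul_mul_assoc, mul_sub, add_mul, hZX]; simp [sub_eq_add_neg]
  have hee' : ∀ t, e * (e * t) = e * t := fun t => by rw [← mul_assoc, hee]
  have hef' : ∀ t, e * (f * t) = 0 := fun t => by rw [← mul_assoc, hef, zero_mul]
  have hfe' : ∀ t, f * (e * t) = 0 := fun t => by rw [← mul_assoc, hfe, zero_mul]
  have hff' : ∀ t, f * (f * t) = f * t := fun t => by rw [← mul_assoc, hff]
  have hXe' : ∀ t, X * (e * t) = f * (X * t) := fun t => by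
    rw [← mul_assoc, hXe, mul_assoc]
  have hXf' : ∀ t, X * (f * t) = e * (X * t) := fun t => by
    rw [← mul_assoc, hXf, mul_assoc]
  have hXX' : ∀ t, X * (X * t) = t := fun t => by rw [← mul_assoc, hXX, one_mul]
  have hesa : star e = e := by
    rw [he, star_smul, star_add, star_one, hZsa]; simp
  have hfsa : star f = f := by rw [hf', star_sub, star_one, hesa]
  have heM : e ∈ M := vn_smul_mem _ (add_mem (one_mem _) hZM)
  have hfM : f ∈ M := vn_smul_mem _ (sub_mem (one_mem _) hZM)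
  have hen : ‖e‖ ≤ 1 := by
    rw [he, norm_smul]
    have h2' : ‖(1 : H →L[ℂ] H)‖ ≤ 1 := ContinuousLinearMap.norm_id_le
    have h3' : ‖(1 : H →L[ℂ] H) + Z‖ ≤ 2 := (norm_add_le _ _).trans (by linarith [hun 0])
    have h4' : ‖(1 / 2 : ℂ)‖ = 1 / 2 := by norm_num
    rw [h4']; linarith
  have hfn : ‖f‖ ≤ 1 := by
    rw [hf, norm_smul]
    have h2' : ‖(1 : H →L[ℂ] H)‖ ≤ 1 := ContinuousLinearMap.norm_id_le
    have h3' : ‖(1 : H →L[ℂ] H) - Z‖ ≤ 2 := (norm_sub_le _ _).trans (by linarith [hun 0])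
    have h4' : ‖(1 / 2 : ℂ)‖ = 1 / 2 := by norm_num
    rw [h4']; linarith
  -- the four selfadjoint generators of `Q`
  have hwn : ‖w‖ ≤ 1 := by
    have hw1 := CStarRing.norm_star_mul_self (x := w)
    rw [Unitary.star_mul_self_of_mem hwU] at hw1
    have h2' : ‖(1 : H →L[ℂ] H)‖ ≤ 1 := ContinuousLinearMap.norm_id_le
    nlinarith [norm_nonneg w]
  have hwsn : ‖star w‖ ≤ 1 := by rw [norm_star]; exact hwn
  have hcommstar : ∀ a : H →L[ℂ] H, IsSelfAdjoint a → w * a = a * w → star w * a = a * star w := by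
    intro a ha hwa
    have := congrArg star hwa
    rw [star_mul, star_mul, ha.star_eq] at this
    exact this.symm
  have hwsZ : star w * Z = Z * star w := hcommstar Z (husa 0) hwZ
  have hwsX : star w * X = X * star w := hcommstar X (hvsa 0) hwX
  set b1 := tailSum u 1 with hb1
  set b2 := tailSum v 1 with hb2
  set b3 : H →L[ℂ] H := (1 / 2 : ℂ) • (w + star w) with hb3
  set b4 : H →L[ℂ] H := (-(Complex.I / 2) : ℂ) • (w - star w) with hb4
  have hb1Z : b1 * Z = Z * b1 := (comm_tailSum hun fun j hj => (h2 0 j (by omega)).1).symm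
  have hb1X : b1 * X = X * b1 := by
    refine (comm_tailSum hun fun j hj => ?_).symm
    exact ((h2 j 0 (by omega)).2.1).symm
  have hb2Z : b2 * Z = Z * b2 := (comm_tailSum hvn fun j hj => (h2 0 j (by omega)).2.1).symm
  have hb2X : b2 * X = X * b2 := (comm_tailSum hvn fun j hj => (h2 0 j (by omega)).2.2).symm
  have hb3Z : b3 * Z = Z * b3 := by
    rw [hb3, smul_mul_assoc, mul_smul_comm, add_mul, mul_add, hwZ, hwsZ]
  have hb3X : b3 * X = X * b3 := by
    rw [hb3, smul_mul_assoc, mul_smul_comm, add_mul, mul_add, hwX, hwsX]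
  have hb4Z : b4 * Z = Z * b4 := by
    rw [hb4, smul_mul_assoc, mul_smul_comm, sub_mul, mul_sub, hwZ, hwsZ]
  have hb4X : b4 * X = X * b4 := by
    rw [hb4, smul_mul_assoc, mul_smul_comm, sub_mul, mul_sub, hwX, hwsX]
  have comme : ∀ b : H →L[ℂ] H, b * Z = Z * b → b * e = e * b := by
    intro b hb
    rw [he, mul_smul_comm, smul_mul_assoc, mul_add, add_mul, hb, one_mul, mul_one]
  have commf : ∀ b : H →L[ℂ] H, b * Z = Z * b → b * f = f * b := by
    intro b hb
    rw [hf, mul_smul_comm, smul_mul_assoc, mul_sub, sub_mul, hb, one_mul, mul_one]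
  have hb1M : b1 ∈ M := tailSum_mem hun 1 fun j => (h1 j).1
  have hb2M : b2 ∈ M := tailSum_mem hvn 1 fun j => (h1 j).2.1
  have hwsM : star w ∈ M := star_mem hwM
  have hb3M : b3 ∈ M := vn_smul_mem _ (add_mem hwM hwsM)
  have hb4M : b4 ∈ M := vn_smul_mem _ (sub_mem hwM hwsM)
  have hb1sa : star b1 = b1 := (tailSum_sa husa 1).star_eq
  have hb2sa : star b2 = b2 := (tailSum_sa hvsa 1).star_eq
  have hb3sa : star b3 = b3 := by
    rw [hb3, star_smul, star_add, star_star, add_comm]; simp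
  have hb4sa : star b4 = b4 := by
    rw [hb4, star_smul, star_sub, star_star]
    simp only [star_neg, RCLike.star_def, map_div₀, Complex.conj_I, map_ofNat]
    rw [← neg_sub w (star w), smul_neg, ← neg_smul]
    congr 1; ring
  have hb3n : ‖b3‖ ≤ 1 := by
    rw [hb3, norm_smul]
    have h3' : ‖w + star w‖ ≤ 2 := (norm_add_le _ _).trans (by linarith)
    have h4' : ‖(1 / 2 : ℂ)‖ = 1 / 2 := by norm_num
    rw [h4']; linarith
  have hb4n : ‖b4‖ ≤ 1 := by
    rw [hb4, norm_smul]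
    have h3' : ‖w - star w‖ ≤ 2 := (norm_sub_le _ _).trans (by linarith)
    have h4' : ‖(-(Complex.I / 2) : ℂ)‖ = 1 / 2 := by simp
    rw [h4']; linarith
  have hw34 : w = b3 + Complex.I • b4 := by
    rw [hb3, hb4, smul_smul]
    have : Complex.I * -(Complex.I / 2) = 1 / 2 := by
      have := Complex.I_mul_I
      linear_combination (-1 / 2 : ℂ) * this
    rw [this, ← smul_add]
    have : w + star w + (w - star w) = (2 : ℂ) • w := by rw [two_smul]; abel
    rw [this, smul_smul]; norm_num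
  -- the two selfadjoint generators of `M`
  set r : H →L[ℂ] H := (1 / 4 : ℂ) • (e * b3 - f * b4) with hr
  set T1 : H →L[ℂ] H := Z + r with hT1
  set T2 : H →L[ℂ] H := X + (e * b1 + f * b2) with hT2
  have hrM : r ∈ M := vn_smul_mem _ (sub_mem (mul_mem heM hb3M) (mul_mem hfM hb4M))
  have hT1M : T1 ∈ M := add_mem hZM hrM
  have hT2M : T2 ∈ M := add_mem hXM (add_mem (mul_mem heM hb1M) (mul_mem hfM hb2M))
  have hT1sa : star T1 = T1 := by
    rw [hT1, hr, star_add, hZsa, star_smul, star_sub, star_mul, star_mul, hesa, hfsa,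
      hb3sa, hb4sa, comme b3 hb3Z, commf b4 hb4Z]
    simp
  have hT2sa : star T2 = T2 := by
    rw [hT2, star_add, star_add, hXsa, star_mul, star_mul, hesa, hfsa,
      hb1sa, hb2sa, comme b1 hb1Z, commf b2 hb2Z]
  have hrn : ‖r‖ < 1 := by
    rw [hr, norm_smul]
    have h4' : ‖(1 / 4 : ℂ)‖ = 1 / 4 := by norm_num
    have h5' : ‖e * b3‖ ≤ 1 := (norm_mul_le _ _).trans (mul_le_one₀ hen (norm_nonneg _) hb3n)
    have h6' : ‖f * b4‖ ≤ 1 := (norm_mul_le _ _).trans (mul_le_one₀ hfn (norm_nonneg _) hb4n)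
    have h7' := norm_sub_le (e * b3) (f * b4)
    rw [h4']; linarith
  have hZr : Z * r = r * Z := by
    have k1 : Z * (e * b3) = (e * b3) * Z := by
      rw [← mul_assoc, comme Z rfl, mul_assoc, mul_assoc, hb3Z]
    have k2 : Z * (f * b4) = (f * b4) * Z := by
      rw [← mul_assoc, commf Z rfl, mul_assoc, mul_assoc, hb4Z]
    rw [hr, mul_smul_comm (1 / 4 : ℂ) Z, smul_mul_assoc (1 / 4 : ℂ) (e * b3 - f * b4) Z, mul_sub,
      sub_mul, k1, k2]
  refine ⟨T1 + Complex.I • T2, add_mem hT1M (vn_smul_mem _ hT2M), fun N hxN => ?_⟩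
  -- recover everything in `N`
  have hxsN : T1 - Complex.I • T2 ∈ N := by
    have := star_mem hxN
    rw [star_add, star_smul, hT1sa, hT2sa] at this
    simpa [sub_eq_add_neg] using this
  have hT1N : T1 ∈ N := by
    have := vn_smul_mem (1 / 2 : ℂ) (add_mem hxN hxsN)
    have e1 : T1 + Complex.I • T2 + (T1 - Complex.I • T2) = (2 : ℂ) • T1 := by
      rw [two_smul]; abel
    rw [e1, smul_smul] at this
    norm_num at this
    exact this
  have hT2N : T2 ∈ N := by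
    have := vn_smul_mem (-Complex.I : ℂ) (sub_mem hxN hT1N)
    have e1 : T1 + Complex.I • T2 - T1 = Complex.I • T2 := by abel
    rw [e1, smul_smul] at this
    simpa using this
  obtain ⟨hZN, hrN⟩ := vn_recover hZZ hZr hrn hT1N
  have heN : e ∈ N := vn_smul_mem _ (add_mem (one_mem _) hZN)
  have hfN : f ∈ N := vn_smul_mem _ (sub_mem (one_mem _) hZN)
  have heb3N : e * b3 ∈ N := by
    have := vn_smul_mem (4 : ℂ) (mul_mem heN hrN)
    have e1 : (4 : ℂ) • (e * r) = e * b3 := by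
      rw [hr, mul_smul_comm, smul_smul, mul_sub, hee', hef']; norm_num
    rwa [e1] at this
  have hfb4N : f * b4 ∈ N := by
    have := vn_smul_mem (-4 : ℂ) (mul_mem hfN hrN)
    have e1 : (-4 : ℂ) • (f * r) = f * b4 := by
      rw [hr, mul_smul_comm, smul_smul, mul_sub, hfe', hff']; norm_num
    rwa [e1] at this
  have heXN : e * X ∈ N := by
    have := mul_mem (mul_mem heN hT2N) hfN
    have e1 : e * T2 * f = e * X := by
      rw [hT2, mul_add, mul_add, add_mul, add_mul, hee', hef', zero_mul, add_zero]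
      rw [mul_assoc, hXf, hee', mul_assoc, commf b1 hb1Z, hef', add_zero]
    rwa [e1] at this
  have hfXN : f * X ∈ N := by
    have := mul_mem (mul_mem hfN hT2N) heN
    have e1 : f * T2 * e = f * X := by
      rw [hT2, mul_add, mul_add, add_mul, add_mul, hfe', hff', zero_mul, zero_add]
      rw [mul_assoc, hXe, hff', mul_assoc, comme b2 hb2Z, hfe', add_zero]
    rwa [e1] at this
  have hXN : X ∈ N := by
    have := add_mem heXN hfXN
    rwa [← add_mul, hef1, one_mul] at this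
  have h12N : e * b1 + f * b2 ∈ N := by
    have := sub_mem hT2N hXN
    have e1 : T2 - X = e * b1 + f * b2 := by rw [hT2]; abel
    rwa [e1] at this
  have heb1N : e * b1 ∈ N := by
    have := mul_mem heN h12N
    rwa [mul_add, hee', hef', add_zero] at this
  have hfb2N : f * b2 ∈ N := by
    have := mul_mem hfN h12N
    rwa [mul_add, hfe', hff', zero_add] at this
  -- from a corner to the whole
  have full_e : ∀ b : H →L[ℂ] H, b * X = X * b → e * b ∈ N → b ∈ N := by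
    intro b hb hbN
    have h3' := mul_mem (mul_mem hXN hbN) hXN
    have e1 : X * (e * b) * X = f * b := by
      rw [hXe', mul_assoc, mul_assoc, hb, hXX']
    rw [e1] at h3'
    have := add_mem hbN h3'
    rwa [← add_mul, hef1, one_mul] at this
  have full_f : ∀ b : H →L[ℂ] H, b * X = X * b → f * b ∈ N → b ∈ N := by
    intro b hb hbN
    have h3' := mul_mem (mul_mem hXN hbN) hXN
    have e1 : X * (f * b) * X = e * b := by
      rw [hXf', mul_assoc, mul_assoc, hb, hXX']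
    rw [e1] at h3'
    have := add_mem h3' hbN
    rwa [← add_mul, hef1, one_mul] at this
  have hb1N : b1 ∈ N := full_e b1 hb1X heb1N
  have hb2N : b2 ∈ N := full_f b2 hb2X hfb2N
  have hb3N : b3 ∈ N := full_e b3 hb3X heb3N
  have hb4N : b4 ∈ N := full_f b4 hb4X hfb4N
  have hwN : w ∈ N := by
    rw [hw34]; exact add_mem hb3N (vn_smul_mem _ hb4N)
  have huN : ∀ j, u (1 + j) ∈ N := mem_of_tailSum_mem husa husq (fun i j hij => (h2 i j hij).1) hb1N
  have hvN : ∀ j, v (1 + j) ∈ N :=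
    mem_of_tailSum_mem hvsa hvsq (fun i j hij => (h2 i j hij).2.2) hb2N
  have hQN : ∀ y ∈ M, y * Z = Z * y → y * X = X * y → y ∈ N :=
    hgen N (fun j => ⟨huN j, hvN j⟩) hwN
  -- corners
  have hcorner : ∀ y ∈ M, e * y * e ∈ N := by
    intro y hy
    have hq : e * y * e + X * (e * y * e) * X ∈ N := by
      apply hQN
      · exact add_mem (mul_mem (mul_mem heM hy) heM)
          (mul_mem (mul_mem hXM (mul_mem (mul_mem heM hy) heM)) hXM)
      · rw [hZef]
        simp only [mul_assoc, mul_add, add_mul, mul_sub, sub_mul, hXe', hXe, hXf, hee', hef',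
          hfe', hff', hee, hef, mul_zero, sub_zero, zero_sub, add_zero]
        rw [sub_eq_add_neg, zero_add]
      · simp only [mul_assoc, mul_add, add_mul, hXe', hXf', hXX, hXX', mul_one]
        rw [add_comm]
    have := mul_mem heN hq
    have e1 : e * (e * y * e + X * (e * y * e) * X) = e * y * e := by
      simp only [mul_assoc, mul_add, hXe', hee', hef', add_zero]
    rwa [e1] at this
  intro y hy
  have e1 : y = e * y * e + (e * (y * X) * e) * X + X * (e * (X * y) * e)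
      + X * (e * (X * y * X) * e) * X := by
    simp only [mul_assoc, hXe', hXX', hXe, hXX, mul_one]
    have e2 : e * (y * e) + e * (y * f) + f * (y * e) + f * (y * f) = y := by
      rw [← mul_add, ← mul_add, hef1, mul_one, add_assoc, ← mul_add, ← mul_add, hef1, mul_one,
        ← add_mul, hef1, one_mul]
    exact e2.symm
  rw [e1]
  exact add_mem (add_mem (add_mem (hcorner y hy) (mul_mem (hcorner _ (mul_mem hy hXM)) hXN))
    (mul_mem hXN (hcorner _ (mul_mem hXM hy))))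
    (mul_mem (mul_mem hXN (hcorner _ (mul_mem (mul_mem hXM hy) hXM))) hXN)

end Crest.Agent.R95
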