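import Crest.Agent.R95.Defs
import Crest.Agent.R95.Factor5
import Crest.Agent.R95.Bridge
import Crest.Agent.R95.SingleGen_Mg

-- ▼ part R95/S0125Glue
section

/-!
R95 (helper761): S0125 from `red2_main` applied to `Q = M ∩ {u 0, v 0}'` (same Hilbert space, same
trace vector sequence) and `single_gen_of_density`.
-/

set_option autoImplicit false

namespace Crest.Agent.R95

open Crest.OpAlg

variable {H : Type*} [NormedAddCommGroup H] [InnerProductSpace ℂ H] [CompleteSpace H]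

/-- `M ∩ {a, b}'` for selfadjoint `a, b` -/
noncomputable def sgComm (M : VonNeumannAlgebra H) (a b : H →L[ℂ] H) : VonNeumannAlgebra H :=
  commSet ((M.commutant : Set (H →L[ℂ] H)) ∪ {a, b})

theorem mem_sgComm {M : VonNeumannAlgebra H} {a b : H →L[ℂ] H} (ha : IsSelfAdjoint a)
    (hb : IsSelfAdjoint b) {x : H →L[ℂ] H} :
    x ∈ sgComm M a b ↔ x ∈ M ∧ a * x = x * a ∧ b * x = x * b := by
  rw [sgComm, mem_commSet]
  constructor
  · intro h
    refine ⟨mem_of_comm fun y hy => (h y (Or.inl hy)).1, (h a (Or.inr (by simp))).1,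
      (h b (Or.inr (by simp))).1⟩
  · rintro ⟨h1, h2, h3⟩ y (hy | hy | hy)
    · exact ⟨(comm_of_mem h1 hy).symm, (comm_of_mem h1 (star_mem hy)).symm⟩
    · rw [hy, ha.star_eq]; exact ⟨h2, h2⟩
    · rw [Set.mem_singleton_iff.1 hy, hb.star_eq]; exact ⟨h3, h3⟩

theorem sg_faithful_of_le {M N : VonNeumannAlgebra H} {ξ : ℕ → H} (hNM : N ≤ M)
    (hξ : IsFaithfulTracialVectorState M ξ) : IsFaithfulTracialVectorState N ξ :=
  ⟨hξ.1, fun x hx y hy => hξ.2.1 x (hNM hx) y (hNM hy), fun x hx h => hξ.2.2 x (hNM hx) h⟩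

/-- S0125 from the reduction `red2_main`, for a von Neumann algebra with a faithful tracial vector
state containing an infinite Pauli sequence. -/
theorem single_gen [TopologicalSpace.SeparableSpace H] {M : VonNeumannAlgebra H} {ξ : ℕ → H}
    {u v : ℕ → H →L[ℂ] H} (hξ : IsFaithfulTracialVectorState M ξ) (h : HasPauli M u v)
    (hRed : ∀ Q P : VonNeumannAlgebra H, P ≤ Q → IsFaithfulTracialVectorState Q ξ →
      (∃ u' v' : ℕ → H →L[ℂ] H, HasPauli P u' v') → Red2Hyp Q P ξ) :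
    ∃ x ∈ M, ∀ N : VonNeumannAlgebra H, x ∈ N → M ≤ N := by
  refine single_gen_of_density h ?_
  have hu : ∀ j, IsSelfAdjoint (u j) := fun j => (h.1 j).2.2.1
  have hv : ∀ j, IsSelfAdjoint (v j) := fun j => (h.1 j).2.2.2.1
  set Q := sgComm M (u 0) (v 0) with hQ
  have hQM : Q ≤ M := fun x hx => ((mem_sgComm (hu 0) (hv 0)).1 hx).1
  set S : Set (H →L[ℂ] H) := {x | ∃ j, x = u (1 + j) ∨ x = v (1 + j)} with hS
  set P := vnGen S with hP
  have hPQ : P ≤ Q := by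
    refine vnGen_le ?_
    rintro s ⟨j, rfl | rfl⟩
    · exact (mem_sgComm (hu 0) (hv 0)).2 ⟨(h.1 _).1, (h.2 0 (1 + j) (by omega)).1,
        ((h.2 (1 + j) 0 (by omega)).2.1).symm⟩
    · exact (mem_sgComm (hu 0) (hv 0)).2 ⟨(h.1 _).2.1, (h.2 0 (1 + j) (by omega)).2.1,
        (h.2 0 (1 + j) (by omega)).2.2⟩
  have hPauli : HasPauli P (fun j => u (1 + j)) (fun j => v (1 + j)) := by
    refine ⟨fun j => ?_, fun j k hjk => h.2 _ _ (by omega)⟩
    exact ⟨subset_vnGen S _ ⟨j, Or.inl rfl⟩, subset_vnGen S _ ⟨j, Or.inr rfl⟩, (h.1 _).2.2⟩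
  have hQξ : IsFaithfulTracialVectorState Q ξ := sg_faithful_of_le hQM hξ
  obtain ⟨-, hdens⟩ := red2_main hPQ hQξ (hRed Q P hPQ hQξ ⟨_, _, hPauli⟩)
  obtain ⟨w, hwQ, hwU, hw, -⟩ := hdens 1 (one_mem _) (one_mem _) 1 one_pos
  obtain ⟨hwM, hw0, hw0'⟩ := (mem_sgComm (hu 0) (hv 0)).1 hwQ
  refine ⟨w, hwM, hwU, hw0.symm, hw0'.symm, fun N hN hwN y hy hy0 hy0' => ?_⟩
  have hPN : P ≤ N := by
    refine vnGen_le ?_
    rintro s ⟨j, rfl | rfl⟩
    · exact (hN j).1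
    · exact (hN j).2
  exact hw N hPN hwN ((mem_sgComm (hu 0) (hv 0)).2 ⟨hy, hy0.symm, hy0'.symm⟩)

/-- S0125 modulo `Red2Hyp` -/
theorem s0125_of_red [TopologicalSpace.SeparableSpace H] {M : VonNeumannAlgebra H}
    (hM : IsTypeIIOneFactor M)
    (hRed : ∀ (Q P : VonNeumannAlgebra H) (ξ : ℕ → H), P ≤ Q → IsFaithfulTracialVectorState Q ξ →
      (∃ u' v' : ℕ → H →L[ℂ] H, HasPauli P u' v') → Red2Hyp Q P ξ) :
    ∃ x ∈ M, ∀ N : VonNeumannAlgebra H, x ∈ N → M ≤ N := by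
  obtain ⟨u, v, h⟩ := hasPauli_of_factor M hM
  obtain ⟨ξ, hξ⟩ := hM.2.2
  exact single_gen hξ h fun Q P => hRed Q P ξ

end Crest.Agent.R95
end

-- ▼ part R95/Final

/-!
R95 (helper95): final assembly of S0125 and S0126 from the core statement.
-/

set_option autoImplicit false

universe u

namespace Crest.Agent.R95

open Crest.OpAlg

variable {H : Type u} [NormedAddCommGroup H] [InnerProductSpace ℂ H] [CompleteSpace H]

theorem red2Hyp_of_core (hcore : CoreStatement.{u}) {M P : VonNeumannAlgebra H} {ξ : ℕ → H}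
    (hPM : P ≤ M) (hξ : IsFaithfulTracialVectorState M ξ)
    (hP : ∃ u v : ℕ → H →L[ℂ] H, HasPauli P u v) : Red2Hyp M P ξ := by
  obtain ⟨u, v, huv⟩ := hP
  have huvM : HasPauli M u v :=
    ⟨fun j => ⟨hPM (huv.1 j).1, hPM (huv.1 j).2.1, (huv.1 j).2.2⟩, huv.2⟩
  refine ⟨?_, ?_, ?_⟩
  · intro w hw hwu ε hε
    obtain ⟨z, X, hz, hX, hN, hmem⟩ := exists_cay_near (sqSum hξ) hwu hε
    exact ⟨z, hz, X, hmem M.toStarSubalgebra (isClosed_vn M) hw, hX, hN⟩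
  · intro N hNM R hR x hx hxsa hxR y hy hysa
    refine ⟨cl R y, cl_mem hy, isSelfAdjoint_cl R y, norm_cl_le hR y, ?_⟩
    have h := N2_sub_cl_le hξ hx (hNM hy) hxsa hysa hxR
    rw [N2_sub_comm, N2_sub_comm y x]
    exact h
  · intro R s0 hs0
    obtain ⟨κ, hκ, h⟩ := core_concrete_of hcore hξ huvM R s0 hs0
    refine ⟨κ, hκ, fun y0 hy0 hsa hR hs X hX hXsa ε hε => ?_⟩
    obtain ⟨Z, hZ, Y, hY, hZsa, hZX, hY1, hYk, hN⟩ := h y0 hy0 hsa hR hs X hX hXsa ε hε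
    exact ⟨Z, hZ, Y, hY, hZsa, hZX, hY1, hYk, fun N hPN hZN =>
      hN N (fun j => ⟨hPN (huv.1 j).1, hPN (huv.1 j).2.1⟩) hZN⟩

theorem s0126_of_core (hcore : CoreStatement.{u}) [TopologicalSpace.SeparableSpace H]
    (P M : VonNeumannAlgebra H) (hPM : P ≤ M) (hP : IsTypeIIOneFactor P)
    (ξ : ℕ → H) (hξ : IsFaithfulTracialVectorState M ξ) :
    (∃ O : ℕ → Set (H →L[ℂ] H),
      (∀ k : ℕ, ∀ u ∈ M, u ∈ unitary (H →L[ℂ] H) → u ∈ O k → ∃ δ : ℝ, 0 < δ ∧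
        ∀ v ∈ M, v ∈ unitary (H →L[ℂ] H) → Crest.OpAlg.traceNormSq ξ (v - u) < δ → v ∈ O k) ∧
      (∀ u ∈ M, u ∈ unitary (H →L[ℂ] H) →
        ((∀ N : VonNeumannAlgebra H, P ≤ N → u ∈ N → M ≤ N) ↔ ∀ k : ℕ, u ∈ O k))) ∧
    (∀ u ∈ M, u ∈ unitary (H →L[ℂ] H) → ∀ ε : ℝ, 0 < ε →
      ∃ v ∈ M, v ∈ unitary (H →L[ℂ] H) ∧ (∀ N : VonNeumannAlgebra H, P ≤ N → v ∈ N → M ≤ N) ∧
        Crest.OpAlg.traceNormSq ξ (v - u) < ε) :=
  red2_main hPM hξ (red2Hyp_of_core hcore hPM hξ (hasPauli_of_factor P hP))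

theorem s0125_of_core (hcore : CoreStatement.{u}) [TopologicalSpace.SeparableSpace H]
    (M : VonNeumannAlgebra H) (hM : IsTypeIIOneFactor M) :
    ∃ x ∈ M, ∀ N : VonNeumannAlgebra H, x ∈ N → M ≤ N :=
  s0125_of_red hM fun _ _ _ hPQ hξ hP => red2Hyp_of_core hcore hPQ hξ hP

end Crest.Agent.R95
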