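import Crest.Agent.R95.Defs

/-!
# R95: 2-norm lemmas for an abstract tracial state (helper935)
-/

set_option autoImplicit false

namespace Crest.Agent.R95

open Complex

namespace TracialState

variable {A : Type*} [CStarAlgebra A] (T : TracialState A)

theorem nrm2_nonneg (a : A) : 0 ≤ T.nrm2 a := Real.sqrt_nonneg _

theorem nrm2_sq (a : A) : T.nrm2 a ^ 2 = (T.τ (star a * a)).re :=
  Real.sq_sqrt (T.pos a)

theorem nrm2_zero : T.nrm2 (0 : A) = 0 := by
  unfold nrm2; simp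

theorem nrm2_smul (c : ℂ) (a : A) : T.nrm2 (c • a) = ‖c‖ * T.nrm2 a := by
  have h : T.τ (star (c • a) * (c • a)) = ((‖c‖ ^ 2 : ℝ) : ℂ) * T.τ (star a * a) := by
    rw [star_smul, smul_mul_assoc, mul_smul_comm, smul_smul, map_smul, smul_eq_mul,
      Complex.star_def, ← Complex.normSq_eq_conj_mul_self, Complex.normSq_eq_norm_sq]
  unfold nrm2
  rw [h, Complex.re_ofReal_mul, Real.sqrt_mul (sq_nonneg _), Real.sqrt_sq (norm_nonneg _)]

theorem nrm2_neg (a : A) : T.nrm2 (-a) = T.nrm2 a := by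
  unfold nrm2; simp

theorem nrm2_star (a : A) : T.nrm2 (star a) = T.nrm2 a := by
  unfold nrm2; rw [star_star, T.tr]

theorem star_mul_comm_re (a b : A) : (T.τ (star b * a)).re = (T.τ (star a * b)).re := by
  have h := T.star' (star a * b)
  rw [star_mul, star_star] at h
  rw [h, Complex.conj_re]

theorem nrm2_add_sq (a b : A) :
    T.nrm2 (a + b) ^ 2 = T.nrm2 a ^ 2 + 2 * (T.τ (star a * b)).re + T.nrm2 b ^ 2 := by
  rw [nrm2_sq, nrm2_sq, nrm2_sq, star_add, add_mul, mul_add, mul_add]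
  simp only [map_add, Complex.add_re]
  rw [T.star_mul_comm_re a b]
  ring

theorem norm_tau_star_mul_le (a b : A) : ‖T.τ (star a * b)‖ ≤ T.nrm2 a * T.nrm2 b := by
  set z : ℂ := T.τ (star a * b) with hz
  -- choose unimodular c with c * z = ‖z‖
  obtain ⟨c, hc, hcz⟩ : ∃ c : ℂ, ‖c‖ = 1 ∧ c * z = (‖z‖ : ℂ) := by
    by_cases h0 : z = 0
    · exact ⟨1, by simp, by simp [h0]⟩
    · refine ⟨(starRingEnd ℂ z) / ‖z‖, ?_, ?_⟩
      · rw [norm_div, RCLike.norm_conj, Complex.norm_real, norm_norm, div_self]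
        exact norm_ne_zero_iff.2 h0
      · have : (‖z‖ : ℂ) ≠ 0 := by exact_mod_cast norm_ne_zero_iff.2 h0
        rw [div_mul_eq_mul_div, ← Complex.normSq_eq_conj_mul_self, Complex.normSq_eq_norm_sq]
        push_cast
        field_simp
  have key : ∀ t : ℝ, 0 ≤ T.nrm2 b ^ 2 * (t * t) + (2 * ‖z‖) * t + T.nrm2 a ^ 2 := by
    intro t
    have h := T.nrm2_add_sq a (((t : ℂ) * c) • b)
    have h1 : T.τ (star a * (((t : ℂ) * c) • b)) = (t * ‖z‖ : ℝ) := by
      rw [mul_smul_comm, map_smul, smul_eq_mul, ← hz, mul_assoc, hcz]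
      push_cast; ring
    rw [h1, T.nrm2_smul, norm_mul, hc, Complex.ofReal_re, Complex.norm_real, mul_one, mul_pow,
      Real.norm_eq_abs, sq_abs] at h
    nlinarith [sq_nonneg (T.nrm2 (a + ((t : ℂ) * c) • b))]
  have hd := discrim_le_zero key
  unfold discrim at hd
  have h3 : ‖z‖ ^ 2 ≤ (T.nrm2 a * T.nrm2 b) ^ 2 := by nlinarith
  exact abs_le_of_sq_le_sq' h3 (mul_nonneg (T.nrm2_nonneg a) (T.nrm2_nonneg b)) |>.2

theorem norm_tau_mul_le (a b : A) : ‖T.τ (a * b)‖ ≤ T.nrm2 a * T.nrm2 b := by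
  have := T.norm_tau_star_mul_le (star a) b
  rwa [star_star, nrm2_star] at this

theorem nrm2_mul_le_left (a b : A) : T.nrm2 (a * b) ≤ ‖a‖ * T.nrm2 b := by
  unfold nrm2
  rw [← Real.sqrt_sq (norm_nonneg a), ← Real.sqrt_mul (sq_nonneg _)]
  exact Real.sqrt_le_sqrt (T.bdd a b)

theorem nrm2_mul_le_right (a b : A) : T.nrm2 (a * b) ≤ T.nrm2 a * ‖b‖ := by
  rw [← T.nrm2_star, star_mul, mul_comm (T.nrm2 a), ← T.nrm2_star a, ← norm_star b]
  exact T.nrm2_mul_le_left _ _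

theorem nrm2_add_le (a b : A) : T.nrm2 (a + b) ≤ T.nrm2 a + T.nrm2 b := by
  have h := T.nrm2_add_sq a b
  have h1 : (T.τ (star a * b)).re ≤ T.nrm2 a * T.nrm2 b :=
    (Complex.re_le_norm _).trans (T.norm_tau_star_mul_le a b)
  have h2 : T.nrm2 (a + b) ^ 2 ≤ (T.nrm2 a + T.nrm2 b) ^ 2 := by nlinarith
  exact abs_le_of_sq_le_sq' h2 (add_nonneg (T.nrm2_nonneg a) (T.nrm2_nonneg b)) |>.2

theorem nrm2_sub_le (a b : A) : T.nrm2 (a - b) ≤ T.nrm2 a + T.nrm2 b := by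
  rw [sub_eq_add_neg, ← T.nrm2_neg b]
  exact T.nrm2_add_le _ _

theorem nrm2_sub_comm (a b : A) : T.nrm2 (a - b) = T.nrm2 (b - a) := by
  rw [← T.nrm2_neg, neg_sub]

theorem nrm2_triangle (a b c : A) : T.nrm2 (a - c) ≤ T.nrm2 (a - b) + T.nrm2 (b - c) := by
  have : a - c = (a - b) + (b - c) := by abel
  rw [this]
  exact T.nrm2_add_le _ _


theorem nrm2_one : T.nrm2 (1 : A) = 1 := by
  unfold nrm2; rw [star_one, one_mul, T.one]; simp

theorem nrm2_le_norm (a : A) : T.nrm2 a ≤ ‖a‖ := by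
  have := T.nrm2_mul_le_left a 1
  rwa [mul_one, nrm2_one, mul_one] at this

theorem norm_tau_le (a : A) : ‖T.τ a‖ ≤ ‖a‖ := by
  have := T.norm_tau_mul_le 1 a
  rw [one_mul, nrm2_one, one_mul] at this
  exact this.trans (T.nrm2_le_norm a)

theorem nrm2_unitary_mul {u : A} (h : star u * u = 1) (a : A) : T.nrm2 (u * a) = T.nrm2 a := by
  unfold nrm2
  rw [star_mul, mul_assoc, ← mul_assoc (star u), h, one_mul]


theorem nrm2_mul_mul_le (a b c : A) : T.nrm2 (a * b * c) ≤ ‖a‖ * T.nrm2 b * ‖c‖ :=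
  (T.nrm2_mul_le_right _ _).trans
    (mul_le_mul_of_nonneg_right (T.nrm2_mul_le_left _ _) (norm_nonneg _))

end TracialState

end Crest.Agent.R95
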